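import Mathlib

/-!
# P019: the definitions used in the statement

The relations are defined for any `𝔽_ℓ`-space `M` with a class map `cl : Fˣ → M`, `x ↦ [x]`;
the statement uses them only for `M = V ℓ F` and `cl = cls ℓ`.
-/

namespace Vale.Agent.N019

open scoped TensorProduct

/-- `V_F = Fˣ / (Fˣ)^ℓ`, written additively; an `𝔽_ℓ`-space. -/
abbrev V (ℓ : ℕ) (F : Type*) [Field F] : Type _ := ModN (Additive Fˣ) ℓ

/-- The class `[x]` in `V_F` of `x ∈ Fˣ`. -/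
noncomputable def cls (ℓ : ℕ) {F : Type*} [Field F] (x : Fˣ) : V ℓ F :=
  ModN.mkQ ℓ (Additive.ofMul x)

variable {ℓ : ℕ} {K L K' L' M N N' : Type*} [Field K] [Field L] [Field K'] [Field L']
  [AddCommMonoid M] [Module (ZMod ℓ) M] [AddCommMonoid N] [Module (ZMod ℓ) N]
  [AddCommMonoid N'] [Module (ZMod ℓ) N']

variable (ℓ) in
/-- `R_K`, the span in `V_K ⊗ V_K` of all `[x] ⊗ [1 - x]`, `x ≠ 0, 1`. -/
noncomputable def R (cl : Kˣ → M) : Submodule (ZMod ℓ) (M ⊗[ZMod ℓ] M) :=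
  Submodule.span (ZMod ℓ) {t | ∃ x y : Kˣ, (x : K) + (y : K) = 1 ∧ t = cl x ⊗ₜ[ZMod ℓ] cl y}

/-- `Θ : V_K → V_L` is compatible: `(Θ ⊗ Θ)(R_K) = R_L`. -/
def Compatible (clK : Kˣ → M) (clL : Lˣ → N) (Θ : M ≃ₗ[ZMod ℓ] N) : Prop :=
  (R ℓ clK).map (TensorProduct.map Θ.toLinearMap Θ.toLinearMap) = R ℓ clL

/-- `Θ = c • α_*`, read through `V_K = V_{K'}` and `V_L = V_{L'}`: if `Θ [x] = [y]`, then
`[y] = c • [α x]` in `V_{L'}`. -/
def Induced [Algebra K K'] [Algebra L L'] (clK : Kˣ → M) (clL : Lˣ → N) (clL' : L'ˣ → N')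
    (Θ : M ≃ₗ[ZMod ℓ] N) (c : (ZMod ℓ)ˣ) (α : K' ≃+* L') : Prop :=
  ∀ (x : Kˣ) (y : Lˣ), Θ (clK x) = clL y →
    clL' (Units.map (algebraMap L L' : L →* L') y) =
      (c : ZMod ℓ) • clL' (Units.map (α : K' →* L') (Units.map (algebraMap K K' : K →* K') x))

/-- Two linear forms `f, g : V_K → 𝔽_ℓ` are a commuting pair if
`f [x] * g [1 - x] = f [1 - x] * g [x]` for all `x ≠ 0, 1`. -/
def Commuting (cl : Kˣ → M) (f g : M →ₗ[ZMod ℓ] ZMod ℓ) : Prop :=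
  ∀ x y : Kˣ, (x : K) + (y : K) = 1 → f (cl x) * g (cl y) = f (cl y) * g (cl x)

/-- `Θ : V_K → V_L` matches the commuting pairs: `(f, g)` is a commuting pair on `V_L` if and only
if `(f ∘ Θ, g ∘ Θ)` is a commuting pair on `V_K`. -/
def MatchesPairs (clK : Kˣ → M) (clL : Lˣ → N) (Θ : M ≃ₗ[ZMod ℓ] N) : Prop :=
  ∀ f g : N →ₗ[ZMod ℓ] ZMod ℓ,
    Commuting clL f g ↔ Commuting clK (f ∘ₗ Θ.toLinearMap) (g ∘ₗ Θ.toLinearMap)

end Vale.Agent.N019
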