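import Vale.Agent.N019.W4
import Vale.Agent.N019.Defs

/-!
# P019: commuting pairs, separably closed constants, and the case of one variable
-/

namespace Vale.Agent.P019P.N019

open Vale.Agent.P019 Vale.Agent.P019P.H654

open scoped TensorProduct

set_option linter.all false

/-! ## Separably closed constants -/

section sep

variable {k K K' : Type*} [Field k] [Field K] [Field K'] [Algebra k K] [Algebra K K']

theorem exists_two_indep (h : 2 ≤ Algebra.trdeg k K) :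
    ∃ x y : K, ¬ IsAlgebraic (Vale.Agent.P019.adj (cst k K) x) y ∧
      ¬ IsAlgebraic (Vale.Agent.P019.adj (cst k K) y) x := by
  obtain ⟨s, hs⟩ := exists_isTranscendenceBasis k K
  have h1 : (2 : Cardinal) ≤ Cardinal.mk s := by
    rw [hs.cardinalMk_eq_trdeg]
    exact h
  have key : ∀ x y : s, x ≠ y → ¬ IsAlgebraic (Vale.Agent.P019.adj (cst k K) (x : K)) (y : K) := by
    intro x y hxy hy
    have h3 : AlgebraicIndependent k
        (fun o : Option Unit => o.elim (y : K) (fun _ => (x : K))) := by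
      have h4 : Function.Injective (fun o : Option Unit => o.elim y (fun _ => x)) := by
        rintro (_ | _) (_ | _) hab
        · rfl
        · exact absurd hab.symm hxy
        · exact absurd hab hxy
        · rfl
      have h5 := hs.1.comp _ h4
      have h6 : (fun o : Option Unit => o.elim (y : K) (fun _ => (x : K))) =
          ((↑) : s → K) ∘ (fun o : Option Unit => o.elim y (fun _ => x)) := by
        funext o
        rcases o with _ | _ <;> rfl
      rw [h6]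
      exact h5
    rw [AlgebraicIndependent.option_iff] at h3
    apply h3.2
    rw [isAlgebraic_adjoin_cst]
    have h4 : Set.range (fun _ : Unit => (x : K)) = {(x : K)} := Set.range_const
    rw [h4]
    exact hy
  obtain ⟨x, y, hxy⟩ := Cardinal.two_le_iff.1 h1
  exact ⟨x, y, key x y hxy, key y x hxy.symm⟩

theorem not_alg_map {x y : K} (hy : ¬ IsAlgebraic (Vale.Agent.P019.adj (cst k K) x) y) :
    ¬ IsAlgebraic (adj (cst' k K K') (algebraMap K K' x)) (algebraMap K K' y) := by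
  intro h'
  rw [isAlgebraic_adj] at h'
  apply hy
  apply Vale.Agent.P019.Gn.isAlgebraic_of_map (Ω := K')
  have h1 : Vale.Agent.P019.adj (cst' k K K') (algebraMap K K' x) ≤
      (Vale.Agent.P019.adj (cst k K) x).map (algebraMap K K') := by
    refine Vale.Agent.P019.adj_le ?_ ⟨x, Vale.Agent.P019.mem_adj _ _, rfl⟩
    rintro _ ⟨z, hz, rfl⟩
    exact ⟨z, Vale.Agent.P019.le_adj _ _ hz, rfl⟩
  exact isAlgebraic_mono h1 h'

theorem exists_two_pf [PerfectField K'] (h : 2 ≤ Algebra.trdeg k K) :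
    ∃ x y : K', x ∉ pf (cst' k K K') ∧ ¬ IsAlgebraic (adj (pf (cst' k K K')) x) y := by
  obtain ⟨x, y, h1, h2⟩ := exists_two_indep h
  refine ⟨algebraMap K K' x, algebraMap K K' y, fun hx => ?_, fun hy => ?_⟩
  · exact not_alg_map (K' := K') h2 (isAlgebraic_of_mem (pf_le (le_adj _ _) hx))
  · exact not_alg_map (K' := K') h1
      (isAlgebraic_mono (adj_le (pf_le (le_adj _ _)) (mem_adj _ _)) hy)

theorem fg_pf [Algebra.EssFiniteType k K] [IsPurelyInseparable K K'] :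
    FG (pf (cst' k K K')) (⊤ : Subfield K') := by
  obtain ⟨S, hS⟩ := fg_cst' (k := k) (K := K) (K' := K')
  refine ⟨S, le_antisymm ?_ le_top⟩
  rw [hS]
  exact pf_mono (sup_le_sup_right (le_pf _) _)

theorem isAlgClosed_pf [IsSepClosed k] [PerfectField K'] : IsAlgClosed (pf (cst' k K K')) := by
  let φ : k →+* pf (cst' k K K') :=
    ((algebraMap K K').comp (algebraMap k K)).codRestrict _ fun c => le_pf _ (mem_cst'.2 ⟨c, rfl⟩)
  letI : Algebra k (pf (cst' k K K')) := φ.toAlgebra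
  haveI : Algebra.IsAlgebraic k (pf (cst' k K K')) := ⟨fun z => by
    obtain ⟨n, hn⟩ := mem_pf.1 z.2
    obtain ⟨c, hc⟩ := mem_cst'.1 hn
    refine IsAlgebraic.of_pow (qpow_pos K' n) ?_
    have h1 : z ^ ringExpChar K' ^ n = algebraMap k (pf (cst' k K K')) c := Subtype.ext hc.symm
    rw [h1]
    exact isAlgebraic_algebraMap c⟩
  haveI : IsSepClosed (pf (cst' k K K')) := Algebra.IsAlgebraic.isSepClosed (F := k)
  exact IsSepClosed.isAlgClosed_of_perfectField _

end sep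

section core

variable {ℓ : ℕ} [Fact ℓ.Prime] {k K l L : Type*} [Field k] [Field K] [Field l] [Field L]
  [Algebra k K] [Algebra l L]
  {K' L' : Type*} [Field K'] [Field L'] [Algebra K K'] [Algebra L L']
  [PerfectField K'] [PerfectField L'] [IsPurelyInseparable K K'] [IsPurelyInseparable L L']
  [NeZero (ℓ : K)] [NeZero (ℓ : L)] [NeZero (ℓ : K')] [NeZero (ℓ : L')]

/-- the reconstruction from commuting pairs, over separably closed constants. -/
theorem core [IsSepClosed k] [IsSepClosed l] [Algebra.EssFiniteType k K]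
    [Algebra.EssFiniteType l L] (hKtr : 2 ≤ Algebra.trdeg k K)
    {Θ : V ℓ K ≃ₗ[ZMod ℓ] V ℓ L} (hΘ : Compatible Θ) :
    ∃ (c : (ZMod ℓ)ˣ) (α : K' ≃+* L'), (∀ x, x ∈ pf (cst' k K K') ↔ α x ∈ pf (cst' l L L')) ∧
      Induces Θ c α := by
  have hkc : IsAlgClosed (pf (cst' k K K')) := isAlgClosed_pf
  have hlc : IsAlgClosed (pf (cst' l L L')) := isAlgClosed_pf
  have hkf : FG (pf (cst' k K K')) (⊤ : Subfield K') := fg_pf
  have hlf : FG (pf (cst' l L L')) (⊤ : Subfield L') := fg_pf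
  have htr := exists_two_pf (K' := K') hKtr
  let Θ' : V ℓ K' ≃ₗ[ZMod ℓ] V ℓ L' :=
    ((perfV ℓ K K').symm.trans Θ).trans (perfV ℓ L L')
  have hΘ' : Compatible Θ' :=
    Compatible.trans (Compatible.trans perfV_compatible.symm hΘ) perfV_compatible
  obtain ⟨c, α, h5, h6⟩ : ∃ (c : (ZMod ℓ)ˣ) (α : K' ≃+* L'),
      (∀ x, x ∈ pf (cst' k K K') ↔ α x ∈ pf (cst' l L L')) ∧
      ∀ x : K', Θ' (cl ℓ x) = (c : ZMod ℓ) • cl ℓ (α x) :=
    main_gen hkc hkf hlc hlf hΘ' htr (two_of_compatible hkc hkf hlc hΘ' htr)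
  refine ⟨c, α, h5, induces_iff.2 fun v => ?_⟩
  obtain ⟨x, hx0, hx⟩ := cl_surj ℓ (perfV ℓ K K' v)
  have h7 := h6 x
  rw [hx] at h7
  rw [← hx, Veq_cl]
  rw [← h7]
  change _ = perfV ℓ L L' (Θ ((perfV ℓ K K').symm (perfV ℓ K K' v)))
  rw [LinearEquiv.symm_apply_apply]

/-- an induced isomorphism is compatible in the strong sense. -/
theorem strong_of_induces {Θ : V ℓ K ≃ₗ[ZMod ℓ] V ℓ L} {c : (ZMod ℓ)ˣ} {α : K' ≃+* L'}
    (h : Induces Θ c α) : Vale.Agent.P019.Compatible Θ := by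
  obtain ⟨Θ₀, ⟨h1, h2⟩, -⟩ := exists_unique_induced (K := K) (L := L) c α
  have h3 : Θ = Θ₀ := by
    rw [induces_iff] at h h2
    ext v
    apply (perfV ℓ L L').injective
    rw [h, h2]
  rw [h3]
  exact h1

end core

/-! ## Translation to the definitions of the statement -/

section plain

variable {ℓ : ℕ} [Fact ℓ.Prime] {K L : Type*} [Field K] [Field L]

theorem map_bet (F : Type*) [Field F] : (Vale.Agent.N019.R ℓ (Vale.Agent.N019.cls ℓ (F := F))).map
    (TensorProduct.map (bet ℓ F).toLinearMap (bet ℓ F).toLinearMap) = R ℓ F := by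
  apply le_antisymm
  · rintro _ ⟨t, ht, rfl⟩
    exact bet_mem ht
  · conv_lhs => unfold R
    rw [Submodule.span_le]
    rintro _ ⟨x, y, hxy, rfl⟩
    exact ⟨_, Submodule.subset_span ⟨x, y, hxy, rfl⟩, by rw [TensorProduct.map_tmul]; rfl⟩

theorem bet_inj (F : Type*) [Field F] : Function.Injective
    (TensorProduct.map (bet ℓ F).toLinearMap (bet ℓ F).toLinearMap) :=
  (TensorProduct.congr (bet ℓ F) (bet ℓ F)).injective

theorem conj_bet (Θ : Vale.Agent.N019.V ℓ K ≃ₗ[ZMod ℓ] Vale.Agent.N019.V ℓ L) :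
    (conj Θ).toLinearMap ∘ₗ (bet ℓ K).toLinearMap = (bet ℓ L).toLinearMap ∘ₗ Θ.toLinearMap := by
  refine LinearMap.ext fun v => ?_
  change bet ℓ L (Θ ((bet ℓ K).symm (bet ℓ K v))) = bet ℓ L (Θ v)
  rw [LinearEquiv.symm_apply_apply]

theorem compatible_iff (Θ : Vale.Agent.N019.V ℓ K ≃ₗ[ZMod ℓ] Vale.Agent.N019.V ℓ L) :
    Vale.Agent.N019.Compatible (Vale.Agent.N019.cls ℓ) (Vale.Agent.N019.cls ℓ) Θ ↔ Vale.Agent.P019.Compatible (conj Θ) := by
  refine ⟨compatible_conj Θ, fun h => ?_⟩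
  apply Submodule.map_injective_of_injective (bet_inj L)
  unfold Vale.Agent.P019.Compatible at h
  rw [map_bet, ← h, ← map_bet K, ← Submodule.map_comp, ← Submodule.map_comp,
    ← TensorProduct.map_comp, ← TensorProduct.map_comp, conj_bet]

theorem commuting_iff (a b : V ℓ K →ₗ[ZMod ℓ] ZMod ℓ) :
    Vale.Agent.N019.Commuting (Vale.Agent.N019.cls ℓ) (a ∘ₗ (bet ℓ K).toLinearMap) (b ∘ₗ (bet ℓ K).toLinearMap) ↔
      CPair a b := by
  constructor
  · intro h x
    by_cases hx : x = 0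
    · rw [hx, cl_zero, map_zero, map_zero, zero_mul, mul_zero]
    by_cases hx1 : 1 - x = 0
    · rw [hx1, cl_zero, map_zero, map_zero, zero_mul, mul_zero]
    rw [cl_of_ne ℓ hx, cl_of_ne ℓ hx1]
    exact h (Units.mk0 x hx) (Units.mk0 (1 - x) hx1) (by simp)
  · intro h x y hxy
    have hy : (y : K) = 1 - x := by rw [← hxy]; ring
    have h1 := h (x : K)
    rw [← hy, cl_unit, cl_unit] at h1
    exact h1

theorem matches_iff (Θ : Vale.Agent.N019.V ℓ K ≃ₗ[ZMod ℓ] Vale.Agent.N019.V ℓ L) :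
    Vale.Agent.N019.MatchesPairs (Vale.Agent.N019.cls ℓ) (Vale.Agent.N019.cls ℓ) Θ ↔ Compatible (conj Θ) := by
  have h1 : ∀ a b : V ℓ L →ₗ[ZMod ℓ] ZMod ℓ,
      (Vale.Agent.N019.Commuting (Vale.Agent.N019.cls ℓ) (a ∘ₗ (bet ℓ L).toLinearMap) (b ∘ₗ (bet ℓ L).toLinearMap) ↔
        Vale.Agent.N019.Commuting (Vale.Agent.N019.cls ℓ) ((a ∘ₗ (bet ℓ L).toLinearMap) ∘ₗ Θ.toLinearMap)
          ((b ∘ₗ (bet ℓ L).toLinearMap) ∘ₗ Θ.toLinearMap)) ↔
      (CPair a b ↔ CPair (a ∘ₗ (conj Θ).toLinearMap) (b ∘ₗ (conj Θ).toLinearMap)) := by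
    intro a b
    rw [LinearMap.comp_assoc, LinearMap.comp_assoc, ← conj_bet, ← LinearMap.comp_assoc,
      ← LinearMap.comp_assoc, commuting_iff, commuting_iff]
  constructor
  · intro h a b
    exact (h1 a b).1 (h _ _)
  · intro h f g
    have h2 : ∀ f : Vale.Agent.N019.V ℓ L →ₗ[ZMod ℓ] ZMod ℓ,
        (f ∘ₗ (bet ℓ L).symm.toLinearMap) ∘ₗ (bet ℓ L).toLinearMap = f := by
      intro f
      refine LinearMap.ext fun v => ?_
      change f ((bet ℓ L).symm (bet ℓ L v)) = f v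
      rw [LinearEquiv.symm_apply_apply]
    have h3 := (h1 (f ∘ₗ (bet ℓ L).symm.toLinearMap) (g ∘ₗ (bet ℓ L).symm.toLinearMap)).2 (h _ _)
    rwa [h2, h2] at h3

theorem induced_iff {K' L' : Type*} [Field K'] [Field L'] [Algebra K K'] [Algebra L L']
    (Θ : Vale.Agent.N019.V ℓ K ≃ₗ[ZMod ℓ] Vale.Agent.N019.V ℓ L) (c : (ZMod ℓ)ˣ)
    (α : K' ≃+* L') : Vale.Agent.N019.Induced (Vale.Agent.N019.cls ℓ) (Vale.Agent.N019.cls ℓ) (Vale.Agent.N019.cls ℓ) Θ c α ↔ Induces (conj Θ) c α := by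
  refine forall_congr' fun x => forall_congr' fun y => imp_congr ?_ ?_
  · rw [conj_mk, ← bet_md, (bet ℓ L).injective.eq_iff]
    rfl
  · rw [← bet_md, ← bet_md, ← map_smul, (bet ℓ L').injective.eq_iff]
    rfl

end plain

/-! ## One variable -/

section line

variable {ℓ : ℕ} [Fact ℓ.Prime] {F : Type*} [Field F] [PerfectField F] [NeZero (ℓ : F)]
  {k : Subfield F} {x : F}

theorem VS_top (v : V ℓ F) : v ∈ VS ℓ (⊤ : Subfield F) := by
  obtain ⟨z, -, rfl⟩ := cl_surj ℓ v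
  exact cl_mem_VS (Subfield.mem_top z)

theorem R_top (hk : IsAlgClosed k) (hx : x ∉ k) (h : adj k x = ⊤) : R ℓ F = ⊤ := by
  have h1 := Vale.Agent.P019P.adj_isotropic (ℓ := ℓ) hk hx
  rw [h] at h1
  rw [eq_top_iff]
  intro t ht
  clear ht
  induction t with
  | zero => exact Submodule.zero_mem _
  | tmul u w => exact h1 u (VS_top u) w (VS_top w)
  | add a b ha hb => exact Submodule.add_mem _ ha hb

theorem exists_basis (hk : IsAlgClosed k) (hx : x ∉ k) (h : adj k x = ⊤) :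
    ∃ b : Module.Basis k (ZMod ℓ) (V ℓ F), ∀ c : k, b c = cl ℓ (x - c) := by
  classical
  have hg : Good k x := ⟨hx, by rw [h]; exact fun z _ => Subfield.mem_top z⟩
  have h1 : LinearIndependent (ZMod ℓ) fun c : k => cl ℓ (x - (c : F)) := by
    rw [linearIndependent_iff']
    intro s g hs c hc
    have h2 := good_independent (ℓ := ℓ) hk hg (s.map (Function.Embedding.subtype _))
      (fun c hc => by
        obtain ⟨d, -, rfl⟩ := Finset.mem_map.1 hc
        exact d.2)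
      (fun z => if hz : z ∈ k then g ⟨z, hz⟩ else 0)
      (by
        rw [Finset.sum_map, ← hs]
        refine Finset.sum_congr rfl fun d _ => ?_
        simp)
      c (Finset.mem_map.2 ⟨c, hc, rfl⟩)
    simpa using h2
  have h2 : ⊤ ≤ Submodule.span (ZMod ℓ) (Set.range fun c : k => cl ℓ (x - (c : F))) := by
    intro v _
    apply line_VS_le hk hx
    rw [h]
    exact VS_top v
  exact ⟨Module.Basis.mk h1 h2, fun c => Module.Basis.mk_apply h1 h2 c⟩

/-- a form that vanishes on the units of a valuation ring is constant on translates. -/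
theorem translate_const {W : ValuationSubring F} (hW : TrivOn W k)
    {f : V ℓ F →ₗ[ZMod ℓ] ZMod ℓ} (hf : ∀ z : F, W.valuation z = 1 → f (cl ℓ z) = 0) {z : F}
    (hz : f (cl ℓ z) ≠ 0) : ∃ r, ∀ d ∈ k, d ≠ 0 → f (cl ℓ (z - d)) = r := by
  have hd1 : ∀ d ∈ k, d ≠ 0 → W.valuation d = 1 := by
    intro d hd hd0
    have h1 : W.valuation d ≤ 1 := (W.valuation_le_one_iff d).2 (hW d hd)
    have h2 : W.valuation d⁻¹ ≤ 1 := (W.valuation_le_one_iff _).2 (hW _ (k.inv_mem hd))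
    rw [map_inv₀] at h2
    have h3 : 0 < W.valuation d := zero_lt_iff.2 ((Valuation.ne_zero_iff _).2 hd0)
    exact le_antisymm h1 ((inv_le_one₀ h3).1 h2)
  have hz0 : z ≠ 0 := by
    rintro rfl
    exact hz (by rw [cl_zero, map_zero])
  rcases lt_trichotomy (W.valuation z) 1 with h | h | h
  · refine ⟨0, fun d hd hd0 => hf _ ?_⟩
    rw [Valuation.map_sub_eq_of_lt_right _ (by rw [hd1 d hd hd0]; exact h), hd1 d hd hd0]
  · exact absurd (hf z h) hz
  · refine ⟨f (cl ℓ z), fun d hd hd0 => ?_⟩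
    have h1 : W.valuation (-(d / z)) < 1 := by
      rw [Valuation.map_neg, map_div₀, hd1 d hd hd0, one_div]
      exact inv_lt_one_of_one_lt₀ h
    have h2 : z - d = z * (1 + -(d / z)) := by
      field_simp
      ring
    rw [h2, cl_mul ℓ hz0 (one_add_ne_zero h1), map_add, hf _ (val_one_add h1), add_zero]

theorem fg_line (h : adj k x = ⊤) : FG k (⊤ : Subfield F) :=
  ⟨{x}, by rw [← h, Finset.coe_singleton]; rfl⟩

theorem exists_form (hk : IsAlgClosed k) (hx : x ∉ k) (h : adj k x = ⊤) :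
    ∃ b ∈ k, ∃ f : V ℓ F →ₗ[ZMod ℓ] ZMod ℓ, f (cl ℓ (x - b)) = 1 ∧
      ∀ z, f (cl ℓ z) ≠ 0 → ∃ r, ∀ d ∈ k, d ≠ 0 → f (cl ℓ (z - d)) = r := by
  haveI : PerfectField k := inferInstance
  have h0 : gsp k (∅ : Finset F) = k := gsp_empty k
  have h1 : Indp k (∅ : Finset F) := by
    intro B hB z hz
    simp at hz
  have hx' : ¬ IsAlgebraic k x := fun ha => hx (RAC_of_isAlgClosed k hk x ha)
  obtain ⟨θ, hθ⟩ := exists_over_nice hk (fg_line h) h1 (t := x) (by rw [h0]; exact hx')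
    (fun z => by rw [h0, h]; exact isAlgebraic_of_mem (Subfield.mem_top z))
  rw [ae_iff] at hθ
  obtain ⟨b, hbk, hb⟩ := (infinite_of_isAlgClosed hk).exists_notMem_finite hθ
  have hb' := not_not.1 fun hc => hb ⟨hbk, hc⟩
  obtain ⟨⟨W, hW⟩, hN⟩ := hb'
  have hU := (hN W hW).unif
  have hT : TrivOn W k := h0 ▸ hW.triv
  exact ⟨b, hbk, hU.fn ℓ, hU.fn_self ℓ, fun z hz =>
    translate_const hT (fun z hz => hU.fn_unit ℓ z hz) hz⟩

variable {G : Type*} [Field G] [PerfectField G] [NeZero (ℓ : G)] {l : Subfield G} {y : G}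

/-- an isomorphism of the classes of two fields of one variable that no field isomorphism
induces. -/
theorem exists_not_induced (hk : IsAlgClosed k) (hx : x ∉ k) (h : adj k x = ⊤)
    (hl : IsAlgClosed l) (hy : y ∉ l) (h' : adj l y = ⊤) (e : k ≃ l) :
    ∃ Θ : V ℓ F ≃ₗ[ZMod ℓ] V ℓ G, ∀ (c : (ZMod ℓ)ˣ) (α : F ≃+* G),
      ¬ ∀ z, Θ (cl ℓ z) = (c : ZMod ℓ) • cl ℓ (α z) := by
  classical
  obtain ⟨bF, hbF⟩ := exists_basis (ℓ := ℓ) hk hx h
  obtain ⟨bG, hbG⟩ := exists_basis (ℓ := ℓ) hl hy h'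
  obtain ⟨b, hb, f, hf1, hf2⟩ := exists_form (ℓ := ℓ) hl hy h'
  haveI : Infinite k := Set.infinite_coe_iff.2 (infinite_of_isAlgClosed hk)
  set a₀ : k := e.symm ⟨b, hb⟩ with ha₀
  obtain ⟨a₁, h10⟩ := exists_ne a₀
  obtain ⟨a₂, h2⟩ := Infinite.exists_notMem_finset ({a₀, a₁} : Finset k)
  have h20 : a₂ ≠ a₀ := fun h => h2 (by simp [h])
  have h21 : a₂ ≠ a₁ := fun h => h2 (by simp [h])
  let Θ₀ : V ℓ F ≃ₗ[ZMod ℓ] V ℓ G := bF.equiv bG e
  let g : V ℓ F →ₗ[ZMod ℓ] ZMod ℓ := bF.coord a₀ + bF.coord a₁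
  have hw : f (Θ₀ (bF a₀)) = 1 := by
    rw [Module.Basis.equiv_apply, ha₀, Equiv.apply_symm_apply, hbG]
    exact hf1
  have hg0 : g (bF a₀) = 1 := by simp [g, h10.symm]
  have hg1 : g (bF a₁) = 1 := by simp [g, h10]
  have hg2 : g (bF a₂) = 0 := by simp [g, h20, h21]
  let φ : V ℓ F →ₗ[ZMod ℓ] ZMod ℓ := g - f ∘ₗ Θ₀.toLinearMap
  have hφ : φ (bF a₀) = 0 := by
    change g (bF a₀) - f (Θ₀ (bF a₀)) = 0
    rw [hg0, hw, sub_self]
  let T : V ℓ F ≃ₗ[ZMod ℓ] V ℓ F := LinearEquiv.ofLinear (LinearMap.id + φ.smulRight (bF a₀))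
    (LinearMap.id - φ.smulRight (bF a₀))
    (by
      ext1 v
      simp [hφ])
    (by
      ext1 v
      simp [hφ])
  have hT : ∀ v, f (Θ₀ (T v)) = g v := by
    intro v
    change f (Θ₀ (v + φ v • bF a₀)) = g v
    rw [map_add, map_add, map_smul, map_smul, hw, smul_eq_mul, mul_one]
    change f (Θ₀ v) + (g v - f (Θ₀ v)) = g v
    ring
  refine ⟨T.trans Θ₀, fun c α hα => ?_⟩
  have hc := const_iff hk (fg_line h) hl (fg_line h') ℓ α
  have h3 : ∀ a : k, g (bF a) = c * f (cl ℓ (α (x - a))) := by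
    intro a
    rw [← hT, hbF]
    change f ((T.trans Θ₀) _) = _
    rw [hα, map_smul, smul_eq_mul]
  have h4 : f (cl ℓ (α (x - a₀))) ≠ 0 := by
    intro h5
    have h6 := h3 a₀
    rw [hg0, h5, mul_zero] at h6
    exact one_ne_zero h6
  obtain ⟨r, hr⟩ := hf2 _ h4
  have h5 : ∀ a : k, a ≠ a₀ → g (bF a) = c * r := by
    intro a ha
    have h6 : α (x - a) = α (x - a₀) - α ((a : F) - a₀) := by
      rw [← map_sub]
      congr 1
      ring
    rw [h3, h6, hr _ ((hc _).1 (k.sub_mem a.2 a₀.2))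
      ((map_ne_zero α).2 (sub_ne_zero.2 fun h7 => ha (Subtype.ext h7)))]
  have h6 := (h5 a₁ h10).trans (h5 a₂ h20).symm
  rw [hg1, hg2] at h6
  exact one_ne_zero h6

end line

section ratfunc

variable {k K K' : Type*} [Field k] [Field K] [Field K'] [Algebra k K] [Algebra K K'] {t : K}

theorem X_notMem (ht : Transcendental k t) : algebraMap K K' t ∉ cst' k K K' := by
  intro h
  obtain ⟨c, hc⟩ := mem_cst'.1 h
  have h1 := (algebraMap K K').injective hc
  apply ht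
  rw [← h1]
  exact isAlgebraic_algebraMap c

theorem adj_X [IsPurelyInseparable K K'] (ht : IntermediateField.adjoin k {t} = ⊤) :
    adj (cst' k K K') (algebraMap K K' t) = ⊤ := by
  rw [eq_top_iff]
  intro z _
  obtain ⟨n, w, hw⟩ := exists_pow_mem (K := K) z
  refine mem_pf.2 ⟨n, ?_⟩
  rw [← ringExpChar_eq_of_hom (algebraMap K K'), ← hw]
  let E : IntermediateField k K :=
    ((Vale.Agent.P019.adj (cst' k K K') (algebraMap K K' t)).comap
      (algebraMap K K')).toIntermediateField fun c =>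
        Vale.Agent.P019.le_adj _ _ (mem_cst'.2 ⟨c, rfl⟩)
  have h1 : IntermediateField.adjoin k {t} ≤ E := by
    rw [IntermediateField.adjoin_simple_le_iff]
    exact Vale.Agent.P019.mem_adj _ _
  rw [ht] at h1
  exact h1 (IntermediateField.mem_top (x := w))

/-- the constants and their image in the perfect closure. -/
theorem nonempty_equiv_cst' : Nonempty (k ≃ cst' k K K') :=
  ⟨Equiv.ofBijective (fun c => ⟨_, mem_cst'.2 ⟨c, rfl⟩⟩)
    ⟨fun a b h => (algebraMap k K).injective ((algebraMap K K').injective (congrArg Subtype.val h)),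
      fun z => by
        obtain ⟨c, hc⟩ := mem_cst'.1 z.2
        exact ⟨c, Subtype.ext hc⟩⟩⟩

variable {ℓ : ℕ} [Fact ℓ.Prime] [IsAlgClosed k] [PerfectField K']
  [IsPurelyInseparable K K'] [NeZero (ℓ : K)] [NeZero (ℓ : K')]

include K' in
theorem R_line (ht : Transcendental k t) (ht' : IntermediateField.adjoin k {t} = ⊤) :
    Vale.Agent.N019.R ℓ (Vale.Agent.N019.cls ℓ (F := K)) = ⊤ := by
  have h1 : R ℓ K' = ⊤ := R_top (isAlgClosed_cst' (k := k) (K := K)) (X_notMem ht) (adj_X ht')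
  have h2 : R ℓ K = ⊤ := by
    have h3 := (Vale.Agent.P019P.perfV_compatible (ℓ := ℓ) (K := K) (K' := K')).symm
    unfold Vale.Agent.P019.Compatible at h3
    rw [← h3, h1, Submodule.map_top, LinearMap.range_eq_top]
    exact (TensorProduct.congr _ _).surjective
  apply Submodule.map_injective_of_injective (bet_inj K)
  rw [map_bet, h2, Submodule.map_top, eq_comm, LinearMap.range_eq_top]
  exact (TensorProduct.congr _ _).surjective

variable {l L L' : Type*} [Field l] [Field L] [Field L'] [Algebra l L] [Algebra L L']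
  [IsAlgClosed l] [PerfectField L'] [IsPurelyInseparable L L'] [NeZero (ℓ : L)]
  [NeZero (ℓ : L')] {s : L}

include K' L' in
theorem compatible_line (ht : Transcendental k t) (ht' : IntermediateField.adjoin k {t} = ⊤)
    (hs : Transcendental l s) (hs' : IntermediateField.adjoin l {s} = ⊤)
    (Θ : Vale.Agent.N019.V ℓ K ≃ₗ[ZMod ℓ] Vale.Agent.N019.V ℓ L) :
    Vale.Agent.N019.Compatible (Vale.Agent.N019.cls ℓ) (Vale.Agent.N019.cls ℓ) Θ := by
  unfold Vale.Agent.N019.Compatible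
  rw [R_line (K' := K') ht ht', R_line (K' := L') hs hs', Submodule.map_top,
    LinearMap.range_eq_top]
  exact (TensorProduct.congr _ _).surjective

theorem sharp (ht : Transcendental k t) (ht' : IntermediateField.adjoin k {t} = ⊤)
    (hs : Transcendental l s) (hs' : IntermediateField.adjoin l {s} = ⊤) (e : k ≃ l) :
    ∃ Θ : Vale.Agent.N019.V ℓ K ≃ₗ[ZMod ℓ] Vale.Agent.N019.V ℓ L,
      ∀ (c : (ZMod ℓ)ˣ) (α : K' ≃+* L'), ¬ Vale.Agent.N019.Induced (Vale.Agent.N019.cls ℓ) (Vale.Agent.N019.cls ℓ) (Vale.Agent.N019.cls ℓ) Θ c α := by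
  obtain ⟨e₁⟩ := nonempty_equiv_cst' (k := k) (K := K) (K' := K')
  obtain ⟨e₂⟩ := nonempty_equiv_cst' (k := l) (K := L) (K' := L')
  obtain ⟨Θ', hΘ'⟩ := exists_not_induced (ℓ := ℓ)
    (isAlgClosed_cst' (k := k) (K := K) (K' := K')) (X_notMem ht) (adj_X ht')
    (isAlgClosed_cst' (k := l) (K := L) (K' := L')) (X_notMem hs) (adj_X hs')
    (e₁.symm.trans (e.trans e₂))
  refine ⟨(bet ℓ _).trans ((((perfV ℓ _ K').trans Θ').trans (perfV ℓ _ L').symm).trans
    (bet ℓ _).symm), fun c α h => hΘ' c α fun z => ?_⟩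
  rw [induced_iff, induces_iff] at h
  obtain ⟨v, hv⟩ := (perfV ℓ K K').surjective (cl ℓ z)
  have h1 := h v
  rw [hv, Veq_cl] at h1
  rw [← h1, ← hv]
  simp [conj]

end ratfunc

/-! ## The three parts of the statement -/

section final

theorem neZero_of {ℓ : ℕ} (A B : Type*) [Field A] [Field B] [Algebra A B] (h : (ℓ : A) ≠ 0) :
    NeZero (ℓ : B) := ⟨by rw [← map_natCast (algebraMap A B), Ne, map_eq_zero]; exact h⟩

theorem image_eq {A B : Type*} [Field A] [Field B] {α : A ≃+* B} {s : Set A} {t : Set B}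
    (h : ∀ x, x ∈ s ↔ α x ∈ t) : α '' s = t := by
  ext y
  constructor
  · rintro ⟨x, hx, rfl⟩
    exact (h x).1 hx
  · intro hy
    exact ⟨α.symm y, (h _).2 (by rwa [RingEquiv.apply_symm_apply]), α.apply_symm_apply y⟩

variable {ℓ : ℕ} [Fact ℓ.Prime] {k K l L : Type*} [Field k] [Field K] [Field l] [Field L]
  [Algebra k K] [Algebra l L]
  {K' L' : Type*} [Field K'] [Field L'] [Algebra K K'] [Algebra L L']
  [PerfectField K'] [PerfectField L'] [IsPurelyInseparable K K'] [IsPurelyInseparable L L']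

omit [PerfectField K'] [IsPurelyInseparable K K'] in
theorem mem_pf_cst' {x : K'} : x ∈ pf (cst' k K K') ↔ ∃ (m : ℕ) (a : k),
    x ^ ringExpChar K' ^ m = algebraMap K K' (algebraMap k K a) := by
  rw [mem_pf]
  refine exists_congr fun m => ?_
  rw [mem_cst']
  exact exists_congr fun a => eq_comm

theorem final_two [IsSepClosed k] [IsSepClosed l]
    (hK : (⊤ : IntermediateField k K).FG) (hL : (⊤ : IntermediateField l L).FG)
    (hKtr : 2 ≤ Algebra.trdeg k K) (hℓk : (ℓ : k) ≠ 0) (hℓl : (ℓ : l) ≠ 0)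
    (Θ : Vale.Agent.N019.V ℓ K ≃ₗ[ZMod ℓ] Vale.Agent.N019.V ℓ L) :
    (Vale.Agent.N019.MatchesPairs (Vale.Agent.N019.cls ℓ) (Vale.Agent.N019.cls ℓ) Θ ↔ Vale.Agent.N019.Compatible (Vale.Agent.N019.cls ℓ) (Vale.Agent.N019.cls ℓ) Θ) ∧
    (Vale.Agent.N019.MatchesPairs (Vale.Agent.N019.cls ℓ) (Vale.Agent.N019.cls ℓ) Θ → ∃ (c : (ZMod ℓ)ˣ) (α : K' ≃+* L'),
      α '' {x : K' | ∃ (m : ℕ) (a : k),
          x ^ ringExpChar K' ^ m = algebraMap K K' (algebraMap k K a)} =
        {y : L' | ∃ (m : ℕ) (b : l),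
          y ^ ringExpChar L' ^ m = algebraMap L L' (algebraMap l L b)} ∧
      Vale.Agent.N019.Induced (Vale.Agent.N019.cls ℓ) (Vale.Agent.N019.cls ℓ) (Vale.Agent.N019.cls ℓ) Θ c α) := by
  have h1 := neZero_of k K hℓk
  have h2 := neZero_of l L hℓl
  have h3 := neZero_of K K' h1.out
  have h4 := neZero_of L L' h2.out
  have : Algebra.EssFiniteType k K := IntermediateField.fg_top_iff.1 hK
  have : Algebra.EssFiniteType l L := IntermediateField.fg_top_iff.1 hL
  refine ⟨⟨fun h => ?_, fun h => ?_⟩, fun h => ?_⟩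
  · obtain ⟨c, α, -, h6⟩ := core (K' := K') (L' := L') (k := k) (l := l) hKtr
      ((matches_iff Θ).1 h)
    exact (compatible_iff Θ).2 (strong_of_induces h6)
  · exact (matches_iff Θ).2 (Compatible.of_strong ((compatible_iff Θ).1 h))
  · obtain ⟨c, α, h5, h6⟩ := core (K' := K') (L' := L') (k := k) (l := l) hKtr
      ((matches_iff Θ).1 h)
    refine ⟨c, α, image_eq fun x => ?_, (induced_iff Θ c α).2 h6⟩
    exact (mem_pf_cst'.symm.trans (h5 x)).trans mem_pf_cst'

theorem final_one [IsAlgClosed k] [IsAlgClosed l]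
    (hK : (⊤ : IntermediateField k K).FG) (hL : (⊤ : IntermediateField l L).FG)
    (hKtr : 2 ≤ Algebra.trdeg k K) (hℓk : (ℓ : k) ≠ 0) (hℓl : (ℓ : l) ≠ 0)
    (Θ : Vale.Agent.N019.V ℓ K ≃ₗ[ZMod ℓ] Vale.Agent.N019.V ℓ L)
    (hΘ : Vale.Agent.N019.Compatible (Vale.Agent.N019.cls ℓ) (Vale.Agent.N019.cls ℓ) Θ) :
    ∃ (c : (ZMod ℓ)ˣ) (α : K' ≃+* L'),
      α '' Set.range (fun a : k => algebraMap K K' (algebraMap k K a)) =
        Set.range (fun b : l => algebraMap L L' (algebraMap l L b)) ∧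
      Vale.Agent.N019.Induced (Vale.Agent.N019.cls ℓ) (Vale.Agent.N019.cls ℓ) (Vale.Agent.N019.cls ℓ) Θ c α := by
  have h1 := neZero_of k K hℓk
  have h2 := neZero_of l L hℓl
  have h3 := neZero_of K K' h1.out
  have h4 := neZero_of L L' h2.out
  have : Algebra.EssFiniteType k K := IntermediateField.fg_top_iff.1 hK
  have : Algebra.EssFiniteType l L := IntermediateField.fg_top_iff.1 hL
  obtain ⟨c, α, h5, h6⟩ := core (K' := K') (L' := L') (k := k) (l := l) hKtr
    (Compatible.of_strong ((compatible_iff Θ).1 hΘ))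
  haveI : IsAlgClosed (cst' k K K') := isAlgClosed_cst'
  haveI : IsAlgClosed (cst' l L L') := isAlgClosed_cst'
  rw [pf_eq, pf_eq] at h5
  refine ⟨c, α, image_eq fun x => ?_, (induced_iff Θ c α).2 h6⟩
  exact (mem_cst'.symm.trans (h5 x)).trans mem_cst'

theorem final_three [IsAlgClosed k] [IsAlgClosed l] (hℓk : (ℓ : k) ≠ 0) (hℓl : (ℓ : l) ≠ 0)
    (e : k ≃ l) {t : K} {s : L} (ht : Transcendental k t)
    (ht' : IntermediateField.adjoin k {t} = ⊤) (hs : Transcendental l s)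
    (hs' : IntermediateField.adjoin l {s} = ⊤) :
    (∀ Θ : Vale.Agent.N019.V ℓ K ≃ₗ[ZMod ℓ] Vale.Agent.N019.V ℓ L,
      Vale.Agent.N019.Compatible (Vale.Agent.N019.cls ℓ) (Vale.Agent.N019.cls ℓ) Θ) ∧
    ∃ Θ : Vale.Agent.N019.V ℓ K ≃ₗ[ZMod ℓ] Vale.Agent.N019.V ℓ L,
      ∀ (c : (ZMod ℓ)ˣ) (α : K' ≃+* L'), ¬ Vale.Agent.N019.Induced (Vale.Agent.N019.cls ℓ) (Vale.Agent.N019.cls ℓ) (Vale.Agent.N019.cls ℓ) Θ c α := by
  have h1 := neZero_of k K hℓk
  have h2 := neZero_of l L hℓl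
  have h3 := neZero_of K K' h1.out
  have h4 := neZero_of L L' h2.out
  exact ⟨compatible_line (K' := K') (L' := L') ht ht' hs hs', sharp ht ht' hs hs' e⟩

end final

end Vale.Agent.P019P.N019
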