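import Vale.Agent.P019.H654.Plain

/-!
# P019 for commuting pairs, part 1

The reconstruction proof of the library `Vale.Agent.P019` is run again with a weaker notion of
compatibility: the isomorphism only has to match the commuting pairs of linear forms.  Only the
statements that mention orthogonality or compatibility are repeated.
-/

set_option linter.all false

namespace Vale.Agent.P019P.N019

open Vale.Agent.P019

section orth

variable {ℓ : ℕ} {K L : Type*} [Field K] [Field L]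

/-- `u` and `w` are not separated by any commuting pair of linear forms. -/
def Orth (u w : V ℓ K) : Prop :=
  ∀ f g : V ℓ K →ₗ[ZMod ℓ] ZMod ℓ, CPair f g → f u * g w = g u * f w

/-- `Θ` matches the commuting pairs of linear forms. -/
def Compatible (Θ : V ℓ K ≃ₗ[ZMod ℓ] V ℓ L) : Prop :=
  ∀ f g : V ℓ L →ₗ[ZMod ℓ] ZMod ℓ, CPair f g ↔ CPair (f ∘ₗ Θ.toLinearMap) (g ∘ₗ Θ.toLinearMap)

theorem Orth.of_strong {u w : V ℓ K} (h : Vale.Agent.P019.Orth u w) : Orth u w := by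
  intro f g hfg
  have h1 := (cpair_iff f g).1 hfg _ h
  rwa [wedge_tmul, sub_eq_zero] at h1

theorem orth_zero_left (w : V ℓ K) : Orth 0 w := Orth.of_strong (Vale.Agent.P019.orth_zero_left w)

theorem orth_zero_right (w : V ℓ K) : Orth w 0 :=
  Orth.of_strong (Vale.Agent.P019.orth_zero_right w)

theorem orth_one_sub (x : K) : Orth (cl ℓ x) (cl ℓ (1 - x)) :=
  Orth.of_strong (Vale.Agent.P019.orth_one_sub x)

theorem rc_orth_self (hneg : ∃ i : K, i ^ ℓ = -1) (x : K) : Orth (cl ℓ x) (cl ℓ x) :=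
  Orth.of_strong (Vale.Agent.P019P.rc_orth_self hneg x)

theorem adj_isotropic [PerfectField K] [Fact ℓ.Prime] [NeZero (ℓ : K)] {k : Subfield K}
    (hk : IsAlgClosed k) {x : K} (hx : x ∉ k) :
    ∀ u ∈ VS ℓ (adj k x), ∀ w ∈ VS ℓ (adj k x), Orth u w :=
  fun u hu w hw => Orth.of_strong (Vale.Agent.P019P.adj_isotropic hk hx u hu w hw)

theorem comp_symm_comp (Θ : V ℓ K ≃ₗ[ZMod ℓ] V ℓ L) (f : V ℓ K →ₗ[ZMod ℓ] ZMod ℓ) :
    (f ∘ₗ Θ.symm.toLinearMap) ∘ₗ Θ.toLinearMap = f := by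
  ext
  simp

theorem comp_comp_symm (Θ : V ℓ K ≃ₗ[ZMod ℓ] V ℓ L) (f : V ℓ L →ₗ[ZMod ℓ] ZMod ℓ) :
    (f ∘ₗ Θ.toLinearMap) ∘ₗ Θ.symm.toLinearMap = f := by
  ext
  simp

theorem Compatible.symm {Θ : V ℓ K ≃ₗ[ZMod ℓ] V ℓ L} (h : Compatible Θ) :
    Compatible Θ.symm := by
  intro f g
  rw [h, comp_symm_comp, comp_symm_comp]

theorem Compatible.cpair {Θ : V ℓ K ≃ₗ[ZMod ℓ] V ℓ L} (h : Compatible Θ)
    {f g : V ℓ L →ₗ[ZMod ℓ] ZMod ℓ} (hfg : CPair f g) :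
    CPair (f ∘ₗ Θ.toLinearMap) (g ∘ₗ Θ.toLinearMap) := (h f g).1 hfg

theorem Compatible.orth {Θ : V ℓ K ≃ₗ[ZMod ℓ] V ℓ L} (h : Compatible Θ) {u w : V ℓ K}
    (huw : Orth u w) : Orth (Θ u) (Θ w) := fun _ _ hfg => huw _ _ (h.cpair hfg)

theorem Compatible.trans {M : Type*} [Field M] {Θ : V ℓ K ≃ₗ[ZMod ℓ] V ℓ L}
    {Φ : V ℓ L ≃ₗ[ZMod ℓ] V ℓ M} (h : Compatible Θ) (h' : Compatible Φ) :
    Compatible (Θ.trans Φ) := fun f g => (h' f g).trans (h _ _)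

theorem Compatible.of_strong {Θ : V ℓ K ≃ₗ[ZMod ℓ] V ℓ L} (h : Vale.Agent.P019.Compatible Θ) :
    Compatible Θ := by
  intro f g
  refine ⟨h.cpair, fun hfg => ?_⟩
  have h1 := h.symm.cpair hfg
  rwa [comp_comp_symm, comp_comp_symm] at h1

theorem Compatible.mem_H {Θ : V ℓ K ≃ₗ[ZMod ℓ] V ℓ L} (h : Compatible Θ)
    {f : V ℓ L →ₗ[ZMod ℓ] ZMod ℓ} {v : V ℓ K} :
    Θ v ∈ H f ↔ v ∈ H (f ∘ₗ Θ.toLinearMap) := by
  constructor
  · intro hv g hg
    have h2 := h.symm.cpair hg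
    rw [comp_comp_symm] at h2
    have := hv _ h2
    simpa using this
  · intro hv g hg
    exact hv _ (h.cpair hg)

/-- a linear map which respects the Steinberg pairs pulls commuting pairs back. -/
theorem cpair_comp {g : V ℓ K →ₗ[ZMod ℓ] V ℓ L}
    (hg : ∀ x : K, Orth (g (cl ℓ x)) (g (cl ℓ (1 - x)))) {a b : V ℓ L →ₗ[ZMod ℓ] ZMod ℓ}
    (hab : CPair a b) : CPair (a ∘ₗ g) (b ∘ₗ g) := by
  intro x
  have h := hg x a b hab
  simp only [LinearMap.comp_apply]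
  rw [h, mul_comm]

theorem rc_orth {g : V ℓ K →ₗ[ZMod ℓ] V ℓ L}
    (hg : ∀ x : K, Orth (g (cl ℓ x)) (g (cl ℓ (1 - x)))) {u w : V ℓ K} (h : Orth u w) :
    Orth (g u) (g w) := fun _ _ hab => h _ _ (cpair_comp hg hab)

theorem compatible_of {Θ : V ℓ K ≃ₗ[ZMod ℓ] V ℓ L}
    (h1 : ∀ x : K, Orth (Θ (cl ℓ x)) (Θ (cl ℓ (1 - x))))
    (h2 : ∀ x : L, Orth (Θ.symm (cl ℓ x)) (Θ.symm (cl ℓ (1 - x)))) : Compatible Θ := by
  intro f g
  refine ⟨cpair_comp (g := Θ.toLinearMap) h1, fun hfg => ?_⟩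
  have h3 := cpair_comp (g := Θ.symm.toLinearMap) h2 hfg
  rwa [comp_comp_symm, comp_comp_symm] at h3

theorem tame_orth [Fact ℓ.Prime] (hneg : ∃ i : K, i ^ ℓ = -1) (O : ValuationSubring K)
    (f : V ℓ K →ₗ[ZMod ℓ] ZMod ℓ) (hf : ∀ z : K, O.valuation z = 1 → f (cl ℓ z) = 0)
    {u w : V ℓ K} (h : Orth u w) : f w • u - f u • w ∈ U1 ℓ O := by
  by_contra hn
  obtain ⟨g, hg1, hg2⟩ := Submodule.exists_le_ker_of_notMem hn
  apply hg1
  have h1 := h f g (cpair_of_U1 hneg O f g hf fun v hv => hg2 hv)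
  rw [map_sub, map_smul, map_smul, smul_eq_mul, smul_eq_mul, h1]
  ring

theorem perfV_compatible {K' : Type*} [Field K'] [Algebra K K'] [IsPurelyInseparable K K']
    [Fact ℓ.Prime] [NeZero (ℓ : K)] : Compatible (perfV ℓ K K') :=
  Compatible.of_strong Vale.Agent.P019P.perfV_compatible

end orth

end Vale.Agent.P019P.N019

section

/-!
# Definitions for the reconstruction of the field (perfect version)

The filter `ae k`, the predicate `Rk2` and the structure `Over` are those of the old files.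
-/

namespace Vale.Agent.P019P.N019

open Vale.Agent.P019

open Polynomial Filter

section rk

variable {ℓ : ℕ} {K L : Type*} [Field K] [Field L]

/-- the hypotheses provided by the local theory and the theory of good elements. -/
structure Hyp (ℓ : ℕ) {K L : Type*} [Field K] [Field L] (k : Subfield K) (l : Subfield L)
    (Θ : V ℓ K ≃ₗ[ZMod ℓ] V ℓ L) : Prop where
  ack : IsAlgClosed k
  acl : IsAlgClosed l
  fgk : FG k (⊤ : Subfield K)
  fgl : FG l (⊤ : Subfield L)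
  trk : ∃ x y : K, x ∉ k ∧ ¬ IsAlgebraic (adj k x) y
  trl : ∃ x y : L, x ∉ l ∧ ¬ IsAlgebraic (adj l x) y
  comp : Compatible Θ
  stepA : ∀ t, Good k t → ∃ E : Subfield L, Crv l E ∧
    ∀ v, Θ v ∈ VS ℓ E ↔ v ∈ VS ℓ (adj k t)
  stepA' : ∀ t, Good l t → ∃ E : Subfield K, Crv k E ∧
    ∀ v, Θ.symm v ∈ VS ℓ E ↔ v ∈ VS ℓ (adj l t)
  ltr : ∀ (U : Submodule (ZMod ℓ) (V ℓ K)) (x : K), Good k x →
    ((U ⊓ VS ℓ (adj k x) : Submodule (ZMod ℓ) (V ℓ K)) : Set (V ℓ K)).Finite →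
    ∀ O : ValuationSubring L, (∀ z, O.valuation z < 1 → Θ.symm (cl ℓ (1 + z)) ∈ U) → TrivOn O l
  ltr' : ∀ (U : Submodule (ZMod ℓ) (V ℓ L)) (x : L), Good l x →
    ((U ⊓ VS ℓ (adj l x) : Submodule (ZMod ℓ) (V ℓ L)) : Set (V ℓ L)).Finite →
    ∀ O : ValuationSubring K, (∀ z, O.valuation z < 1 → Θ (cl ℓ (1 + z)) ∈ U) → TrivOn O k
  bert : ∀ x y : K, x ∉ k → ¬ IsAlgebraic (adj k x) y → ∀ᶠ c in ae k, Good k (x + c * y)
  bert' : ∀ x y : L, x ∉ l → ¬ IsAlgebraic (adj l x) y → ∀ᶠ c in ae l, Good l (x + c * y)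

theorem Hyp.symm {k : Subfield K} {l : Subfield L} {Θ : V ℓ K ≃ₗ[ZMod ℓ] V ℓ L}
    [Fact ℓ.Prime] (h : Hyp ℓ k l Θ) : Hyp ℓ l k Θ.symm where
  ack := h.acl
  acl := h.ack
  fgk := h.fgl
  fgl := h.fgk
  trk := h.trl
  trl := h.trk
  comp := h.comp.symm
  stepA := h.stepA'
  stepA' := h.stepA
  ltr := h.ltr'
  ltr' := h.ltr
  bert := h.bert'
  bert' := h.bert

end rk

end Vale.Agent.P019P.N019
end

section

attribute [local instance] AFastb78d8dx8a.a0 AFastb78d8dx8a.a1 AFastb78d8dx8a.a2 AFastb78d8dx8a.a3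
  AFastb78d8dx8a.a4 AFastb78d8dx8a.a5 AFastb78d8dx8a.a6 AFastb78d8dx8a.a7 AFastb78d8dx8a.a8
  AFastb78d8dx8a.a9 AFastb78d8dx8a.a10 AFastb78d8dx8a.a11
attribute [local instance] AFastb78d8dx8b.a0 AFastb78d8dx8b.a1 AFastb78d8dx8b.a2 AFastb78d8dx8b.a3
  AFastb78d8dx8b.a4 AFastb78d8dx8b.a5 AFastb78d8dx8b.a6 AFastb78d8dx8b.a7 AFastb78d8dx8b.a8
  AFastb78d8dx8b.a9
attribute [local instance] O19.fr O19.tf O19.pj O19.fl

section

/-!
# Local theory: transferring functionals to valuation rings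
-/

namespace Vale.Agent.P019P.N019

open Vale.Agent.P019

open scoped TensorProduct

variable {ℓ : ℕ} [Fact ℓ.Prime] {K L : Type*} [Field K] [Field L]

/-- transfer of the valuation ring through a compatible isomorphism. -/
theorem exists_transfer {Θ : V ℓ K ≃ₗ[ZMod ℓ] V ℓ L} (hΘ : Compatible Θ)
    (hneg : ∃ i : L, i ^ ℓ = -1) (f : V ℓ K →ₗ[ZMod ℓ] ZMod ℓ) (g₀ : K)
    (h₀ : ∀ i j : ZMod ℓ, i • cl ℓ g₀ + j • cl ℓ (1 - g₀) ∈ H f → i = 0 ∧ j = 0) :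
    ∃ O : ValuationSubring L, (∀ z, O.valuation z = 1 → f (Θ.symm (cl ℓ z)) = 0) ∧
      (∀ z, O.valuation z < 1 → Θ.symm (cl ℓ (1 + z)) ∈ H f) := by
  set f' : V ℓ L →ₗ[ZMod ℓ] ZMod ℓ := f ∘ₗ Θ.symm.toLinearMap with hf'
  have hH : ∀ v : V ℓ L, Θ.symm v ∈ H f ↔ v ∈ H f' := fun v => hΘ.symm.mem_H
  have hex : ∃ g : L, ∀ i j : ZMod ℓ, i • cl ℓ g + j • cl ℓ (1 - g) ∈ H f' → i = 0 ∧ j = 0 := by
    by_contra hcon
    push Not at hcon
    have hno : ∀ g : L, ∃ i j : ZMod ℓ, i • cl ℓ g + j • cl ℓ (1 - g) ∈ H f' ∧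
        ¬ (i = 0 ∧ j = 0) := by
      intro g
      obtain ⟨i, j, h1, h2⟩ := hcon g
      exact ⟨i, j, h1, fun h => h2 h.1 h.2⟩
    obtain ⟨a, ha1, ha2, ha3⟩ := Vale.Agent.P019.exists_sep (H f) (cl ℓ g₀) (cl ℓ (1 - g₀)) h₀
    obtain ⟨b, hb1, hb2, hb3⟩ := Vale.Agent.P019.exists_sep (H f) (cl ℓ (1 - g₀)) (cl ℓ g₀)
      (fun i j hij => (h₀ j i (by rw [add_comm]; exact hij)).symm)
    have hab := cpair_of_no_nr f' hno (a ∘ₗ Θ.symm.toLinearMap) (b ∘ₗ Θ.symm.toLinearMap)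
      (fun v hv => ha1 _ ((hH v).2 hv)) (fun v hv => hb1 _ ((hH v).2 hv))
    have h3 := hΘ.cpair hab g₀
    simp only [LinearMap.comp_apply, LinearEquiv.coe_coe, LinearEquiv.symm_apply_apply] at h3
    rw [ha2, zero_mul] at h3
    exact mul_ne_zero ha3 hb3 h3
  obtain ⟨g, hg⟩ := hex
  obtain ⟨O, h1, h2⟩ := exists_valuation_of_functional hneg f' g hg
  exact ⟨O, fun z hz => h1 z hz, fun z hz => (hH _).2 (h2 z hz)⟩

end Vale.Agent.P019P.N019
end

attribute [local instance] AFastb78d8dx1147b.a0 AFastb78d8dx1147b.a1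

section

/-!
# Transfer of rank one valuations through compatible isomorphisms
-/

namespace Vale.Agent.P019P.N019

open Vale.Agent.P019

open scoped TensorProduct

variable {ℓ : ℕ} [Fact ℓ.Prime] {K L : Type*} [Field K] [Field L]

/-- transfer of a discrete valuation ring through a compatible isomorphism. -/
theorem transfer [PerfectField K] [NeZero (ℓ : K)]
    {Θ : V ℓ K ≃ₗ[ZMod ℓ] V ℓ L} (hΘ : Compatible Θ)
    (hnegK : ∃ i : K, i ^ ℓ = -1) (hnegL : ∃ i : L, i ^ ℓ = -1) {W : ValuationSubring K} {π : K}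
    (hW : IsUnif W π) (g₀ : K)
    (h₀ : ∀ i j : ZMod ℓ, i • cl ℓ g₀ + j • cl ℓ (1 - g₀) ∈ U1 ℓ W → i = 0 ∧ j = 0) :
    ∃ O : ValuationSubring L, (∀ z, O.valuation z = 1 → hW.fn ℓ (Θ.symm (cl ℓ z)) = 0) ∧
      (∀ v, Θ v ∈ U1 ℓ O ↔ v ∈ U1 ℓ W) := by
  have hH := H_fn_eq hnegK hW
  obtain ⟨O, h1, h2⟩ := exists_transfer hΘ hnegL (hW.fn ℓ) g₀ (by rw [hH]; exact h₀)
  refine ⟨O, h1, fun v => ⟨?_, ?_⟩⟩
  · rintro ⟨m, hm, hv⟩
    have := h2 m hm
    rw [← hv, LinearEquiv.symm_apply_apply, hH] at this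
    exact this
  · intro hv
    have h3 : H ((hW.fn ℓ) ∘ₗ Θ.symm.toLinearMap) ≤ U1 ℓ O :=
      H_le_U1 hnegL O _ (fun z hz => h1 z hz)
    apply h3
    rw [← hH] at hv
    have := (hΘ.symm.mem_H (f := hW.fn ℓ) (v := Θ v))
    rw [LinearEquiv.symm_apply_apply] at this
    exact this.1 hv

end Vale.Agent.P019P.N019
end

end

section

attribute [local instance] AFast6df17cx12a.a0 AFast6df17cx12a.a1 AFast6df17cx12a.a2
  AFast6df17cx12a.a3 AFast6df17cx12a.a4 AFast6df17cx12a.a5 AFast6df17cx12a.a6 AFast6df17cx12a.a7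
  AFast6df17cx12a.a8 AFast6df17cx12a.a9 AFast6df17cx12a.a10 AFast6df17cx12a.a11
  AFast6df17cx12a.a12 AFast6df17cx12a.a13 AFast6df17cx12a.a14 AFast6df17cx12a.a15
  AFast6df17cx12a.a16 AFast6df17cx12a.a17 AFast6df17cx12a.a18 AFast6df17cx12a.a19
  AFast6df17cx12a.a20 AFast6df17cx12a.a21 AFast6df17cx12a.a22 AFast6df17cx12a.a23
  AFast6df17cx12a.a24 AFast6df17cx12a.a25 AFast6df17cx12a.a26 AFast6df17cx12a.a27
  AFast6df17cx12a.a28 AFast6df17cx12a.a29 AFast6df17cx12a.a30 AFast6df17cx12a.a31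
  AFast6df17cx12a.a32 AFast6df17cx12a.a33 AFast6df17cx12a.a34 AFast6df17cx12a.a35
  AFast6df17cx12a.a36 AFast6df17cx12a.a37 AFast6df17cx12a.a38 AFast6df17cx12a.a39
  AFast6df17cx12a.a40 AFast6df17cx12a.a41 AFast6df17cx12a.a42 AFast6df17cx12a.a43
  AFast6df17cx12a.a44 AFast6df17cx12a.a45 AFast6df17cx12a.a46 AFast6df17cx12a.a47
  AFast6df17cx12a.a48 AFast6df17cx12a.a49 AFast6df17cx12a.a50 AFast6df17cx12a.a51
  AFast6df17cx12a.a52 AFast6df17cx12a.a53 AFast6df17cx12a.a54 AFast6df17cx12a.a55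
  AFast6df17cx12a.a56 AFast6df17cx12a.a57 AFast6df17cx12a.a58 AFast6df17cx12a.a59
  AFast6df17cx12a.a60 AFast6df17cx12a.a61 AFast6df17cx12a.a62 AFast6df17cx12a.a63
  AFast6df17cx12a.a64 AFast6df17cx12a.a65 AFast6df17cx12a.a66 AFast6df17cx12a.a67
  AFast6df17cx12a.a68 AFast6df17cx12a.a69 AFast6df17cx12a.a70 AFast6df17cx12a.a71
  AFast6df17cx12a.a72 AFast6df17cx12a.a73 AFast6df17cx12a.a74 AFast6df17cx12a.a75
  AFast6df17cx12a.a76
attribute [local instance] AFast6df17cx12b.a0 AFast6df17cx12b.a1 AFast6df17cx12b.a2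
  AFast6df17cx12b.a3 AFast6df17cx12b.a4 AFast6df17cx12b.a5 AFast6df17cx12b.a6 AFast6df17cx12b.a7
  AFast6df17cx12b.a8 AFast6df17cx12b.a9 AFast6df17cx12b.a10 AFast6df17cx12b.a11
  AFast6df17cx12b.a12 AFast6df17cx12b.a13 AFast6df17cx12b.a14 AFast6df17cx12b.a15
attribute [local instance] O19.fr O19.tf O19.pj O19.fl

section

/-!
# Residue fields of transferred valuations: the kernel of the functional
-/

namespace Vale.Agent.P019P.N019

open Vale.Agent.P019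

open Polynomial Filter

variable {K L : Type*} [Field K] [Field L] [PerfectField K] [PerfectField L] {ℓ : ℕ}
  [Fact ℓ.Prime] [NeZero (ℓ : K)] [NeZero (ℓ : L)] {Θ : V ℓ K ≃ₗ[ZMod ℓ] V ℓ L}

/-- existence of transferred valuations. -/
theorem exists_tr0 {k : Subfield K} (hk : IsAlgClosed k) (hfgk : FG k (⊤ : Subfield K))
    {l : Subfield L} (hl : IsAlgClosed l) (hΘ : Compatible Θ) {F : Subfield K} (hkF : k ≤ F)
    (hfg : FG k F) {W : ValuationSubring K} {π θ : K} (hW : Nice W F π θ) {y : K} (hy : y ∉ k)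
    (hyW : TrivOn W (adj k y)) : ∃ O : ValuationSubring L, Tr Θ W π O := by
  have hfin := hW.finite (ℓ := ℓ) hk hkF hfg (le_adj k y) hyW
  obtain ⟨g₀, -, hg₀⟩ := exists_nr' hk hfgk hy hfin
  obtain ⟨O, hO1, hO2⟩ := transfer hΘ (exists_neg hk) (exists_neg hl) hW.unif g₀ hg₀
  exact ⟨O, fun _ => hO1, hO2⟩

end Vale.Agent.P019P.N019
end

section

/-!
# The isomorphism of the residue fields
-/

namespace Vale.Agent.P019P.N019

open Vale.Agent.P019

open Polynomial Filter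
open scoped TensorProduct

section resmap

variable {F : Type*} [Field F] {ℓ : ℕ}

/-- the specialization map. -/
theorem exists_sp (hneg : ∃ i : F, i ^ ℓ = -1) (hℓ : ℓ ≠ 0) (O : ValuationSubring F)
    (φ : V ℓ F →ₗ[ZMod ℓ] ZMod ℓ) (hφ : ∀ v, v ∈ UC ℓ O ↔ φ v = 0) (v₀ : V ℓ F)
    (h₀ : φ v₀ = 1) :
    ∃ sp : V ℓ F →ₗ[ZMod ℓ] V ℓ (IsLocalRing.ResidueField O),
      (∀ z, O.valuation z = 1 → sp (cl ℓ z) = cl ℓ (rs O z)) ∧
      ∀ u w, Orth u w → Orth (sp u) (sp w) := by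
  obtain ⟨r, hr1, -, hr3⟩ := exists_rc hℓ O
  let pr : V ℓ F →ₗ[ZMod ℓ] UC ℓ O :=
    LinearMap.codRestrict (UC ℓ O) (LinearMap.id - φ.smulRight v₀) (fun v => by
      rw [hφ, LinearMap.sub_apply, LinearMap.id_apply, LinearMap.smulRight_apply, map_sub,
        map_smul, h₀, smul_eq_mul, mul_one, sub_self])
  have hpr : ∀ v, φ v = 0 → ((pr v : UC ℓ O) : V ℓ F) = v := by
    intro v hv
    change v - φ v • v₀ = v
    rw [hv, zero_smul, sub_zero]
  have hunit : ∀ z, O.valuation z = 1 → φ (cl ℓ z) = 0 := fun z hz =>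
    (hφ _).1 (mem_UC.2 ⟨z, hz, rfl⟩)
  have h1 : ∀ z, O.valuation z = 1 → (r ∘ₗ pr) (cl ℓ z) = cl ℓ (rs O z) := fun z hz =>
    hr1 z hz _ (hpr _ (hunit z hz))
  have h2 : ∀ m, O.valuation m < 1 → (r ∘ₗ pr) (cl ℓ (1 + m)) = 0 := by
    intro m hm
    have h3 := hunit _ (val_one_add hm)
    change r (pr (cl ℓ (1 + m))) = 0
    rw [hr3, hpr _ h3]
    exact cl_mem_U1 hm
  refine ⟨r ∘ₗ pr, h1, fun u w huw => rc_orth (fun x => ?_) huw⟩
  set sp := r ∘ₗ pr with hsp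
  by_cases hx0 : x = 0
  · rw [hx0, cl_zero, map_zero]
    exact orth_zero_left _
  rcases lt_trichotomy (O.valuation x) 1 with h | h | h
  · have h4 : sp (cl ℓ (1 - x)) = 0 := by
      rw [sub_eq_add_neg]
      exact h2 _ (by rwa [Valuation.map_neg])
    rw [h4]
    exact orth_zero_right _
  · have h4 : O.valuation (1 - x) ≤ 1 := by
      refine le_trans (O.valuation.map_sub _ _) ?_
      rw [map_one, h]
      simp
    rcases h4.lt_or_eq with h5 | h5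
    · have h6 : sp (cl ℓ x) = 0 := by
        have e : x = 1 + (-(1 - x)) := by ring
        rw [e]
        exact h2 _ (by rwa [Valuation.map_neg])
      rw [h6]
      exact orth_zero_left _
    · rw [h1 x h, h1 _ h5, rs_sub (one_mem O) (mem_of_val h), rs_one]
      exact orth_one_sub _
  · have hinv : O.valuation x⁻¹ < 1 := by
      rw [map_inv₀]
      exact inv_lt_one_of_one_lt₀ h
    have e1 : (1 - x) = (-x) * (1 + -x⁻¹) := by field_simp; ring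
    have hm : O.valuation (-x⁻¹) < 1 := by rwa [Valuation.map_neg]
    have e2 : cl ℓ (1 - x) = cl ℓ x + cl ℓ (1 + -x⁻¹) := by
      rw [e1, cl_mul ℓ (neg_ne_zero.2 hx0) (one_add_ne_zero hm), cl_neg ℓ hneg]
    rw [e2, map_add, h2 _ hm, add_zero]
    obtain ⟨c, -, hc⟩ := cl_surj ℓ (sp (cl ℓ x))
    rw [← hc]
    exact rc_orth_self (rc_neg hneg hℓ) c

end resmap

end Vale.Agent.P019P.N019
end

section

/-!
# Transfer of valuation rings with adapted functionals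
-/

namespace Vale.Agent.P019P.N019

open Vale.Agent.P019

open Polynomial Filter

variable {K L : Type*} [Field K] [Field L] {ℓ : ℕ} [Fact ℓ.Prime]
  {Θ : V ℓ K ≃ₗ[ZMod ℓ] V ℓ L}

/-- existence of transferred valuations. -/
theorem exists_trA (hΘ : Compatible Θ) (hnegK : ∃ i : K, i ^ ℓ = -1)
    (hnegL : ∃ i : L, i ^ ℓ = -1) {W : ValuationSubring K} {f : V ℓ K →ₗ[ZMod ℓ] ZMod ℓ}
    (hW : Adp W f) {g₀ : K}
    (h₀ : ∀ i j : ZMod ℓ, i • cl ℓ g₀ + j • cl ℓ (1 - g₀) ∈ U1 ℓ W → i = 0 ∧ j = 0) :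
    ∃ O : ValuationSubring L, TrA Θ W f O := by
  have hH := hW.H_eq hnegK
  obtain ⟨O, h1, h2⟩ := exists_transfer hΘ hnegL f g₀ (by rw [hH]; exact h₀)
  refine ⟨O, h1, fun v => ⟨?_, ?_⟩⟩
  · rintro ⟨m, hm, hv⟩
    have := h2 m hm
    rw [← hv, LinearEquiv.symm_apply_apply, hH] at this
    exact this
  · intro hv
    have h3 : H (f ∘ₗ Θ.symm.toLinearMap) ≤ U1 ℓ O :=
      H_le_U1 hnegL O _ (fun z hz => h1 z hz)
    apply h3
    rw [← hH] at hv
    have := (hΘ.symm.mem_H (f := f) (v := Θ v))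
    rw [LinearEquiv.symm_apply_apply] at this
    exact this.1 hv

/-- the kernel of the transferred functional consists of the unit classes. -/
theorem TrA.uc (hΘ : Compatible Θ) (hnegK : ∃ i : K, i ^ ℓ = -1)
    (hnegL : ∃ i : L, i ^ ℓ = -1) {W : ValuationSubring K} {f : V ℓ K →ₗ[ZMod ℓ] ZMod ℓ}
    (hW : Adp W f) {O : ValuationSubring L} (hT : TrA Θ W f O)
    (hNC : NoCtr ℓ (IsLocalRing.ResidueField W)) (v : V ℓ L) :
    v ∈ UC ℓ O ↔ f (Θ.symm v) = 0 := by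
  constructor
  · rintro ⟨z, hz, rfl⟩
    exact hT.unit z hz
  intro hv
  by_contra hvn
  obtain ⟨f', hf'v, hf'U⟩ := Submodule.exists_le_ker_of_notMem hvn
  have hf'1 : ∀ z : L, O.valuation z = 1 → f' (cl ℓ z) = 0 := fun z hz => hf'U (cl_mem_UC hz)
  set F : V ℓ K →ₗ[ZMod ℓ] ZMod ℓ := f' ∘ₗ Θ.toLinearMap with hF
  have hfU1 : ∀ w ∈ U1 ℓ W, F w = 0 := fun w hw =>
    hf'U (U1_le_UC O ((hT.iff w).2 hw))
  have hpair : ∀ g : V ℓ K →ₗ[ZMod ℓ] ZMod ℓ, (∀ w ∈ U1 ℓ W, g w = 0) → CPair F g := by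
    intro g hg
    have h1 : CPair f' (g ∘ₗ Θ.symm.toLinearMap) := by
      refine cpair_of_U1 hnegL O f' _ hf'1 fun w hw => hg _ ?_
      rw [← hT.iff]
      change Θ (Θ.symm w) ∈ _
      rwa [LinearEquiv.apply_symm_apply]
    have h2 := hΘ.cpair h1
    have h3 : (g ∘ₗ Θ.symm.toLinearMap) ∘ₗ Θ.toLinearMap = g := by
      ext w
      simp
    rwa [h3] at h2
  obtain ⟨r, hr1, hrs, hrk⟩ := exists_resmap (ℓ := ℓ) W
  obtain ⟨s, hs⟩ := LinearMap.exists_rightInverse_of_surjective r (LinearMap.range_eq_top.2 hrs)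
  set h : V ℓ (IsLocalRing.ResidueField W) →ₗ[ZMod ℓ] ZMod ℓ :=
    F ∘ₗ (UC ℓ W).subtype ∘ₗ s with hh
  have hhr : ∀ w : UC ℓ W, h (r w) = F w := by
    intro w
    have h1 : r (s (r w) - w) = 0 := by
      rw [map_sub, sub_eq_zero]
      exact LinearMap.congr_fun hs (r w)
    have h2 := hfU1 _ ((hrk _).1 h1)
    have h3 : F ((s (r w) - w : UC ℓ W) : V ℓ K) = F (s (r w) : V ℓ K) - F (w : V ℓ K) := by
      rw [← map_sub]; rfl
    rw [h3, sub_eq_zero] at h2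
    exact h2
  have hh0 : h = 0 := by
    apply hNC
    intro x hx0 hx1 hhx
    obtain ⟨u, hu, rfl⟩ := rs_surj x
    have hu1 : W.valuation u = 1 := (rs_ne_zero hu).1 hx0
    have hu2 : 1 - u ∈ W := sub_mem (one_mem W) hu
    have e1 : rs W (1 - u) = 1 - rs W u := by rw [rs_sub (one_mem W) hu, rs_one]
    have hu3 : W.valuation (1 - u) = 1 := by
      rw [← rs_ne_zero hu2, e1]
      exact sub_ne_zero.2 (Ne.symm hx1)
    have hfu : F (cl ℓ u) = h (cl ℓ (rs W u)) := by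
      rw [← hr1 u hu1, hhr]
    set a : ZMod ℓ := F (cl ℓ (1 - u)) / F (cl ℓ u) with ha
    have hfu0 : F (cl ℓ u) ≠ 0 := by rw [hfu]; exact hhx
    have hw : cl ℓ (1 - u) - a • cl ℓ u ∈ U1 ℓ W := by
      by_contra hwn
      obtain ⟨g, hg1, hg2⟩ := Submodule.exists_le_ker_of_notMem hwn
      apply hg1
      have h4 := hpair g (fun w hw => hg2 hw) u
      rw [map_sub, map_smul, smul_eq_mul, ha]
      field_simp
      linear_combination h4
    refine ⟨a, ?_⟩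
    have h5 := (hrk (⟨cl ℓ (1 - u), cl_mem_UC hu3⟩ - a • ⟨cl ℓ u, cl_mem_UC hu1⟩)).2 hw
    rw [map_sub, map_smul, hr1 _ hu3, hr1 _ hu1, sub_eq_zero, e1] at h5
    exact h5
  have hfunit : ∀ z, W.valuation z = 1 → F (cl ℓ z) = 0 := by
    intro z hz
    have h6 := hhr ⟨cl ℓ z, cl_mem_UC hz⟩
    rw [hh0, LinearMap.zero_apply] at h6
    exact h6.symm
  obtain ⟨z, hz, hzv⟩ := mem_UC.1 ((hW.ker _).1 hv)
  have h7 := hfunit z hz
  rw [← hzv] at h7
  apply hf'v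
  have h8 : F (Θ.symm v) = f' v := by
    rw [hF, LinearMap.comp_apply]
    change f' (Θ (Θ.symm v)) = _
    rw [LinearEquiv.apply_symm_apply]
  rw [← h8, h7]

/-- the isomorphism of the residue fields. -/
theorem TrA.res (hΘ : Compatible Θ) (hnegK : ∃ i : K, i ^ ℓ = -1)
    (hnegL : ∃ i : L, i ^ ℓ = -1) {W : ValuationSubring K} {f : V ℓ K →ₗ[ZMod ℓ] ZMod ℓ}
    (hW : Adp W f) {O : ValuationSubring L} (hT : TrA Θ W f O)
    (hNC : NoCtr ℓ (IsLocalRing.ResidueField W)) :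
    ∃ Θ' : V ℓ (IsLocalRing.ResidueField W) ≃ₗ[ZMod ℓ] V ℓ (IsLocalRing.ResidueField O),
      Compatible Θ' ∧ ResMap ℓ Θ W O Θ' := by
  have hℓ : ℓ ≠ 0 := (Fact.out : ℓ.Prime).ne_zero
  have hUC : ∀ v, Θ v ∈ UC ℓ O ↔ v ∈ UC ℓ W := by
    intro v
    rw [TrA.uc hΘ hnegK hnegL hW hT hNC, LinearEquiv.symm_apply_apply, hW.ker]
  have hmap : (UC ℓ W).map (Θ : V ℓ K →ₗ[ZMod ℓ] V ℓ L) = UC ℓ O := by
    ext w
    constructor
    · rintro ⟨v, hv, rfl⟩
      exact (hUC v).2 hv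
    · intro hw
      refine ⟨Θ.symm w, ?_, by simp⟩
      exact (hUC _).1 (by rw [LinearEquiv.apply_symm_apply]; exact hw)
  obtain ⟨rW, rW1, rW2, rW3⟩ := exists_rc hℓ W
  obtain ⟨rO, rO1, rO2, rO3⟩ := exists_rc hℓ O
  let e : UC ℓ W ≃ₗ[ZMod ℓ] UC ℓ O := Θ.ofSubmodules (UC ℓ W) (UC ℓ O) hmap
  have he : ∀ v : UC ℓ W, ((e v : UC ℓ O) : V ℓ L) = Θ v := fun v => rfl
  obtain ⟨Θ', hΘ'⟩ := exists_induced rW rW2 rO rO2 e fun v => by
    rw [rW3, rO3, he]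
    exact hT.iff v
  have hres : ResMap ℓ Θ W O Θ' := by
    intro z z' hz hz' hzz
    have h1 := hΘ' ⟨cl ℓ z, mem_UC.2 ⟨z, hz, rfl⟩⟩
    rw [rW1 z hz _ rfl] at h1
    rw [h1]
    exact rO1 z' hz' _ (by rw [he]; exact hzz)
  obtain ⟨v₀, hv₀⟩ := hW.exists_one
  refine ⟨Θ', ?_, hres⟩
  obtain ⟨spO, so1, so2⟩ := exists_sp hnegL hℓ O (f ∘ₗ (Θ.symm : V ℓ L →ₗ[ZMod ℓ] V ℓ K))
    (fun v => TrA.uc hΘ hnegK hnegL hW hT hNC v) (Θ v₀) (by
      rw [LinearMap.comp_apply, LinearEquiv.coe_coe, LinearEquiv.symm_apply_apply]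
      exact hv₀)
  obtain ⟨spW, sw1, sw2⟩ := exists_sp hnegK hℓ W f (fun v => (hW.ker v).symm) v₀ hv₀
  refine compatible_of (fun a => ?_) fun a => ?_
  · by_cases ha0 : a = 0
    · rw [ha0, cl_zero, map_zero]
      exact orth_zero_left _
    by_cases ha1 : 1 - a = 0
    · rw [ha1, cl_zero, map_zero]
      exact orth_zero_right _
    obtain ⟨x, hx, rfl⟩ := rs_surj a
    have hx1 : W.valuation x = 1 := (rs_ne_zero hx).1 ha0
    have e1 : rs W (1 - x) = 1 - rs W x := by rw [rs_sub (one_mem W) hx, rs_one]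
    have hx2 : W.valuation (1 - x) = 1 :=
      (rs_ne_zero (sub_mem (one_mem W) hx)).1 (by rw [e1]; exact ha1)
    have key : ∀ y : K, W.valuation y = 1 → Θ' (cl ℓ (rs W y)) = spO (Θ (cl ℓ y)) := by
      intro y hy
      obtain ⟨y', hy', hyy⟩ := mem_UC.1 ((hUC (cl ℓ y)).2 (mem_UC.2 ⟨y, hy, rfl⟩))
      rw [hres y y' hy hy' hyy, hyy, so1 y' hy']
    rw [← e1, key x hx1, key _ hx2]
    exact so2 _ _ (hΘ.orth (orth_one_sub x))
  · by_cases ha0 : a = 0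
    · rw [ha0, cl_zero, map_zero]
      exact orth_zero_left _
    by_cases ha1 : 1 - a = 0
    · rw [ha1, cl_zero, map_zero]
      exact orth_zero_right _
    obtain ⟨x, hx, rfl⟩ := rs_surj a
    have hx1 : O.valuation x = 1 := (rs_ne_zero hx).1 ha0
    have e1 : rs O (1 - x) = 1 - rs O x := by rw [rs_sub (one_mem O) hx, rs_one]
    have hx2 : O.valuation (1 - x) = 1 :=
      (rs_ne_zero (sub_mem (one_mem O) hx)).1 (by rw [e1]; exact ha1)
    have key : ∀ y : L, O.valuation y = 1 →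
        Θ'.symm (cl ℓ (rs O y)) = spW (Θ.symm (cl ℓ y)) := by
      intro y hy
      have h3 : Θ.symm (cl ℓ y) ∈ UC ℓ W := (hUC _).1 (by
        rw [LinearEquiv.apply_symm_apply]
        exact mem_UC.2 ⟨y, hy, rfl⟩)
      obtain ⟨z, hz, hzy⟩ := mem_UC.1 h3
      have h4 : Θ (cl ℓ z) = cl ℓ y := by rw [← hzy, LinearEquiv.apply_symm_apply]
      rw [hzy, sw1 z hz, LinearEquiv.symm_apply_eq]
      exact (hres z y hz hy h4).symm
    rw [← e1, key x hx1, key _ hx2]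
    exact sw2 _ _ (hΘ.symm.orth (orth_one_sub x))

end Vale.Agent.P019P.N019
end

section

/-!
# Isomorphisms of the classes of the perfect closures of the residue fields
-/

namespace Vale.Agent.P019P.N019

open Vale.Agent.P019

open Polynomial Filter

variable {K L : Type*} [Field K] [Field L] {ℓ : ℕ} [Fact ℓ.Prime]
  {Θ : V ℓ K ≃ₗ[ZMod ℓ] V ℓ L}

private theorem r1b_rs_natCast (W : ValuationSubring K) (n : ℕ) :
    rs W (n : K) = (n : IsLocalRing.ResidueField W) := by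
  have h : (n : K) ∈ W := natCast_mem W n
  rw [rs_of_mem h]
  have h1 : (⟨(n : K), h⟩ : W) = (n : W) := Subtype.ext (by simp)
  rw [h1, map_natCast]

private theorem r1b_neZero {W : ValuationSubring K} (h : W.valuation (ℓ : K) = 1) :
    NeZero (ℓ : IsLocalRing.ResidueField W) := by
  refine ⟨?_⟩
  rw [← r1b_rs_natCast W ℓ]
  exact (rs_ne_zero (mem_of_val h)).2 h

private theorem r1b_pi (W : ValuationSubring K) :
    letI : Algebra (IsLocalRing.ResidueField W) (RFP W) := (rf W).toAlgebra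
    IsPurelyInseparable (IsLocalRing.ResidueField W) (RFP W) := by
  letI : Algebra (IsLocalRing.ResidueField W) (RFP W) := (rf W).toAlgebra
  haveI : ExpChar (IsLocalRing.ResidueField W) (ringExpChar (IsLocalRing.ResidueField W)) :=
    inferInstance
  rw [isPurelyInseparable_iff_pow_mem (IsLocalRing.ResidueField W)
    (ringExpChar (IsLocalRing.ResidueField W))]
  intro x
  obtain ⟨m, y, hy⟩ := rf_pow W x
  exact ⟨m, y, hy⟩

/-- the isomorphism between the classes of the residue field and of its perfect closure. -/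
private theorem r1b_iso {W : ValuationSubring K} (h : W.valuation (ℓ : K) = 1) :
    ∃ e : V ℓ (IsLocalRing.ResidueField W) ≃ₗ[ZMod ℓ] V ℓ (RFP W), Compatible e ∧
      ∀ y, e (cl ℓ y) = cl ℓ (rf W y) := by
  letI : Algebra (IsLocalRing.ResidueField W) (RFP W) := (rf W).toAlgebra
  haveI := r1b_pi W
  haveI := r1b_neZero h
  refine ⟨perfV ℓ (IsLocalRing.ResidueField W) (RFP W), perfV_compatible, fun y => ?_⟩
  rw [perfV_apply, Vmap_cl]
  rfl

/-- the isomorphism of the residue fields, perfect closures. -/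
theorem TrA.resP (hΘ : Compatible Θ) (hnegK : ∃ i : K, i ^ ℓ = -1)
    (hnegL : ∃ i : L, i ^ ℓ = -1) {W : ValuationSubring K} {f : V ℓ K →ₗ[ZMod ℓ] ZMod ℓ}
    (hW : Adp W f) {O : ValuationSubring L} (hT : TrA Θ W f O)
    (hℓW : W.valuation (ℓ : K) = 1) (hℓO : O.valuation (ℓ : L) = 1)
    (hNC : NoCtr ℓ (RFP W)) :
    ∃ ΘP : V ℓ (RFP W) ≃ₗ[ZMod ℓ] V ℓ (RFP O), Compatible ΘP ∧ ResMapP ℓ Θ W O ΘP := by
  obtain ⟨Θ', h1, h2⟩ := TrA.res hΘ hnegK hnegL hW hT (noCtr_rfp hℓW hNC)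
  obtain ⟨e, he, he'⟩ := r1b_iso hℓW
  obtain ⟨e₂, he₂, he₂'⟩ := r1b_iso hℓO
  refine ⟨e.symm.trans (Θ'.trans e₂),
    Compatible.trans (Compatible.symm he) (Compatible.trans h1 he₂), ?_⟩
  intro z z' hz hz' hzz
  rw [LinearEquiv.trans_apply, LinearEquiv.trans_apply, rsP, rsP, ← he', ← he₂',
    LinearEquiv.symm_apply_apply, h2 z z' hz hz' hzz]

end Vale.Agent.P019P.N019
end

attribute [local instance] AFast6df17cx3989b.a0 AFast6df17cx3989b.a1 AFast6df17cx3989b.a2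
  AFast6df17cx3989b.a3

end
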