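import Vale.Agent.N019.W1

/-!
# P019 for commuting pairs, part 2
-/

set_option linter.all false

section

attribute [local instance] AFast8a0e5cx12a.a0 AFast8a0e5cx12a.a1 AFast8a0e5cx12a.a2
  AFast8a0e5cx12a.a3 AFast8a0e5cx12a.a4 AFast8a0e5cx12a.a5
attribute [local instance] AFast8a0e5cx12b.a0 AFast8a0e5cx12b.a1 AFast8a0e5cx12b.a2
  AFast8a0e5cx12b.a3 AFast8a0e5cx12b.a4
attribute [local instance] O19.fr O19.tf O19.pj O19.fl

section

/-!
# Transferred valuations (perfect version)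

`exists_neg`, `Rk2.map` are those of the old file.
-/

namespace Vale.Agent.P019P.N019

open Vale.Agent.P019

open Polynomial Filter

variable {K L : Type*} [Field K] [Field L] [PerfectField K] [PerfectField L] {ℓ : ℕ}
  [Fact ℓ.Prime] [NeZero (ℓ : K)] [NeZero (ℓ : L)]
  {k : Subfield K} {l : Subfield L} {Θ : V ℓ K ≃ₗ[ZMod ℓ] V ℓ L}

/-- existence of transferred valuations. -/
theorem Hyp.exists_tr (H : Hyp ℓ k l Θ) {F : Subfield K} (hkF : k ≤ F) (hfg : FG k F)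
    {W : ValuationSubring K} {π θ : K} (hW : Nice W F π θ) {y : K} (hy : Good k y)
    (hyW : TrivOn W (adj k y)) : ∃ O : ValuationSubring L, TrivOn O l ∧ Tr Θ W π O := by
  have hfin := hW.finite (ℓ := ℓ) H.ack hkF hfg (le_adj k y) hyW
  obtain ⟨g₀, -, hg₀⟩ := exists_nr H.ack hy hfin
  obtain ⟨O, hO1, hO2⟩ := transfer H.comp (exists_neg H.ack) (exists_neg H.acl) hW.unif g₀ hg₀
  refine ⟨O, H.ltr (U1 ℓ W) y hy hfin O ?_, fun _ => hO1, hO2⟩
  intro z hz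
  rw [← hO2, LinearEquiv.apply_symm_apply]
  exact cl_mem_U1 hz

/-- the transferred valuation is trivial on curves corresponding to trivially valued ones. -/
theorem Hyp.triv_crv (H : Hyp ℓ k l Θ) {F : Subfield K} (hkF : k ≤ F) (hfg : FG k F)
    {W : ValuationSubring K} {π θ : K} (hW : Nice W F π θ) {O : ValuationSubring L}
    (hOl : TrivOn O l) (hT : Tr Θ W π O) {y : K} (hy : y ∉ k) (hyW : TrivOn W (adj k y))
    {E : Subfield L} (hE : Crv l E) (hVS : ∀ v ∈ VS ℓ (adj k y), Θ v ∈ VS ℓ E) :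
    TrivOn O E := by
  refine triv_of_rk2 (ℓ := ℓ) H.acl hE hOl ?_
  refine Rk2.map (Θ := Θ) (rk2_of_finite (VS_infinite H.ack H.fgk (le_adj k y)
    (fun h => hy (h (mem_adj k y))))
    (hW.finite (ℓ := ℓ) H.ack hkF hfg (le_adj k y) hyW)) hVS (fun v hv => (hT.iff v).1 hv)

end Vale.Agent.P019P.N019
end

section

/-!
# Rationality of the corresponding curves (perfect version)

`Rk2.mono`, `ne_ae` are those of the old file.
-/

namespace Vale.Agent.P019P.N019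

open Vale.Agent.P019

open Polynomial Filter

variable {K L : Type*} [Field K] [Field L] [PerfectField K] [PerfectField L] {ℓ : ℕ}
  [Fact ℓ.Prime] [NeZero (ℓ : K)] [NeZero (ℓ : L)]
  {k : Subfield K} {l : Subfield L} {Θ : V ℓ K ≃ₗ[ZMod ℓ] V ℓ L}

/-- the situation in which the core lemma applies. -/
theorem Hyp.rat_of (H : Hyp ℓ k l Θ) {G : Subfield K} (hkG : k ≤ G) (hfg : FG k G) {s : K}
    {W : ValuationSubring K} {π θ : K}
    (hW : Nice W (adj G s) π θ) {O : ValuationSubring L} (hT : Tr Θ W π O) {y z : L}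
    (hy : y ∉ l) (h1 : VS ℓ (adj l z) ≤ VS ℓ (adj l y) ⊔ U1 ℓ O)
    (h2 : VS ℓ (adj l y) ≤ VS ℓ (adj l z) ⊔ U1 ℓ O)
    (hys : ∀ v ∈ VS ℓ (adj l y), Θ.symm v ∈ VS ℓ (adj k s)) {E : Subfield K} (hE : Crv k E)
    (hEz : ∀ v, Θ.symm v ∈ VS ℓ E ↔ v ∈ VS ℓ (adj l z)) :
    TrivOn W E ∧ VS ℓ E ≤ VS ℓ (adj k s) ⊔ U1 ℓ W := by
  have hWG : TrivOn W (adj G s) := hW.triv
  have hWs : TrivOn W (adj k s) := hWG.mono (adj_mono hkG s)
  have hWk : TrivOn W k := hWs.mono (le_adj k s)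
  constructor
  · refine triv_of_rk2 (ℓ := ℓ) H.ack hE hWk ?_
    have hfin : ((U1 ℓ O ⊓ VS ℓ (adj l y) : Submodule (ZMod ℓ) (V ℓ L)) :
        Set (V ℓ L)).Finite := by
      refine Set.Finite.of_finite_image (f := Θ.symm) ((hW.finite (ℓ := ℓ) H.ack
        (hkG.trans (le_adj G s)) (hfg.adj s) (le_adj k s) hWs).subset ?_)
        (Θ.symm.injective.injOn)
      rintro _ ⟨v, ⟨hv1, hv2⟩, rfl⟩
      refine ⟨?_, hys v hv2⟩
      refine (hT.iff _).1 ?_
      rwa [LinearEquiv.apply_symm_apply]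
    have h3 : Rk2 (VS ℓ (adj l y)) (U1 ℓ O) :=
      rk2_of_finite (VS_infinite H.acl H.fgl (le_adj l y) (fun h => hy (h (mem_adj l y)))) hfin
    refine Rk2.map (Θ := Θ.symm) (h3.mono h2) (fun v hv => (hEz v).2 hv) ?_
    intro v hv
    have := (hT.iff (Θ.symm v)).2 hv
    rwa [LinearEquiv.apply_symm_apply] at this
  · intro w hw
    have h3 : Θ w ∈ VS ℓ (adj l z) := (hEz _).1 (by rwa [LinearEquiv.symm_apply_apply])
    obtain ⟨a, ha, b, hb, hab⟩ := Submodule.mem_sup.1 (h1 h3)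
    have h4 : w = Θ.symm a + Θ.symm b := by
      rw [← map_add, hab, LinearEquiv.symm_apply_apply]
    rw [h4]
    refine Submodule.add_mem_sup (hys a ha) ((hT.iff _).1 ?_)
    rwa [LinearEquiv.apply_symm_apply]

/-- curves of alg. independent good elements are different. -/
theorem Hyp.crv_ne (H : Hyp ℓ k l Θ) {t s : K} (hs : s ∉ k) (ht : ¬ IsAlgebraic (adj k s) t)
    {E₁ E₂ : Subfield L} (h₁ : ∀ v, Θ v ∈ VS ℓ E₁ ↔ v ∈ VS ℓ (adj k t))
    (h₂ : ∀ v, Θ v ∈ VS ℓ E₂ ↔ v ∈ VS ℓ (adj k s)) : E₁ ≠ E₂ := by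
  rintro rfl
  have h3 : VS ℓ (adj k s) = VS ℓ (adj k t) := by
    ext v
    rw [← h₁, ← h₂]
  have hfin := int_top (ℓ := ℓ) H.ack H.fgk (le_adj k s) (le_adj k t) (mem_adj k t) ht
    (fun z hz => isAlgebraic_of_mem hz)
  rw [← h3, inf_idem] at hfin
  exact VS_infinite H.ack H.fgk (le_adj k s) (fun h => hs (h (mem_adj k s))) hfin

/-- there are two alg. independent good elements. -/
theorem Hyp.exists_good_pair (H : Hyp ℓ k l Θ) :
    ∃ t s, Good k t ∧ Good k s ∧ ¬ IsAlgebraic (adj k s) t := by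
  obtain ⟨x, y, hx, hy⟩ := H.trk
  have := ae_neBot_of_isAlgClosed H.ack
  have h1 := H.bert x y hx hy
  obtain ⟨c₁, hc₁, hg₁⟩ := ((ae_mem k).and h1).exists
  have h2 : ∀ᶠ c in ae k, c ≠ c₁ := by
    rw [ae_iff]
    refine (Set.finite_singleton c₁).subset ?_
    rintro c ⟨-, hc⟩
    rw [not_not] at hc
    exact hc
  obtain ⟨c₂, ⟨hc₂, hg₂⟩, hne⟩ := (((ae_mem k).and h1).and h2).exists
  refine ⟨x + c₁ * y, x + c₂ * y, hg₁, hg₂, fun halg => ?_⟩
  set s := x + c₂ * y with hs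
  have hk : RAC k := RAC_of_isAlgClosed k H.ack
  have hcr : Crv k (adj k s) := Crv.of_good hg₂
  have ht : x + c₁ * y ∈ adj k s := hcr.rac _ halg
  have hkc : c₂ - c₁ ∈ adj k s := hcr.le (k.sub_mem hc₂ hc₁)
  have hne' : c₂ - c₁ ≠ 0 := sub_ne_zero.2 hne
  have hym : y ∈ adj k s := by
    have : y = (s - (x + c₁ * y)) / (c₂ - c₁) := by
      rw [hs]; field_simp; ring
    rw [this]
    exact div_mem (sub_mem (mem_adj k s) ht) hkc
  have hxm : x ∈ adj k s := by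
    have : x = s - c₂ * y := by rw [hs]; ring
    rw [this]
    exact sub_mem (mem_adj k s) (mul_mem (hcr.le hc₂) hym)
  exact hy (hcr.alg hk hxm hx y hym)

/-- from the core lemma to a rational coordinate. -/
theorem Hyp.rt_of (H : Hyp ℓ k l Θ) {G : Subfield K} (hkG : k ≤ G) (hfg : FG k G) {s : K}
    (hs : ¬ IsAlgebraic G s) {W : ValuationSubring K} {π θ : K}
    (hW : Nice W (adj G s) π θ) {O : ValuationSubring L} (hT : Tr Θ W π O) {y z : L}
    (hy : y ∉ l) (hz : Good l z) (h1 : VS ℓ (adj l z) ≤ VS ℓ (adj l y) ⊔ U1 ℓ O)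
    (h2 : VS ℓ (adj l y) ≤ VS ℓ (adj l z) ⊔ U1 ℓ O)
    (hys : ∀ v ∈ VS ℓ (adj l y), Θ.symm v ∈ VS ℓ (adj k s)) : ∃ u, Rt k l Θ u z := by
  obtain ⟨E, hE, hEz⟩ := H.stepA' z hz
  obtain ⟨hWE, hV⟩ := H.rat_of hkG hfg hW hT hy h1 h2 hys hE hEz
  have hEk : ¬ E ≤ k := by
    obtain ⟨y₀, hy₀, hy₀k, -⟩ := hE.ex
    exact fun h => hy₀k (h hy₀)
  haveI : PerfectField E := hE.perfect
  haveI : IsAlgClosed k := H.ack
  obtain ⟨u, hu, rfl⟩ := core_rat H.ack hkG hfg hs hW hE.le hWE hV hEk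
  refine ⟨u, ⟨fun huk => hEk (adj_le le_rfl huk), hE.rac⟩, hz, fun v => ?_⟩
  rw [← hEz, LinearEquiv.symm_apply_apply]

theorem Hyp.exists_rt (H : Hyp ℓ k l Θ) : ∃ s s', Rt k l Θ s s' := by
  obtain ⟨t, s, ht, hs, hts⟩ := H.exists_good_pair
  have hk : RAC k := RAC_of_isAlgClosed k H.ack
  have hl : RAC l := RAC_of_isAlgClosed l H.acl
  obtain ⟨Et, hEt, hEt'⟩ := H.stepA t ht
  obtain ⟨Es, hEs, hEs'⟩ := H.stepA s hs
  haveI : PerfectField Et := hEt.perfect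
  haveI : PerfectField Es := hEs.perfect
  have hne := H.crv_ne hs.1 hts hEt' hEs'
  obtain ⟨G, hG⟩ := exists_frame H.fgk (fun h => hs.1 (hk s h)) hts
  obtain ⟨θ, hθ⟩ := hG.nice H.fgk
  have := ae_neBot_of_isAlgClosed H.ack
  have hkF : k ≤ adj G s := hG.le.trans (le_adj G s)
  obtain ⟨a, hak, ha⟩ := ((ae_mem k).and (hθ.filter_mono (ae_mono hkF))).exists
  obtain ⟨W, hWo⟩ := exists_over hG.tt (hkF hak)
  have hW := ha W hWo
  have hWs : TrivOn W (adj k s) := hW.triv.mono (adj_mono hG.le s)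
  obtain ⟨O, hOl, hT⟩ := H.exists_tr hkF (hG.fg.adj s) hW hs hWs
  have hOs : TrivOn O Es := H.triv_crv hkF (hG.fg.adj s) hW hOl hT hs.1 hWs hEs
    (fun v hv => (hEs' v).2 hv)
  have hOt : ¬ TrivOn O Et := hT.not_triv hW.unif ((hEt' _).2
    (cl_mem_VS (sub_mem (mem_adj k t) (le_adj k t hak))))
  obtain ⟨x₀, hx₀, hx₀O⟩ : ∃ c ∈ Et, c ∉ O := by
    by_contra hcon
    push Not at hcon
    exact hOt hcon
  have hx₀0 : x₀ ≠ 0 := by rintro rfl; exact hx₀O (zero_mem O)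
  set x := x₀⁻¹ with hx
  have hxE : x ∈ Et := Et.inv_mem hx₀
  have hxO : O.valuation x < 1 := by
    rw [hx, map_inv₀]
    have h1 : 1 < O.valuation x₀ := by
      rw [← not_le, O.valuation_le_one_iff]; exact hx₀O
    exact inv_lt_one_of_one_lt₀ h1
  have hx0 : x ≠ 0 := inv_ne_zero hx₀0
  have hxl : x ∉ l := by
    intro h
    exact hx0 (hOl.eq_zero h hxO)
  obtain ⟨y, hyE, hyl, -⟩ := hEs.ex
  have hxy : ¬ IsAlgebraic (adj l x) y := by
    intro h
    have hyt : y ∈ Et := hEt.rac y (isAlgebraic_mono (adj_le hEt.le hxE) h)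
    exact hne (Crv.eq hl hEt hEs hyt hyE hyl)
  have := ae_neBot_of_isAlgClosed H.acl
  obtain ⟨c, ⟨hcl, hc0⟩, hgood⟩ := (((ae_mem l).and (ne_ae l 0)).and (H.bert' x y hxl hxy)).exists
  have hadj : adj l (c * y) = adj l y := adj_mul_const hcl hc0
  have hcyl : c * y ∉ l := by
    intro h
    apply hyl
    have : y = c⁻¹ * (c * y) := by field_simp
    rw [this]
    exact l.mul_mem (l.inv_mem hcl) h
  have hadjE : adj l (c * y) ≤ Es := by rw [hadj]; exact adj_le hEs.le hyE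
  have hOy : TrivOn O (adj l (c * y)) := hOs.mono hadjE
  have hval : O.valuation (x + c * y - c * y) < 1 := by
    rw [add_sub_cancel_right]; exact hxO
  have hsh : ∀ b ∈ l, cl ℓ (c * y - b) - cl ℓ (x + c * y - b) ∈ U1 ℓ O := fun b hb =>
    cl_shift hcyl hOy hval hb
  obtain ⟨u, hu⟩ := H.rt_of hG.le hG.fg hG.ss hW hT hcyl hgood
    (VS_le_of_shift H.acl hgood.1 (fun b => b) (fun b hb => hb) (fun b hb => by
      rw [← neg_mem_iff, neg_sub]; exact hsh b hb))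
    (VS_le_of_shift H.acl hcyl (fun b => b) (fun b hb => hb) hsh)
    (fun v hv => by
      rw [← hEs', LinearEquiv.apply_symm_apply]
      exact VS_mono hadjE hv)
  exact ⟨u, _, hu⟩

theorem Hyp.rt_add (H : Hyp ℓ k l Θ) {s : K} {s' : L} (h : Rt k l Θ s s') {t : K}
    (ht : Good k t) (hts : ¬ IsAlgebraic (adj k s) t) (hg : Good k (t + s)) :
    ∃ z', Rt k l Θ (t + s) z' := by
  have hk : RAC k := RAC_of_isAlgClosed k H.ack
  have hl : RAC l := RAC_of_isAlgClosed l H.acl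
  obtain ⟨Et, hEt, hEt'⟩ := H.stepA t ht
  have hne := H.crv_ne h.good.1 hts hEt' h.map
  have hcs : Crv l (adj l s') := Crv.of_good h.good'
  obtain ⟨x, hxE, hxl, -⟩ := hEt.ex
  have hxs : ¬ IsAlgebraic (adj l s') x := by
    intro h1
    have hx : x ∈ adj l s' := hcs.rac x h1
    exact hne (Crv.eq hl hEt hcs hxE hx hxl)
  obtain ⟨G, hG⟩ := exists_frame H.fgl (fun h1 => h.good'.1 (hl s' h1)) hxs
  obtain ⟨θ, hθ⟩ := hG.nice H.fgl
  have := ae_neBot_of_isAlgClosed H.acl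
  have hlF : l ≤ adj G s' := hG.le.trans (le_adj G s')
  -- for almost all `c` there are `W, O`
  have hex : ∀ᶠ c in ae l, ∃ (W : ValuationSubring L) (O : ValuationSubring K),
      Nice W (adj G s') (x - c) θ ∧ TrivOn O k ∧ Tr Θ.symm W (x - c) O := by
    filter_upwards [ae_mem l, hθ.filter_mono (ae_mono hlF)] with c hcl hc
    obtain ⟨W, hWo⟩ := exists_over hG.tt (hlF hcl)
    have hW := hc W hWo
    obtain ⟨O, hO1, hO2⟩ := H.symm.exists_tr hlF (hG.fg.adj s') hW h.good'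
      (hW.triv.mono (adj_mono hG.le s'))
    exact ⟨W, O, hW, hO1, hO2⟩
  have hmem : ∀ c ∈ l, Θ.symm (cl ℓ (x - c)) ∈ VS ℓ (adj k t) := by
    intro c hc
    rw [← hEt', LinearEquiv.apply_symm_apply]
    exact cl_mem_VS (sub_mem hxE (hEt.le hc))
  -- one of them is centred at a finite point
  obtain ⟨c, hcl, W, O, hW, hOk, hT, a, ha, hta⟩ : ∃ c ∈ l, ∃ (W : ValuationSubring L)
      (O : ValuationSubring K), Nice W (adj G s') (x - c) θ ∧ TrivOn O k ∧
      Tr Θ.symm W (x - c) O ∧ ∃ a ∈ k, O.valuation (t - a) < 1 := by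
    obtain ⟨c₁, hc₁, W₁, O₁, hW₁, hO₁, hT₁⟩ := ((ae_mem l).and hex).exists
    have hn₁ : ¬ TrivOn O₁ (adj k t) := hT₁.not_triv hW₁.unif (hmem c₁ hc₁)
    rcases exists_centre H.ack ht hO₁ hn₁ with ⟨a, ha, hta⟩ | hinf₁
    · exact ⟨c₁, hc₁, W₁, O₁, hW₁, hO₁, hT₁, a, ha, hta⟩
    obtain ⟨c₂, ⟨hc₂, hne₂⟩, W₂, O₂, hW₂, hO₂, hT₂⟩ :=
      (((ae_mem l).and (ne_ae l c₁)).and hex).exists
    have hn₂ : ¬ TrivOn O₂ (adj k t) := hT₂.not_triv hW₂.unif (hmem c₂ hc₂)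
    rcases exists_centre H.ack ht hO₂ hn₂ with ⟨a, ha, hta⟩ | hinf₂
    · exact ⟨c₂, hc₂, W₂, O₂, hW₂, hO₂, hT₂, a, ha, hta⟩
    exact (two_infty H.ack H.acl ht.1 hc₁ hc₂ hne₂.symm hW₁.unif hW₂.unif hT₁ hT₂
      (hW₂.triv.mono hlF) hO₁ hO₂ (hmem c₁ hc₁) (hmem c₂ hc₂) hinf₁ hinf₂).elim
  have hWs : TrivOn W (adj l s') := hW.triv.mono (adj_mono hG.le s')
  have hOs : TrivOn O (adj k s) := H.symm.triv_crv hlF (hG.fg.adj s') hW hOk hT h.good'.1 hWs
    (Crv.of_good h.good) (fun v hv => by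
      rw [← h.map, LinearEquiv.apply_symm_apply]; exact hv)
  have hval : O.valuation (t + s - a - s) < 1 := by
    have : t + s - a - s = t - a := by ring
    rw [this]; exact hta
  have hsh : ∀ b ∈ k, cl ℓ (s - b) - cl ℓ (t + s - (a + b)) ∈ U1 ℓ O := by
    intro b hb
    have h1 := cl_shift (ℓ := ℓ) h.good.1 hOs hval hb
    have : t + s - a - b = t + s - (a + b) := by ring
    rwa [this] at h1
  obtain ⟨u, hu⟩ := H.symm.rt_of hG.le hG.fg hG.ss hW hT h.good.1 hg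
    (VS_le_of_shift H.ack hg.1 (fun b => b - a) (fun b hb => k.sub_mem hb ha) (fun b hb => by
      have h1 := hsh (b - a) (k.sub_mem hb ha)
      rw [add_sub_cancel] at h1
      rw [← neg_mem_iff, neg_sub]
      exact h1))
    (VS_le_of_shift H.ack h.good.1 (fun b => a + b) (fun b hb => k.add_mem ha hb) hsh)
    (fun v hv => by
      rw [LinearEquiv.symm_symm, h.map]; exact hv)
  refine ⟨u, hg, hu.good, fun v => ?_⟩
  have h1 := hu.map (Θ v)
  rw [LinearEquiv.symm_apply_apply] at h1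
  exact h1.symm

theorem Hyp.rt_all (H : Hyp ℓ k l Θ) {t : K} (ht : Good k t) : ∃ t', Rt k l Θ t t' := by
  have hk : RAC k := RAC_of_isAlgClosed k H.ack
  obtain ⟨s, s', h⟩ := H.exists_rt
  by_cases hts : IsAlgebraic (adj k s) t
  · have hadj : adj k t = adj k s :=
      Crv.eq hk (Crv.of_good ht) (Crv.of_good h.good) (mem_adj k t)
        (h.good.2 t hts) ht.1
    exact ⟨s', ht, h.good', fun v => by rw [hadj]; exact h.map v⟩
  · have hst : ¬ IsAlgebraic (adj k t) s := by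
      intro h1
      have hadj : adj k s = adj k t :=
        Crv.eq hk (Crv.of_good h.good) (Crv.of_good ht) (mem_adj k s) (ht.2 s h1) h.good.1
      apply hts
      rw [hadj]
      exact isAlgebraic_of_mem (mem_adj k t)
    have := ae_neBot_of_isAlgClosed H.ack
    obtain ⟨c, ⟨hck, hc0⟩, hgood⟩ :=
      (((ae_mem k).and (ne_ae k 0)).and (H.bert t s ht.1 hst)).exists
    have hnc : -c ∈ k := k.neg_mem hck
    have hnc0 : -c ≠ 0 := neg_ne_zero.2 hc0
    have hadj : adj k (-c * s) = adj k s := adj_mul_const hnc hnc0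
    have hcs : -c * s ∉ k := by
      intro h1
      apply h.good.1
      have : s = (-c)⁻¹ * (-c * s) := by field_simp
      rw [this]
      exact k.mul_mem (k.inv_mem hnc) h1
    have hR : Rt k l Θ (-c * s) s' := by
      refine ⟨⟨hcs, ?_⟩, h.good', fun v => ?_⟩
      · rw [hadj]; exact h.good.2
      · rw [hadj]; exact h.map v
    have e : t + c * s + -c * s = t := by ring
    obtain ⟨z', hz'⟩ := H.rt_add hR (t := t + c * s) hgood (by
      rw [hadj]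
      intro h1
      apply hts
      have h2 : t + c * s ∈ adj k s := h.good.2 _ h1
      have : t = (t + c * s) - c * s := by ring
      rw [this]
      exact isAlgebraic_of_mem (sub_mem h2 (mul_mem (le_adj k s hck) (mem_adj k s))))
      (by rw [e]; exact ht)
    rw [e] at hz'
    exact ⟨z', hz'⟩

end Vale.Agent.P019P.N019
end

section

/-!
# The correspondence of points on rational curves
-/

namespace Vale.Agent.P019P.N019

open Vale.Agent.P019

open Polynomial Filter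

variable {K L : Type*} [Field K] [Field L] [PerfectField K] [PerfectField L] {ℓ : ℕ}
  [Fact ℓ.Prime] [NeZero (ℓ : K)] [NeZero (ℓ : L)]
  {k : Subfield K} {l : Subfield L} {Θ : V ℓ K ≃ₗ[ZMod ℓ] V ℓ L}

/-- a good element independent of a given one. -/
theorem Hyp.exists_indep (H : Hyp ℓ k l Θ) {s : K} (hs : Good k s) :
    ∃ t, Good k t ∧ ¬ IsAlgebraic (adj k s) t := by
  have hRAC := RAC_of_isAlgClosed k H.ack
  have hsk : ¬ IsAlgebraic k s := fun h => hs.1 (hRAC s h)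
  obtain ⟨x, y, hx, hxy⟩ := H.trk
  have hex : ∃ w : K, ¬ IsAlgebraic (adj k s) w := by
    by_contra hcon
    push Not at hcon
    have h1 : ¬ IsAlgebraic k x := fun h => hx (hRAC x h)
    have h2 : IsAlgebraic (adj k x) s := exchange h1 (hcon x)
    have h3 : adj k s ≤ rac (adj k x) :=
      adj_le ((le_adj k x).trans (le_rac _)) (mem_rac.2 h2)
    exact hxy (mem_rac.1 ((RAC_rac (adj k x)).le h3 (mem_rac.2 (hcon y))))
  obtain ⟨w, hw⟩ := hex
  have hwk : w ∉ k := fun h => hw (isAlgebraic_of_mem (le_adj k s h))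
  have hws : ¬ IsAlgebraic (adj k w) s := fun h => hw (exchange hsk h)
  have hne := ae_neBot_of_isAlgClosed H.ack
  obtain ⟨c, hc, hck⟩ := ((H.bert w s hwk hws).and (ae_mem k)).exists
  refine ⟨w + c * s, hc, fun h => hw ?_⟩
  have h1 : w + c * s ∈ rac (adj k s) := mem_rac.2 h
  have h2 : c * s ∈ rac (adj k s) :=
    le_rac _ ((adj k s).mul_mem (le_adj k s hck) (mem_adj k s))
  have h3 := (rac (adj k s)).sub_mem h1 h2
  rw [add_sub_cancel_right] at h3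
  exact mem_rac.1 h3

/-- almost all points have a corresponding point. -/
theorem Hyp.exists_cor (H : Hyp ℓ k l Θ) {s : K} {s' : L} (hR : Rt k l Θ s s') :
    ∀ᶠ b in ae k, ∃ β ∈ l, ∃ e : ZMod ℓ, e ≠ 0 ∧ Cor k l Θ s s' e b β := by
  obtain ⟨t, ht, hst⟩ := H.exists_indep hR.good
  have hRAC := RAC_of_isAlgClosed k H.ack
  have htk : ¬ IsAlgebraic k t := fun h => ht.1 (hRAC t h)
  have hsk : ¬ IsAlgebraic k s := fun h => hR.good.1 (hRAC s h)
  have hts : ¬ IsAlgebraic (adj k t) s := fun h => hst (exchange hsk h)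
  obtain ⟨G, hG⟩ := exists_frame H.fgk htk hts
  obtain ⟨θ, hθ⟩ := hG.nice H.fgk
  have hkF : k ≤ adj G t := hG.le.trans (le_adj G t)
  have hθ' := (ae_mono hkF) hθ
  have hmain : ∀ᶠ b in ae k, (∃ β ∈ l, ∃ e : ZMod ℓ, e ≠ 0 ∧ Cor k l Θ s s' e b β) ∨
      PoleAt k l Θ s s' b := by
    filter_upwards [hθ', ae_mem k] with b hb hbk
    obtain ⟨W, hW⟩ := exists_over hG.tt (hkF hbk)
    have hN := hb W hW
    have hWt : TrivOn W (adj k t) := hN.triv.mono (adj_mono hG.le t)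
    have hWk : TrivOn W k := hN.triv.mono hkF
    obtain ⟨O, hOl, hT⟩ := H.exists_tr hkF (hG.fg.adj t) hN ht hWt
    have hsb : cl ℓ (s - b) ∈ VS ℓ (adj k s) :=
      cl_mem_VS ((adj k s).sub_mem (mem_adj k s) (le_adj k s hbk))
    have hnt : ¬ TrivOn O (adj l s') := hT.not_triv hN.unif ((hR.map _).2 hsb)
    set f : V ℓ L →ₗ[ZMod ℓ] ZMod ℓ := (hN.unif.fn ℓ) ∘ₗ Θ.symm.toLinearMap with hf
    have hfu : ∀ z, O.valuation z = 1 → f (cl ℓ z) = 0 := fun z hz => hT.unit hN.unif z hz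
    have hdel : ∀ v ∈ VS ℓ (adj k s), del ℓ k s b v = f (Θ v) := by
      intro v hv
      have h1 := del_of_kills H.ack hR.good hWk hbk hW.lt (hN.unif.fn ℓ)
        (fun z hz => hN.unif.fn_unit ℓ z hz) hv
      rw [hN.unif.fn_self ℓ, one_mul] at h1
      rw [← h1]
      change _ = hN.unif.fn ℓ (Θ.symm (Θ v))
      rw [LinearEquiv.symm_apply_apply]
    rcases exists_centre H.acl hR.good' hOl hnt with ⟨β, hβ, hβ1⟩ | hinf
    · left
      have hcor : ∀ v ∈ VS ℓ (adj k s),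
          del ℓ k s b v = f (cl ℓ (s' - β)) * del ℓ l s' β (Θ v) := by
        intro v hv
        rw [hdel v hv]
        exact del_of_kills H.acl hR.good' hOl hβ hβ1 f hfu ((hR.map v).2 hv)
      refine ⟨β, hβ, f (cl ℓ (s' - β)), ?_, hcor⟩
      intro h0
      have h1 := hcor _ hsb
      rw [h0, zero_mul, del_self H.ack hR.good hbk] at h1
      exact one_ne_zero h1
    · right
      refine ⟨f, hdel, fun c hc => ?_⟩
      have hs0 : s' ≠ 0 := by
        rintro rfl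
        rw [map_zero] at hinf
        exact absurd hinf (not_lt.2 zero_le_one)
      have hcle : O.valuation c < O.valuation s' := (hOl.le_one hc).trans_lt hinf
      have hval : O.valuation (s' - c) = O.valuation s' :=
        Valuation.map_sub_eq_of_lt_left _ hcle
      have hsc0 : s' - c ≠ 0 := by
        intro h
        rw [h, map_zero] at hval
        exact (Valuation.ne_zero_iff O.valuation).2 hs0 hval.symm
      have h1 : O.valuation ((s' - c) / s') = 1 := by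
        rw [map_div₀, hval, div_self ((Valuation.ne_zero_iff O.valuation).2 hs0)]
      have h2 := hfu _ h1
      rw [cl_div ℓ hsc0 hs0, map_sub, sub_eq_zero] at h2
      exact h2
  have hpole : ∀ᶠ b in ae k, ¬ PoleAt k l Θ s s' b := by
    rw [ae_iff]
    refine Set.Subsingleton.finite ?_
    rintro b₁ ⟨h₁, hp₁⟩ b₂ ⟨h₂, hp₂⟩
    rw [not_not] at hp₁ hp₂
    exact PoleAt.unique H.ack H.acl hR h₁ h₂ hp₁ hp₂
  filter_upwards [hmain, hpole] with b h1 h2
  exact h1.resolve_right h2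

theorem Hyp.exists_psi (H : Hyp ℓ k l Θ) {s : K} {s' : L} (hR : Rt k l Θ s s') :
    ∃ ψ e, Psi k l Θ s s' ψ e := by
  classical
  have hex : ∃ (ψ : K → L) (e : K → ZMod ℓ), ∀ b, (∃ β ∈ l, ∃ e : ZMod ℓ, e ≠ 0 ∧
      Cor k l Θ s s' e b β) → ψ b ∈ l ∧ e b ≠ 0 ∧ Cor k l Θ s s' (e b) b (ψ b) := by
    refine ⟨fun b => if h : ∃ β ∈ l, ∃ e : ZMod ℓ, e ≠ 0 ∧ Cor k l Θ s s' e b β then h.choose
      else 0, fun b => if h : ∃ β ∈ l, ∃ e : ZMod ℓ, e ≠ 0 ∧ Cor k l Θ s s' e b β then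
        h.choose_spec.2.choose else 0, fun b h => ?_⟩
    simp only [dif_pos h]
    exact ⟨h.choose_spec.1, h.choose_spec.2.choose_spec.1, h.choose_spec.2.choose_spec.2⟩
  obtain ⟨ψ, e, hψ⟩ := hex
  have hcor : ∀ᶠ b in ae k, ψ b ∈ l ∧ e b ≠ 0 ∧ Cor k l Θ s s' (e b) b (ψ b) := by
    filter_upwards [H.exists_cor hR] with b hb
    exact hψ b hb
  refine ⟨ψ, e, hcor, ?_⟩
  have h1 := H.symm.exists_cor hR.symm
  rw [ae_iff] at hcor
  rw [ae_iff] at h1 ⊢
  have h2 : (⋃ b ∈ {a : K | a ∈ k ∧ ¬ (ψ a ∈ l ∧ e a ≠ 0 ∧ Cor k l Θ s s' (e a) a (ψ a))},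
      {β : L | β ∈ l ∧ ∃ e : ZMod ℓ, e ≠ 0 ∧ Cor k l Θ s s' e b β}).Finite := by
    refine hcor.biUnion fun b hb => Set.Subsingleton.finite ?_
    rintro β ⟨hβ, e₁, he₁, hc₁⟩ β' ⟨hβ', e₂, he₂, hc₂⟩
    exact (Cor.unique H.ack H.acl hR he₁ hb.1 hβ hβ' hc₁ hc₂).1
  refine (h1.union h2).subset ?_
  rintro β ⟨hβ, hno⟩
  by_cases hQ : ∃ b ∈ k, ∃ e : ZMod ℓ, e ≠ 0 ∧ Cor l k Θ.symm s' s e β b
  · right
    obtain ⟨b, hb, e', he', hc⟩ := hQ
    have hc' : Cor k l Θ s s' e'⁻¹ b β := Cor.symm hR.symm he' hc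
    rw [Set.mem_iUnion₂]
    refine ⟨b, ⟨hb, fun hgood => hno ?_⟩, hβ, e'⁻¹, inv_ne_zero he', hc'⟩
    exact ⟨b, hb, (Cor.unique H.ack H.acl hR hgood.2.1 hb hgood.1 hβ hgood.2.2 hc').1,
      hgood.2.1, hgood.2.2⟩
  · left
    exact ⟨hβ, hQ⟩

end Vale.Agent.P019P.N019
end

section

/-!
# Shifts on fibres and centres
-/

namespace Vale.Agent.P019P.N019

open Vale.Agent.P019

open Polynomial Filter

variable {K L : Type*} [Field K] [Field L] [PerfectField K] [PerfectField L] {ℓ : ℕ}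
  [Fact ℓ.Prime] [NeZero (ℓ : K)] [NeZero (ℓ : L)]
  {k : Subfield K} {l : Subfield L} {Θ : V ℓ K ≃ₗ[ZMod ℓ] V ℓ L}

/-- the transferred valuation is centred at the corresponding point. -/
theorem Hyp.centre (H : Hyp ℓ k l Θ) {t : K} {t' : L} (hR : Rt k l Θ t t') {a : K} (ha : a ∈ k)
    {α : L} (hα : α ∈ l) {e : ZMod ℓ} (he : e ≠ 0) (hc : Cor k l Θ t t' e a α)
    {W : ValuationSubring L} (hWl : TrivOn W l) (hW : IsUnif W (t' - α)) {O : ValuationSubring K}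
    (hOk : TrivOn O k) (hT : Tr Θ.symm W (t' - α) O) : O.valuation (t - a) < 1 := by
  set f : V ℓ K →ₗ[ZMod ℓ] ZMod ℓ := (hW.fn ℓ) ∘ₗ Θ.toLinearMap with hfdef
  have hf : ∀ z, O.valuation z = 1 → f (cl ℓ z) = 0 := by
    intro z hz
    have := hT.unit hW z hz
    rwa [LinearEquiv.symm_symm] at this
  have hfv : ∀ v ∈ VS ℓ (adj k t), del ℓ k t a v = e * f v := by
    intro v hv
    have h1 : Θ v ∈ VS ℓ (adj l t') := (hR.map v).2 hv
    have h2 := del_of_kills (ℓ := ℓ) H.acl hR.good' hWl hα hW.lt (hW.fn ℓ) (hW.fn_unit ℓ) h1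
    have hself : hW.fn ℓ (cl ℓ (t' - α)) = 1 := hW.fn_self ℓ
    rw [hself, one_mul] at h2
    rw [hc v hv, ← h2]
    rfl
  have hmem : ∀ b ∈ k, cl ℓ (t - b) ∈ VS ℓ (adj k t) := fun b hb =>
    cl_mem_VS (sub_mem (mem_adj k t) (le_adj k t hb))
  have hta : e * f (cl ℓ (t - a)) = 1 := by
    rw [← hfv _ (hmem a ha), del_self H.ack hR.good ha]
  have hne : f (cl ℓ (t - a)) ≠ 0 := by
    intro h
    rw [h, mul_zero] at hta
    exact zero_ne_one hta
  have hnt : ¬ TrivOn O (adj k t) := by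
    refine hT.not_triv hW ?_
    rw [← hR.map, LinearEquiv.apply_symm_apply]
    exact cl_mem_VS (sub_mem (mem_adj l t') (le_adj l t' hα))
  rcases exists_centre H.ack hR.good hOk hnt with ⟨b, hb, hbt⟩ | hbig
  · have h1 := del_of_kills (ℓ := ℓ) H.ack hR.good hOk hb hbt f hf (hmem a ha)
    have h2 : a = b := by
      by_contra hab
      rw [del_ne H.ack hR.good hb ha hab, mul_zero] at h1
      exact hne h1
    rw [h2]
    exact hbt
  · exfalso
    have ha' : a + 1 ∈ k := add_mem ha (one_mem k)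
    have hval : ∀ b ∈ k, O.valuation (t - b) = O.valuation t := by
      intro b hb
      rw [Valuation.map_sub_eq_of_lt_left]
      exact lt_of_le_of_lt (hOk.le_one hb) hbig
    have hsub : ∀ b ∈ k, t - b ≠ 0 := by
      intro b hb h
      rw [sub_eq_zero] at h
      exact hR.good.1 (h ▸ hb)
    have ht0 : O.valuation t ≠ 0 := by
      intro h
      rw [h] at hbig
      exact absurd hbig (not_lt.2 zero_le_one)
    have h1 : O.valuation ((t - a) / (t - (a + 1))) = 1 := by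
      rw [map_div₀, hval a ha, hval _ ha', div_self ht0]
    have h2 := hf _ h1
    rw [cl_div ℓ (hsub a ha) (hsub _ ha'), map_sub, sub_eq_zero] at h2
    have h3 := hfv _ (hmem _ ha')
    rw [del_ne H.ack hR.good ha ha' (by simp)] at h3
    rcases mul_eq_zero.1 h3.symm with h4 | h4
    · exact he h4
    · exact hne (h2.trans h4)

end Vale.Agent.P019P.N019
end

section

/-!
# The Moebius relation on the fibres (perfect version)

`relb_comap` is that of the old file.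
-/

namespace Vale.Agent.P019P.N019

open Vale.Agent.P019

open Polynomial Filter

variable {K L : Type*} [Field K] [Field L] [PerfectField K] [PerfectField L] {ℓ : ℕ}
  [Fact ℓ.Prime] [NeZero (ℓ : K)] [NeZero (ℓ : L)]
  {k : Subfield K} {l : Subfield L} {Θ : V ℓ K ≃ₗ[ZMod ℓ] V ℓ L}

/-- the relation on one fibre, for a coordinate of which `z'` is a rational function. -/
theorem Hyp.relb_at0 (H : Hyp ℓ k l Θ) {s z : K} {s' z' : L} (hs : Rt k l Θ s s')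
    (hz : Rt k l Θ z z') {ψs ψz : K → L} {es ez : K → ZMod ℓ} (ps : Psi k l Θ s s' ψs es)
    (pz : Psi k l Θ z z' ψz ez) {μ : K → K} (hμ : ∀ b ∈ k, μ b ∈ k)
    (hμi : ∀ b ∈ k, ∀ b' ∈ k, μ b = μ b' → b = b')
    {W : ValuationSubring L} (hWs : TrivOn W (adj l s')) (hWz : TrivOn W (adj l z'))
    (hfin : ((U1 ℓ W ⊓ VS ℓ (adj l s') : Submodule (ZMod ℓ) (V ℓ L)) : Set (V ℓ L)).Finite)
    {R : L} (hWR : W.valuation (z' - R) < 1) {P Q : l[X]} (hcop : IsCoprime P Q) (hQ0 : Q ≠ 0)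
    (hR : R = aeval s' P / aeval s' Q)
    (hU : ∀ b ∈ k, Θ (cl ℓ (s - b)) - Θ (cl ℓ (z - μ b)) ∈ U1 ℓ W) :
    ∃ j : ℕ, ∃ A ∈ l, ∃ B ∈ l, ∃ C ∈ l, ∃ D ∈ l, A * D - B * C ≠ 0 ∧
      (∀ᶠ b in ae k, ψz (μ b) * (C * ψs b ^ (ringExpChar L) ^ j + D) =
          A * ψs b ^ (ringExpChar L) ^ j + B ∧
        ez (μ b) = (((ringExpChar L) ^ j : ℕ) : ZMod ℓ) * es b) ∧
      W.valuation (z' * (C * s' ^ (ringExpChar L) ^ j + D) -
        (A * s' ^ (ringExpChar L) ^ j + B)) < 1 := by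
  classical
  have hk := H.ack
  have hl := H.acl
  have hs'l : s' ∉ l := hs.good'.1
  have hz'l : z' ∉ l := hz.good'.1
  -- the exceptional points
  set Xz : Finset L := (ae_iff.1 pz.surj).toFinset with hXzd
  have hXz : ∀ x ∈ Xz, x ∈ l := fun x hx => ((Set.Finite.mem_toFinset _).1 hx).1
  have hXz' : ∀ β ∈ l, β ∉ Xz →
      ∃ b ∈ k, ψz b = β ∧ ez b ≠ 0 ∧ Cor k l Θ z z' (ez b) b (ψz b) := by
    intro β hβ h
    by_contra hcon
    exact h ((Set.Finite.mem_toFinset _).2 ⟨hβ, hcon⟩)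
  have c1 : ∀ᶠ β in ae l, ∀ y ∈ ((U1 ℓ W ⊓ VS ℓ (adj l s') : Submodule (ZMod ℓ) (V ℓ L)) :
      Set (V ℓ L)), del ℓ l s' β y = 0 :=
    (eventually_all_finite hfin).2 fun y hy => del_ae hl hs.good' hy.2
  have c2 := relb_root_ae hQ0
  have c3 : ∀ᶠ β in ae l, ∀ x ∈ Xz, ∀ h : β ∈ l,
      (relbF P Q x).rootMultiplicity ⟨β, h⟩ = 0 ∧ (relbF P Q x).eval ⟨β, h⟩ ≠ 0 :=
    (eventually_all_finset Xz).2 fun x hx =>
      relb_root_ae (relbF_ne hl hs'l hz'l hWz hQ0 hR hWR (hXz x hx))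
  have c5 : ∀ᶠ b in ae k, ψz (μ b) ∈ l ∧ ez (μ b) ≠ 0 ∧
      Cor k l Θ z z' (ez (μ b)) (μ b) (ψz (μ b)) :=
    relb_comap (l := k) (f := μ) (G := fun _ => True) (Eventually.of_forall fun _ => trivial)
      (fun a ha _ => hμ a ha) (fun a ha _ b hb _ h => hμi a ha b hb h) pz.cor
  -- the generic points
  have key : ∀ᶠ b in ae k, b ∈ k ∧ (es b ≠ 0 ∧ Cor k l Θ s s' (es b) b (ψs b)) ∧
      (ez (μ b) ≠ 0 ∧ Cor k l Θ z z' (ez (μ b)) (μ b) (ψz (μ b))) ∧
      ∃ (h : ψs b ∈ l) (h' : ψz (μ b) ∈ l), P.eval ⟨ψs b, h⟩ =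
        ⟨ψz (μ b), h'⟩ * Q.eval ⟨ψs b, h⟩ ∧ Q.eval ⟨ψs b, h⟩ ≠ 0 ∧
        (es b)⁻¹ = (ez (μ b))⁻¹ *
          ((relbF P Q (ψz (μ b))).rootMultiplicity ⟨ψs b, h⟩ : ZMod ℓ) := by
    filter_upwards [ae_mem k, ps.cor, Psi.relb_pull hk hl hs ps (c1.and (c2.and c3)), c5]
      with b hb hcor hgen hz5
    obtain ⟨hβ, hes, hcs⟩ := hcor
    obtain ⟨g1, g2, g3⟩ := hgen
    obtain ⟨hβ', hez, hcz⟩ := hz5
    refine ⟨hb, ⟨hes, hcs⟩, ⟨hez, hcz⟩, hβ, hβ', ?_⟩
    have h1 := relb_point hk hl hs hz hWz hQ0 hR hWR hXz hXz' hb (hμ b hb) (hU b hb) hβ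
      hcs hβ' hcz g1 (g2 hβ).1 (fun x hx => (g3 x hx hβ).1)
    have h2 : (relbF P Q (ψz (μ b))).rootMultiplicity ⟨ψs b, hβ⟩ ≠ 0 := by
      intro h
      rw [h, Nat.cast_zero, mul_zero] at h1
      exact inv_ne_zero hes h1
    have h3 : (relbF P Q (ψz (μ b))).eval ⟨ψs b, hβ⟩ = 0 := by
      have h4 := (rootMultiplicity_pos (relbF_ne hl hs'l hz'l hWz hQ0 hR hWR hβ')).1
        (Nat.pos_of_ne_zero h2)
      exact h4
    refine ⟨?_, (g2 hβ).2, h1⟩
    rw [relbF_of_mem P Q hβ', eval_sub, eval_mul, eval_C, sub_eq_zero] at h3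
    exact h3
  -- the set of generic points is cofinite
  set S : Set l := {x | ∃ b ∈ k, (es b ≠ 0 ∧ Cor k l Θ s s' (es b) b (ψs b)) ∧
      (ez (μ b) ≠ 0 ∧ Cor k l Θ z z' (ez (μ b)) (μ b) (ψz (μ b))) ∧ ψs b = x ∧
      ∃ (h : ψs b ∈ l) (h' : ψz (μ b) ∈ l), P.eval ⟨ψs b, h⟩ =
        ⟨ψz (μ b), h'⟩ * Q.eval ⟨ψs b, h⟩ ∧ Q.eval ⟨ψs b, h⟩ ≠ 0} with hSd
  have hSfin : Sᶜ.Finite := by
    have f1 := ae_iff.1 ps.surj
    have f2 := ae_iff.1 key
    refine Set.Finite.of_finite_image (f := (Subtype.val : l → L))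
      ((f1.union (f2.image ψs)).subset ?_) Subtype.val_injective.injOn
    rintro _ ⟨x, hx, rfl⟩
    by_contra hcon
    rw [Set.mem_union, not_or] at hcon
    obtain ⟨n1, n2⟩ := hcon
    have n3 : ∃ b ∈ k, ψs b = x ∧ es b ≠ 0 ∧ Cor k l Θ s s' (es b) b (ψs b) := by
      by_contra h
      exact n1 ⟨x.2, h⟩
    obtain ⟨b, hb, hbx, -, -⟩ := n3
    have n4 : b ∈ k ∧ (es b ≠ 0 ∧ Cor k l Θ s s' (es b) b (ψs b)) ∧
      (ez (μ b) ≠ 0 ∧ Cor k l Θ z z' (ez (μ b)) (μ b) (ψz (μ b))) ∧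
      ∃ (h : ψs b ∈ l) (h' : ψz (μ b) ∈ l), P.eval ⟨ψs b, h⟩ =
        ⟨ψz (μ b), h'⟩ * Q.eval ⟨ψs b, h⟩ ∧ Q.eval ⟨ψs b, h⟩ ≠ 0 ∧
        (es b)⁻¹ = (ez (μ b))⁻¹ *
          ((relbF P Q (ψz (μ b))).rootMultiplicity ⟨ψs b, h⟩ : ZMod ℓ) := by
      by_contra h
      exact n2 ⟨b, ⟨hb, h⟩, hbx⟩
    obtain ⟨-, m1, m2, h, h', m3, m4, -⟩ := n4
    exact hx ⟨b, hb, m1, m2, hbx, h, h', m3, m4⟩
  have hinj : ∀ x ∈ S, ∀ y ∈ S, P.eval x * Q.eval y = P.eval y * Q.eval x → x = y := by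
    rintro x ⟨b, hb, u1, u2, hbx, h, h', u3, u4⟩ y ⟨b', hb', v1, v2, hby, i, i', v3, v4⟩ hxy
    have hx : x = ⟨ψs b, h⟩ := Subtype.ext hbx.symm
    have hy : y = ⟨ψs b', i⟩ := Subtype.ext hby.symm
    rw [hx, hy, u3, v3] at hxy
    have w1 : (⟨ψz (μ b), h'⟩ : l) = ⟨ψz (μ b'), i'⟩ := by
      have w2 : (⟨ψz (μ b), h'⟩ : l) * (Q.eval ⟨ψs b, h⟩ * Q.eval ⟨ψs b', i⟩) =
          ⟨ψz (μ b'), i'⟩ * (Q.eval ⟨ψs b, h⟩ * Q.eval ⟨ψs b', i⟩) := by
        linear_combination hxy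
      exact mul_right_cancel₀ (mul_ne_zero u4 v4) w2
    have w3 : ψz (μ b) = ψz (μ b') := congrArg Subtype.val w1
    have w4 : μ b = μ b' := by
      refine Cor.inj hk hl hz u2.1 v2.1 (hμ b hb) (hμ b' hb') h' u2.2 ?_
      rw [w3]
      exact v2.2
    rw [hx, hy]
    rw [Subtype.mk.injEq, hμi b hb b' hb' w4]
  haveI : IsAlgClosed l := hl
  have hq : ringExpChar l = ringExpChar L := ringExpChar.eq l (ringExpChar L)
  obtain ⟨j, A, B, C', D, hdet, hP, hQ⟩ := mob_of_inj P Q hcop S hSfin hinj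
  have eP : ∀ x : L, ∀ hx : x ∈ l, ((P.eval ⟨x, hx⟩ : l) : L) =
      A * x ^ (ringExpChar L) ^ j + B := by
    intro x hx
    rw [hP, hq]
    simp
  have eQ : ∀ x : L, ∀ hx : x ∈ l, ((Q.eval ⟨x, hx⟩ : l) : L) =
      C' * x ^ (ringExpChar L) ^ j + D := by
    intro x hx
    rw [hQ, hq]
    simp
  have aP : aeval s' P = A * s' ^ (ringExpChar L) ^ j + B := by
    rw [hP, hq, map_add, map_mul, aeval_C, aeval_C, map_pow, aeval_X]
    rfl
  have aQ : aeval s' Q = C' * s' ^ (ringExpChar L) ^ j + D := by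
    rw [hQ, hq, map_add, map_mul, aeval_C, aeval_C, map_pow, aeval_X]
    rfl
  refine ⟨j, A, A.2, B, B.2, C', C'.2, D, D.2, ?_, ?_, ?_⟩
  · intro h
    apply hdet
    apply Subtype.ext
    exact h
  · filter_upwards [key] with b hb
    obtain ⟨-, hes, hez, h, h', m3, -, m5⟩ := hb
    constructor
    · have m6 := congrArg (Subtype.val : l → L) m3
      rw [eP] at m6
      rw [m6]
      change _ = (ψz (μ b)) * ((Q.eval ⟨ψs b, h⟩ : l) : L)
      rw [eQ]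
    · have hF : relbF P Q (ψz (μ b)) = Polynomial.C (A - ⟨ψz (μ b), h'⟩ * C') *
          X ^ (ringExpChar l) ^ j + Polynomial.C (B - ⟨ψz (μ b), h'⟩ * D) := by
        rw [relbF_of_mem P Q h', hP, hQ]
        simp only [map_sub, map_mul]
        ring
      have hF0 := relbF_ne hl hs'l hz'l hWz hQ0 hR hWR h'
      have hFe : (relbF P Q (ψz (μ b))).eval ⟨ψs b, h⟩ = 0 := by
        rw [relbF_of_mem P Q h', eval_sub, eval_mul, eval_C, sub_eq_zero]
        exact m3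
      have ha : A - ⟨ψz (μ b), h'⟩ * C' ≠ 0 := by
        intro ha
        rw [hF, ha, map_zero, zero_mul, zero_add] at hFe hF0
        rw [eval_C] at hFe
        rw [hFe, map_zero] at hF0
        exact hF0 rfl
      rw [hF] at hFe
      have hm := relb_mult ha hFe
      rw [hF, hm, hq] at m5
      have n1 := hes.1
      have n2 := hez.1
      field_simp at m5
      rw [m5]
      ring
  · have hQs : aeval s' Q ≠ 0 := line_aeval_ne hl hs'l hQ0
    have h1 : z' * (C' * s' ^ (ringExpChar L) ^ j + D) -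
        (A * s' ^ (ringExpChar L) ^ j + B) = aeval s' Q * (z' - R) := by
      rw [← aP, ← aQ, hR]
      field_simp
    rw [h1, map_mul, hWs.eq_one (relb_aeval_mem s' Q) hQs, one_mul]
    exact hWR

/-- the relation on one fibre. -/
theorem Hyp.relb_at (H : Hyp ℓ k l Θ) {s z : K} {s' z' : L} (hs : Rt k l Θ s s')
    (hz : Rt k l Θ z z') {ψs ψz : K → L} {es ez : K → ZMod ℓ} (ps : Psi k l Θ s s' ψs es)
    (pz : Psi k l Θ z z' ψz ez) {μ : K → K} (hμ : ∀ b ∈ k, μ b ∈ k)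
    (hμi : ∀ b ∈ k, ∀ b' ∈ k, μ b = μ b' → b = b') {G' : Subfield L} (hlG : l ≤ G')
    (hfg : FG l G') (hss : ¬ IsAlgebraic G' s') {W : ValuationSubring L} {π θ : L}
    (hW : Nice W (adj G' s') π θ) (hWz : TrivOn W (adj l z'))
    (hV : VS ℓ (adj l z') ≤ VS ℓ (adj l s') ⊔ U1 ℓ W)
    (hU : ∀ b ∈ k, Θ (cl ℓ (s - b)) - Θ (cl ℓ (z - μ b)) ∈ U1 ℓ W) :
    ∃ i j : ℕ, ∃ A ∈ l, ∃ B ∈ l, ∃ C ∈ l, ∃ D ∈ l, A * D - B * C ≠ 0 ∧
      (∀ᶠ b in ae k, ψz (μ b) ^ (ringExpChar L) ^ i * (C * ψs b ^ (ringExpChar L) ^ j + D) =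
          A * ψs b ^ (ringExpChar L) ^ j + B ∧
        (((ringExpChar L) ^ i : ℕ) : ZMod ℓ) * ez (μ b) =
          (((ringExpChar L) ^ j : ℕ) : ZMod ℓ) * es b) ∧
      W.valuation (z' ^ (ringExpChar L) ^ i * (C * s' ^ (ringExpChar L) ^ j + D) -
        (A * s' ^ (ringExpChar L) ^ j + B)) < 1 := by
  have hk := H.ack
  have hl := H.acl
  have hs'l : s' ∉ l := hs.good'.1
  have hWs : TrivOn W (adj l s') := hW.triv.mono (adj_mono hlG s')
  obtain ⟨R, hRmem, hWR⟩ := core hl hlG hfg hss hW (le_adj l z') hWz hV z' (mem_adj l z')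
  obtain ⟨n, y, P, Q, hy, hcop, hQ0, hR⟩ := relb_coprime hl hs'l hRmem
  have hfin : ((U1 ℓ W ⊓ VS ℓ (adj l s') : Submodule (ZMod ℓ) (V ℓ L)) : Set (V ℓ L)).Finite :=
    hW.finite hl (hlG.trans (le_adj G' s')) (hfg.adj s') (le_adj l s') hWs
  have hadj : adj l s' = adj l y := by rw [← hy, adj_pow]
  rw [hadj] at hWs hfin
  obtain ⟨ψ', hψ', ps'⟩ := ps.root hk hl hs hy
  obtain ⟨j, A, hA, B, hB, C', hC, D, hD, hdet, hgen, hval⟩ := H.relb_at0 (hs.root hl hy) hz ps'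
    pz hμ hμi hWs hWz hfin hWR hcop hQ0 hR hU
  have hq := q_pow_ne_zero ℓ L n
  have hcomm : ∀ x : L, (x ^ (ringExpChar L) ^ j) ^ (ringExpChar L) ^ n =
      (x ^ (ringExpChar L) ^ n) ^ (ringExpChar L) ^ j := by
    intro x
    rw [← pow_mul, ← pow_mul, mul_comm]
  refine ⟨n, j, A ^ (ringExpChar L) ^ n, l.pow_mem hA _, B ^ (ringExpChar L) ^ n,
    l.pow_mem hB _, C' ^ (ringExpChar L) ^ n, l.pow_mem hC _, D ^ (ringExpChar L) ^ n,
    l.pow_mem hD _, ?_, ?_, ?_⟩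
  · rw [← mul_pow, ← mul_pow, ← sub_pow_q]
    exact pow_ne_zero _ hdet
  · filter_upwards [hgen] with b hb
    obtain ⟨h1, h2⟩ := hb
    constructor
    · have h3 := congrArg (fun x => x ^ (ringExpChar L) ^ n) h1
      simp only [mul_pow, add_pow_q, hcomm, hψ'] at h3
      exact h3
    · rw [h2]
      field_simp
  · have h3 : z' ^ (ringExpChar L) ^ n *
        (C' ^ (ringExpChar L) ^ n * s' ^ (ringExpChar L) ^ j + D ^ (ringExpChar L) ^ n) -
        (A ^ (ringExpChar L) ^ n * s' ^ (ringExpChar L) ^ j + B ^ (ringExpChar L) ^ n) =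
        (z' * (C' * y ^ (ringExpChar L) ^ j + D) -
          (A * y ^ (ringExpChar L) ^ j + B)) ^ (ringExpChar L) ^ n := by
      simp only [sub_pow_q, mul_pow, add_pow_q, hcomm, hy]
    rw [h3, map_pow]
    exact pow_lt_one₀ zero_le hval (pow_pos (expChar_pos L _) n).ne'

/-- the Moebius relation on the fibres. -/
theorem Hyp.rel (H : Hyp ℓ k l Θ) {t s z : K} {t' s' z' : L}
    (hts : ¬ IsAlgebraic (adj k s) t) (ht : Rt k l Θ t t') (hs : Rt k l Θ s s')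
    (hz : Rt k l Θ z z') {m : K → K → K} (hm : Shift ℓ k t s z m) {ψt ψs ψz : K → L}
    {et es ez : K → ZMod ℓ} (pt : Psi k l Θ t t' ψt et) (ps : Psi k l Θ s s' ψs es)
    (pz : Psi k l Θ z z' ψz ez) :
    ∃ G' : Subfield L, Frame l G' t' s' ∧ ∀ᶠ a in ae k,
      ∃ i j : ℕ, ∃ A ∈ l, ∃ B ∈ l, ∃ C ∈ l, ∃ D ∈ l, A * D - B * C ≠ 0 ∧
        (∀ᶠ b in ae k,
          ψz (m a b) ^ (ringExpChar L) ^ i * (C * ψs b ^ (ringExpChar L) ^ j + D) =
            A * ψs b ^ (ringExpChar L) ^ j + B ∧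
          (((ringExpChar L) ^ i : ℕ) : ZMod ℓ) * ez (m a b) =
            (((ringExpChar L) ^ j : ℕ) : ZMod ℓ) * es b) ∧
        ∃ W : ValuationSubring L, Over W (adj G' s') t' (ψt a) ∧
          W.valuation (z' ^ (ringExpChar L) ^ i * (C * s' ^ (ringExpChar L) ^ j + D) -
            (A * s' ^ (ringExpChar L) ^ j + B)) < 1 := by
  have hk := H.ack
  have hl := H.acl
  have hRl : RAC l := RAC_of_isAlgClosed l hl
  have hs'l : s' ∉ l := hs.good'.1
  have ht'l : t' ∉ l := ht.good'.1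
  -- `t'` and `s'` are independent
  have ht's' : ¬ IsAlgebraic (adj l s') t' := by
    intro h
    have h1 : t' ∈ adj l s' := hs.good'.2 t' h
    have h2 : adj l t' = adj l s' :=
      Crv.eq hRl (Crv.of_good ht.good') (Crv.of_good hs.good') (mem_adj l t') h1 ht'l
    exact H.crv_ne hs.good.1 hts ht.map hs.map h2
  obtain ⟨G', hfr⟩ := exists_frame H.fgl (fun h => hs'l (hRl _ h)) ht's'
  refine ⟨G', hfr, ?_⟩
  obtain ⟨θ, hθ⟩ := hfr.nice H.fgl
  have hlF : l ≤ adj G' s' := hfr.le.trans (le_adj G' s')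
  have hθ' := (ae_mono hlF) hθ
  filter_upwards [ae_mem k, pt.cor, Psi.relb_pull hk hl ht pt hθ', hm.ev] with a ha hcor hnice hev
  obtain ⟨hα, he, hc⟩ := hcor
  obtain ⟨hinj, hsurj, hO⟩ := hev
  obtain ⟨W, hWo⟩ := exists_over hfr.tt (hlF hα)
  have hW : Nice W (adj G' s') (t' - ψt a) θ := hnice W hWo
  have hfgF : FG l (adj G' s') := hfr.fg.adj s'
  have hWs : TrivOn W (adj l s') := hW.triv.mono (adj_mono hfr.le s')
  have hWl : TrivOn W l := hW.triv.mono hlF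
  obtain ⟨O, hOk, hT⟩ := H.symm.exists_tr hlF hfgF hW hs.good' hWs
  have hys : ∀ v ∈ VS ℓ (adj l s'), Θ.symm v ∈ VS ℓ (adj k s) := by
    intro v hv
    refine (hs.map _).1 ?_
    rwa [LinearEquiv.apply_symm_apply]
  have hOs : TrivOn O (adj k s) :=
    H.symm.triv_crv hlF hfgF hW hOk hT hs'l hWs (Crv.of_good hs.good) hys
  have hcen : O.valuation (t - a) < 1 := H.centre ht ha hα he hc hWl hW.unif hOk hT
  have hU := hO O hOs hcen
  have hUL : ∀ b ∈ k, Θ (cl ℓ (s - b)) - Θ (cl ℓ (z - m a b)) ∈ U1 ℓ W := by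
    intro b hb
    rw [← map_sub]
    refine (hT.iff _).1 ?_
    rw [LinearEquiv.symm_apply_apply]
    exact hU b hb
  have hV1 : VS ℓ (adj k s) ≤ VS ℓ (adj k z) ⊔ U1 ℓ O :=
    VS_le_of_shift hk hs.good.1 (m a) (fun b hb => hm.mem a ha b hb) hU
  have hV2 : VS ℓ (adj k z) ≤ VS ℓ (adj k s) ⊔ U1 ℓ O := by
    have h1 : ∀ c : K, ∃ b : K, c ∈ k → b ∈ k ∧ m a b = c := by
      intro c
      by_cases hc : c ∈ k
      · obtain ⟨b, hb, h⟩ := hsurj c hc
        exact ⟨b, fun _ => ⟨hb, h⟩⟩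
      · exact ⟨0, fun h => absurd h hc⟩
    choose m' hm' using h1
    refine VS_le_of_shift hk hz.good.1 m' (fun c hc => (hm' c hc).1) ?_
    intro c hc
    have h2 := hU (m' c) (hm' c hc).1
    rw [(hm' c hc).2] at h2
    rw [← neg_mem_iff, neg_sub]
    exact h2
  obtain ⟨hWz, hV⟩ := H.symm.rat_of hfr.le hfr.fg hW hT hs.good.1 hV2 hV1
    (fun v hv => (hs.map v).2 hv) (Crv.of_good hz.good') hz.map
  obtain ⟨i, j, A, hA, B, hB, C', hC, D, hD, hdet, hgen, hval⟩ := H.relb_at hs hz ps pz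
    (μ := m a) (fun b hb => hm.mem a ha b hb) hinj hfr.le hfr.fg hfr.ss hW hWz hV hUL
  exact ⟨i, j, A, hA, B, hB, C', hC, D, hD, hdet, hgen, W, hWo, hval⟩

end Vale.Agent.P019P.N019
end

section

/-!
# The coordinate of the sum is a rational function
-/

namespace Vale.Agent.P019P.N019

open Vale.Agent.P019

open Polynomial Filter

variable {K L : Type*} [Field K] [Field L] [PerfectField K] [PerfectField L] {ℓ : ℕ}
  [Fact ℓ.Prime] [NeZero (ℓ : K)] [NeZero (ℓ : L)]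
  {k : Subfield K} {l : Subfield L} {Θ : V ℓ K ≃ₗ[ZMod ℓ] V ℓ L}

/-- the Moebius relation on all fibres (compare `Hyp.rel`). -/
theorem Hyp.rel_all (H : Hyp ℓ k l Θ) {t s z : K} {t' s' z' : L}
    (hts : ¬ IsAlgebraic (adj k s) t) (ht : Rt k l Θ t t') (hs : Rt k l Θ s s')
    (hz : Rt k l Θ z z') {m : K → K → K} (hm : Shift ℓ k t s z m) {ψt ψs ψz : K → L}
    {et es ez : K → ZMod ℓ} (pt : Psi k l Θ t t' ψt et) (ps : Psi k l Θ s s' ψs es)
    (pz : Psi k l Θ z z' ψz ez) :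
    ∃ G' : Subfield L, Frame l G' t' s' ∧ ∀ᶠ a in ae k, ψt a ∈ l ∧
      ∀ W : ValuationSubring L, Over W (adj G' s') t' (ψt a) →
      ∃ i j : ℕ, ∃ A ∈ l, ∃ B ∈ l, ∃ C ∈ l, ∃ D ∈ l, A * D - B * C ≠ 0 ∧
        (∀ᶠ b in ae k,
          ψz (m a b) ^ (ringExpChar L) ^ i * (C * ψs b ^ (ringExpChar L) ^ j + D) =
            A * ψs b ^ (ringExpChar L) ^ j + B) ∧
          W.valuation (z' ^ (ringExpChar L) ^ i * (C * s' ^ (ringExpChar L) ^ j + D) -
            (A * s' ^ (ringExpChar L) ^ j + B)) < 1 := by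
  have hk := H.ack
  have hl := H.acl
  have hRl : RAC l := RAC_of_isAlgClosed l hl
  have hs'l : s' ∉ l := hs.good'.1
  have ht'l : t' ∉ l := ht.good'.1
  -- `t'` and `s'` are independent
  have ht's' : ¬ IsAlgebraic (adj l s') t' := by
    intro h
    have h1 : t' ∈ adj l s' := hs.good'.2 t' h
    have h2 : adj l t' = adj l s' :=
      Crv.eq hRl (Crv.of_good ht.good') (Crv.of_good hs.good') (mem_adj l t') h1 ht'l
    exact H.crv_ne hs.good.1 hts ht.map hs.map h2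
  obtain ⟨G', hfr⟩ := exists_frame H.fgl (fun h => hs'l (hRl _ h)) ht's'
  refine ⟨G', hfr, ?_⟩
  obtain ⟨θ, hθ⟩ := hfr.nice H.fgl
  have hlF : l ≤ adj G' s' := hfr.le.trans (le_adj G' s')
  have hθ' := (ae_mono hlF) hθ
  filter_upwards [ae_mem k, pt.cor, Psi.relb_pull hk hl ht pt hθ', hm.ev] with a ha hcor hnice hev
  obtain ⟨hα, he, hc⟩ := hcor
  obtain ⟨hinj, hsurj, hO⟩ := hev
  refine ⟨hα, fun W hWo => ?_⟩
  have hW : Nice W (adj G' s') (t' - ψt a) θ := hnice W hWo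
  have hfgF : FG l (adj G' s') := hfr.fg.adj s'
  have hWs : TrivOn W (adj l s') := hW.triv.mono (adj_mono hfr.le s')
  have hWl : TrivOn W l := hW.triv.mono hlF
  obtain ⟨O, hOk, hT⟩ := H.symm.exists_tr hlF hfgF hW hs.good' hWs
  have hys : ∀ v ∈ VS ℓ (adj l s'), Θ.symm v ∈ VS ℓ (adj k s) := by
    intro v hv
    refine (hs.map _).1 ?_
    rwa [LinearEquiv.apply_symm_apply]
  have hOs : TrivOn O (adj k s) :=
    H.symm.triv_crv hlF hfgF hW hOk hT hs'l hWs (Crv.of_good hs.good) hys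
  have hcen : O.valuation (t - a) < 1 := H.centre ht ha hα he hc hWl hW.unif hOk hT
  have hU := hO O hOs hcen
  have hUL : ∀ b ∈ k, Θ (cl ℓ (s - b)) - Θ (cl ℓ (z - m a b)) ∈ U1 ℓ W := by
    intro b hb
    rw [← map_sub]
    refine (hT.iff _).1 ?_
    rw [LinearEquiv.symm_apply_apply]
    exact hU b hb
  have hV1 : VS ℓ (adj k s) ≤ VS ℓ (adj k z) ⊔ U1 ℓ O :=
    VS_le_of_shift hk hs.good.1 (m a) (fun b hb => hm.mem a ha b hb) hU
  have hV2 : VS ℓ (adj k z) ≤ VS ℓ (adj k s) ⊔ U1 ℓ O := by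
    have h1 : ∀ c : K, ∃ b : K, c ∈ k → b ∈ k ∧ m a b = c := by
      intro c
      by_cases hc : c ∈ k
      · obtain ⟨b, hb, h⟩ := hsurj c hc
        exact ⟨b, fun _ => ⟨hb, h⟩⟩
      · exact ⟨0, fun h => absurd h hc⟩
    choose m' hm' using h1
    refine VS_le_of_shift hk hz.good.1 m' (fun c hc => (hm' c hc).1) ?_
    intro c hc
    have h2 := hU (m' c) (hm' c hc).1
    rw [(hm' c hc).2] at h2
    rw [← neg_mem_iff, neg_sub]
    exact h2
  obtain ⟨hWz, hV⟩ := H.symm.rat_of hfr.le hfr.fg hW hT hs.good.1 hV2 hV1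
    (fun v hv => (hs.map v).2 hv) (Crv.of_good hz.good') hz.map
  obtain ⟨i, j, A, hA, B, hB, C', hC, D, hD, hdet, hgen, hval⟩ := H.relb_at hs hz ps pz
    (μ := m a) (fun b hb => hm.mem a ha b hb) hinj hfr.le hfr.fg hfr.ss hW hWz hV hUL
  exact ⟨i, j, A, hA, B, hB, C', hC, D, hD, hdet, hgen.mono fun b hb => hb.1, hval⟩

/-- the value of the coordinate at a generic fibre. -/
theorem Hyp.relca_val (H : Hyp ℓ k l Θ) {s : K} {s' z' : L} (hs : Rt k l Θ s s')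
    {ψs : K → L} {es : K → ZMod ℓ} (ps : Psi k l Θ s s' ψs es) {f : K → L}
    {G' : Subfield L} (hlG : l ≤ G') {t' α : L} (hα : α ∈ l)
    (htt : ¬ IsAlgebraic (adj G' s') t')
    (hall : ∀ W : ValuationSubring L, Over W (adj G' s') t' α →
      ∃ i j : ℕ, ∃ A ∈ l, ∃ B ∈ l, ∃ C ∈ l, ∃ D ∈ l, A * D - B * C ≠ 0 ∧
        (∀ᶠ b in ae k, f b ^ (ringExpChar L) ^ i * (C * ψs b ^ (ringExpChar L) ^ j + D) =
            A * ψs b ^ (ringExpChar L) ^ j + B) ∧
          W.valuation (z' ^ (ringExpChar L) ^ i * (C * s' ^ (ringExpChar L) ^ j + D) -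
            (A * s' ^ (ringExpChar L) ^ j + B)) < 1) :
    ∃ c ∈ adj l s', ∀ W : ValuationSubring L, Over W (adj G' s') t' α →
      W.valuation (z' - c) < 1 := by
  have hk := H.ack
  have hl := H.acl
  have hs'l : s' ∉ l := hs.good'.1
  have hlF : l ≤ adj G' s' := hlG.trans (le_adj G' s')
  obtain ⟨W₀, hW₀⟩ := exists_over htt (hlF hα)
  obtain ⟨i, j, A, hA, B, hB, C, hC, D, hD, hdet, hgen, -⟩ := hall W₀ hW₀
  have hne := relca_den_ne hl hs'l hC hD hdet j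
  have hmem : (A * s' ^ (ringExpChar L) ^ j + B) / (C * s' ^ (ringExpChar L) ^ j + D) ∈
      adj l s' := by
    have h1 : s' ^ (ringExpChar L) ^ j ∈ adj l s' := (adj l s').pow_mem (mem_adj l s') _
    exact (adj l s').div_mem
      ((adj l s').add_mem ((adj l s').mul_mem (le_adj l s' hA) h1) (le_adj l s' hB))
      ((adj l s').add_mem ((adj l s').mul_mem (le_adj l s' hC) h1) (le_adj l s' hD))
  obtain ⟨c, hc, hci⟩ := exists_root_q (adj l s') hmem i
  have hc' : c ^ (ringExpChar L) ^ i * (C * s' ^ (ringExpChar L) ^ j + D) =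
      A * s' ^ (ringExpChar L) ^ j + B := by
    rw [hci, div_mul_cancel₀ _ hne]
  refine ⟨c, hc, fun W hW => ?_⟩
  obtain ⟨i', j', A', hA', B', hB', C', hC', D', hD', hdet', hgen', hval⟩ := hall W hW
  have hinf := relca_inf (P := fun x => (A * x ^ (ringExpChar L) ^ j + B) ^ (ringExpChar L) ^ i' *
        (C' * x ^ (ringExpChar L) ^ j' + D') ^ (ringExpChar L) ^ i =
      (A' * x ^ (ringExpChar L) ^ j' + B') ^ (ringExpChar L) ^ i *
        (C * x ^ (ringExpChar L) ^ j + D) ^ (ringExpChar L) ^ i') hk hl hs ps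
    (by
      filter_upwards [hgen, hgen'] with b h1 h2
      exact relca_cmp h1 h2)
  have h3 := relca_same hl hs'l hC hD hdet hc'
    (relca_ident hinf s')
  have hne' := relca_den_ne hl hs'l hC' hD' hdet' j'
  have hden : C' * s' ^ (ringExpChar L) ^ j' + D' ∈ adj G' s' :=
    (adj G' s').add_mem ((adj G' s').mul_mem (hlF hC')
      ((adj G' s').pow_mem (mem_adj G' s') _)) (hlF hD')
  have h4 : z' ^ (ringExpChar L) ^ i' * (C' * s' ^ (ringExpChar L) ^ j' + D') -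
      (A' * s' ^ (ringExpChar L) ^ j' + B') =
      (z' - c) ^ (ringExpChar L) ^ i' * (C' * s' ^ (ringExpChar L) ^ j' + D') := by
    rw [← h3, sub_pow_q]
    ring
  rw [h4, map_mul, hW.triv.eq_one hden hne', mul_one, map_pow] at hval
  by_contra hcon
  exact absurd hval (not_lt.2 (one_le_pow₀ (not_lt.1 hcon)))

/-- the coordinate of the sum is rational. -/
theorem Hyp.z_mem (H : Hyp ℓ k l Θ) {t s z : K} {t' s' z' : L}
    (hts : ¬ IsAlgebraic (adj k s) t) (ht : Rt k l Θ t t') (hs : Rt k l Θ s s')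
    (hz : Rt k l Θ z z') {m : K → K → K} (hm : Shift ℓ k t s z m) :
    z' ∈ adj (adj l s') t' := by
  have hk := H.ack
  have hl := H.acl
  obtain ⟨ψt, et, pt⟩ := H.exists_psi ht
  obtain ⟨ψs, es, ps⟩ := H.exists_psi hs
  obtain ⟨ψz, ez, pz⟩ := H.exists_psi hz
  obtain ⟨G', hfr, hev⟩ := H.rel_all hts ht hs hz hm pt ps pz
  have hinf := relca_inf (P := fun β => ∃ c ∈ adj l s', ∀ W : ValuationSubring L,
    Over W (adj G' s') t' β → W.valuation (z' - c) < 1) hk hl ht pt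
    (by
      filter_upwards [hev] with a ha
      exact H.relca_val hs ps hfr.le ha.1 hfr.tt ha.2)
  haveI := hfr.perfect
  have hle : adj l s' ≤ adj G' s' := adj_mono hfr.le s'
  have h1 : z' ∈ adj (adj G' s') t' := by
    refine lemZ hfr.tt (hfr.alg z') (hinf.mono ?_)
    rintro β ⟨hβ, c, hc, hW⟩
    exact ⟨hle (le_adj l s' hβ), c, hle hc, hW⟩
  refine rat_descent hle hfr.tt h1 (hinf.mono ?_)
  rintro β ⟨hβ, c, hc, hW⟩
  exact ⟨le_adj l s' hβ, c, hc, hW⟩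

end Vale.Agent.P019P.N019
end

section

/-!
# The bilinear form, preparations
-/

namespace Vale.Agent.P019P.N019

open Vale.Agent.P019

open Polynomial Filter

section hyp

variable {K L : Type*} [Field K] [Field L] [PerfectField K] [PerfectField L] {ℓ : ℕ}
  [Fact ℓ.Prime] [NeZero (ℓ : K)] [NeZero (ℓ : L)]
  {k : Subfield K} {l : Subfield L} {Θ : V ℓ K ≃ₗ[ZMod ℓ] V ℓ L}

/-- the relation on the fibres of `t`, in terms of polynomials. -/
theorem Hyp.bl_fibre (H : Hyp ℓ k l Θ) {t s z : K} {t' s' z' : L}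
    (hts : ¬ IsAlgebraic (adj k s) t) (ht : Rt k l Θ t t') (hs : Rt k l Θ s s')
    (hz : Rt k l Θ z z') {m : K → K → K} (hm : Shift ℓ k t s z m) {ψt ψs ψz : K → L}
    {et es ez : K → ZMod ℓ} (pt : Psi k l Θ t t' ψt et) (ps : Psi k l Θ s s' ψs es)
    (pz : Psi k l Θ z z' ψz ez) :
    ∀ᶠ a in ae k, ψt a ∈ l ∧ ∃ (i j : ℕ) (A B C' D : l), A * D - B * C' ≠ 0 ∧
      (∀ᶠ b in ae k, ψz (m a b) ^ (ringExpChar L) ^ i * (C' * ψs b ^ (ringExpChar L) ^ j + D) =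
            A * ψs b ^ (ringExpChar L) ^ j + B) ∧
      ∀ (n : ℕ) (Ps Qs : L) (P₁ Q₁ : l[X]),
        (∀ W : ValuationSubring L, TrivOn W l → s' ∈ W → t' ∈ W → W.valuation (t' - ψt a) < 1 →
          blR W Ps (aeval s' P₁) ∧ blR W Qs (aeval s' Q₁)) →
        z' ^ (ringExpChar L) ^ n * Qs = Ps →
        P₁ ^ (ringExpChar l) ^ i *
            (C C' * X ^ (ringExpChar l) ^ j + C D) ^ (ringExpChar l) ^ n =
          Q₁ ^ (ringExpChar l) ^ i *
            (C A * X ^ (ringExpChar l) ^ j + C B) ^ (ringExpChar l) ^ n := by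
  have hl := H.acl
  obtain ⟨G', hfr, h⟩ := H.rel_all hts ht hs hz hm pt ps pz
  filter_upwards [h] with a ha
  obtain ⟨hα, hW⟩ := ha
  refine ⟨hα, ?_⟩
  have hlF : l ≤ adj G' s' := hfr.le.trans (le_adj G' s')
  obtain ⟨W, hWo⟩ := exists_over hfr.tt (hlF hα)
  obtain ⟨i, j, A, hA, B, hB, C', hC, D, hD, hdet, hgen, hval⟩ := hW W hWo
  refine ⟨i, j, ⟨A, hA⟩, ⟨B, hB⟩, ⟨C', hC⟩, ⟨D, hD⟩, ?_, hgen, ?_⟩
  · intro h0
    exact hdet (congrArg Subtype.val h0)
  · intro n Ps Qs P₁ Q₁ hPQ hzz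
    have hWl : TrivOn W l := hWo.triv.mono hlF
    have hsW : s' ∈ W := hWo.triv _ (mem_adj G' s')
    have htW : t' ∈ W := hWo.mem (hlF hα)
    obtain ⟨h1, h2⟩ := hPQ W hWl hsW htW hWo.lt
    have hmem : ∀ P : l[X], aeval s' P ∈ adj G' s' := fun P =>
      adj_mono hfr.le s' (relb_aeval_mem s' P)
    have hsp : ∀ e : ℕ, s' ^ e ∈ adj G' s' := fun e => pow_mem (mem_adj G' s') e
    have h3 := bl_spec (n := n) (i := i) hWo.triv (hmem P₁) (hmem Q₁)
      (add_mem (mul_mem (hlF hC) (hsp _)) (hlF hD)) (add_mem (mul_mem (hlF hA) (hsp _)) (hlF hB))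
      h1 h2 hval hzz
    apply line_transc hl hs.good'.1
    rw [bl_q l]
    simp only [map_mul, map_pow, map_add, aeval_C, aeval_X]
    exact h3

end hyp

end Vale.Agent.P019P.N019
end

section

/-!
# The bilinear form, the two steps
-/

namespace Vale.Agent.P019P.N019

open Vale.Agent.P019

open Polynomial Filter

variable {K L : Type*} [Field K] [Field L] [PerfectField K] [PerfectField L] {ℓ : ℕ}
  [Fact ℓ.Prime] [NeZero (ℓ : K)] [NeZero (ℓ : L)]
  {k : Subfield K} {l : Subfield L} {Θ : V ℓ K ≃ₗ[ZMod ℓ] V ℓ L}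

/-- first step: linear in `t' ^ q^r`. -/
theorem Hyp.bl_step1 (H : Hyp ℓ k l Θ) {t s : K} {t' s' z' : L}
    (hst : Ind k s t) (ht : Rt k l Θ t t') (hs : Rt k l Θ s s')
    (hz : Rt k l Θ (t + s) z') {ψt ψs ψz : K → L}
    {et es ez : K → ZMod ℓ} (pt : Psi k l Θ t t' ψt et) (ps : Psi k l Θ s s' ψs es)
    (pz : Psi k l Θ (t + s) z' ψz ez) :
    ∃ (n r : ℕ) (P₁ P₀ Q₁ Q₀ : l[X]), P₁ * Q₀ - P₀ * Q₁ ≠ 0 ∧
      z' ^ (ringExpChar L) ^ n * (aeval s' Q₁ * t' ^ (ringExpChar l) ^ r + aeval s' Q₀) =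
        aeval s' P₁ * t' ^ (ringExpChar l) ^ r + aeval s' P₀ := by
  have hk := H.ack
  have hl := H.acl
  have hts : ¬ IsAlgebraic (adj k s) t := hst.2
  have hts' : ¬ IsAlgebraic (adj k t) s := (hst.symm hk).2
  have hzm : z' ∈ adj (adj l s') t' := H.z_mem hts ht hs hz (shift_add hk hs.good.1 t)
  obtain ⟨n, P, Q, U, V, D, hD, hUV, hPQ⟩ := bl_rep hl hs.good'.1 hzm
  have hfib := H.bl_fibre hts' hs ht hz (bl_shift hk ht.good.1 s) ps pt pz
  have hPQ0 : P ≠ 0 ∨ Q ≠ 0 := by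
    by_contra hcon
    rw [not_or, not_not, not_not] at hcon
    rw [hcon.1, hcon.2, mul_zero, mul_zero, add_zero] at hUV
    exact hD (C_eq_zero.1 hUV.symm)
  obtain ⟨r, hr1, hr2⟩ := bl_core hk hl hs ps (by
    filter_upwards [hfib] with b hb
    obtain ⟨hβ, i, j, A, B, C', D', hdet, -, hid⟩ := hb
    exact ⟨hβ, i, j, A, B, C', D', hdet, hid⟩) hPQ0 (by
    filter_upwards [bl_ae_ne hk hl hs ps hD] with b hb hb' using bl_cop hUV (hb hb')) hPQ
  have hN0 : (ringExpChar l) ^ r ≠ 0 := (pow_pos (expChar_pos l _) r).ne'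
  have hP2 := bl_two hN0 fun e h0 hN => (hr1 e h0 hN).1
  have hQ2 := bl_two hN0 fun e h0 hN => (hr1 e h0 hN).2
  refine ⟨n, r, P.coeff ((ringExpChar l) ^ r), P.coeff 0, Q.coeff ((ringExpChar l) ^ r),
    Q.coeff 0, hr2, ?_⟩
  rw [hP2, hQ2] at hPQ
  simp only [map_add, map_mul, map_pow, blE_C, blE_X] at hPQ
  exact hPQ

/-- second step: the bilinear form. -/
theorem Hyp.bl_step2 (H : Hyp ℓ k l Θ) {t s : K} {t' s' z' : L}
    (hst : Ind k s t) (ht : Rt k l Θ t t') (hs : Rt k l Θ s s')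
    (hz : Rt k l Θ (t + s) z') {ψt ψs ψz : K → L}
    {et es ez : K → ZMod ℓ} (pt : Psi k l Θ t t' ψt et) (ps : Psi k l Θ s s' ψs es)
    (pz : Psi k l Θ (t + s) z' ψz ez) :
    ∃ (n r r' : ℕ) (p : Fin 4 → l[X]), p 0 * p 3 - p 1 * p 2 ≠ 0 ∧
      (∀ i, p i = C ((p i).coeff ((ringExpChar l) ^ r')) * X ^ (ringExpChar l) ^ r' +
        C ((p i).coeff 0)) ∧
      z' ^ (ringExpChar L) ^ n * (aeval s' (p 2) * t' ^ (ringExpChar l) ^ r + aeval s' (p 3)) =
        aeval s' (p 0) * t' ^ (ringExpChar l) ^ r + aeval s' (p 1) := by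
  have hk := H.ack
  have hl := H.acl
  haveI := hl
  obtain ⟨n, r, P₁, P₀, Q₁, Q₀, hdet, hrel⟩ := H.bl_step1 hst ht hs hz pt ps pz
  obtain ⟨g, p₁, p₀, q₁, q₀, u₁, u₀, v₁, v₀, hg0, hp₁, hp₀, hq₁, hq₀, hbez, hdet'⟩ :=
    bl_gcd4 hdet
  have hgs : aeval s' g ≠ 0 := line_aeval_ne hl hs.good'.1 hg0
  set N := (ringExpChar l) ^ r with hN
  have hN0 : N ≠ 0 := (pow_pos (expChar_pos l _) r).ne'
  have hrel' : z' ^ (ringExpChar L) ^ n * (aeval s' q₁ * t' ^ N + aeval s' q₀) =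
      aeval s' p₁ * t' ^ N + aeval s' p₀ := by
    apply mul_left_cancel₀ hgs
    rw [hp₁, hp₀, hq₁, hq₀] at hrel
    simp only [map_mul] at hrel
    linear_combination hrel
  -- the polynomials with the roles of the variables exchanged
  set P : l[X][X] := p₁.map C * C (X ^ N) + p₀.map C with hP
  set Q : l[X][X] := q₁.map C * C (X ^ N) + q₀.map C with hQ
  have hcoef : ∀ (p q : l[X]) (e : ℕ), (p.map C * C (X ^ N) + q.map C : l[X][X]).coeff e =
      C (p.coeff e) * X ^ N + C (q.coeff e) := by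
    intro p q e
    rw [coeff_add, coeff_mul_C, coeff_map, coeff_map]
  have hmap : ∀ (p q : l[X]) (α : l), (p.map C * C (X ^ N) + q.map C : l[X][X]).map
      (evalRingHom α) = C (α ^ N) * p + q := by
    intro p q α
    have hid : (evalRingHom α).comp (C : l →+* l[X]) = RingHom.id l := by
      ext x
      simp
    rw [Polynomial.map_add, Polynomial.map_mul, Polynomial.map_map, Polynomial.map_map, hid,
      Polynomial.map_id, Polynomial.map_id, map_C, coe_evalRingHom, eval_pow, eval_X, mul_comm]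
  have hblE : ∀ p q : l[X], blE l t' s' (p.map C * C (X ^ N) + q.map C) =
      aeval s' p * t' ^ N + aeval s' q := by
    intro p q
    rw [map_add, map_mul, blE_mapC, blE_mapC, blE_C, map_pow, aeval_X]
  have hPQ : z' ^ (ringExpChar L) ^ n * blE l t' s' Q = blE l t' s' P := by
    rw [hP, hQ, hblE, hblE]
    exact hrel'
  have hlin : ∀ a b : l, (C a * X ^ N + C b : l[X]) = 0 → a = 0 ∧ b = 0 := by
    intro a b h0
    have h1 : (C a * X ^ N + C b : l[X]).coeff N = 0 := by rw [h0]; simp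
    have h2 : (C a * X ^ N + C b : l[X]).coeff 0 = 0 := by rw [h0]; simp
    rw [bl_coeff, if_pos rfl, if_neg hN0, add_zero] at h1
    rw [bl_coeff, if_pos rfl, if_neg hN0.symm, zero_add] at h2
    exact ⟨h1, h2⟩
  have hPQ0 : P ≠ 0 ∨ Q ≠ 0 := by
    by_contra hcon
    rw [not_or, not_not, not_not] at hcon
    have key : ∀ (p q : l[X]), (p.map C * C (X ^ N) + q.map C : l[X][X]) = 0 → p = 0 ∧ q = 0 := by
      intro p q h0
      have h1 : ∀ e, p.coeff e = 0 ∧ q.coeff e = 0 := by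
        intro e
        apply hlin
        rw [← hcoef, h0, coeff_zero]
      exact ⟨Polynomial.ext fun e => by rw [(h1 e).1, coeff_zero],
        Polynomial.ext fun e => by rw [(h1 e).2, coeff_zero]⟩
    obtain ⟨e1, e2⟩ := key p₁ p₀ hcon.1
    obtain ⟨e3, e4⟩ := key q₁ q₀ hcon.2
    rw [e1, e2, e3, e4] at hbez
    simp at hbez
  obtain ⟨F, hF0, hF⟩ := bl_cop_ae hbez hdet' hN0
  have hfib := H.bl_fibre hst.2 ht hs hz (shift_add hk hs.good.1 t) pt ps pz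
  obtain ⟨r', hr1, -⟩ := bl_core hk hl ht pt (by
    filter_upwards [hfib] with b hb
    obtain ⟨hβ, i, j, A, B, C', D', hdet, -, hid⟩ := hb
    exact ⟨hβ, i, j, A, B, C', D', hdet, hid⟩) hPQ0 (by
    filter_upwards [bl_ae_ne hk hl ht pt hF0] with a ha ha'
    rw [hP, hQ, hmap, hmap]
    exact hF _ (ha ha')) hPQ
  have hM0 : (ringExpChar l) ^ r' ≠ 0 := (pow_pos (expChar_pos l _) r').ne'
  have h4 : ∀ e, e ≠ 0 → e ≠ (ringExpChar l) ^ r' → (p₁.coeff e = 0 ∧ p₀.coeff e = 0) ∧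
      (q₁.coeff e = 0 ∧ q₀.coeff e = 0) := by
    intro e he0 heN
    obtain ⟨h5, h6⟩ := hr1 e he0 heN
    rw [hP, hcoef] at h5
    rw [hQ, hcoef] at h6
    exact ⟨hlin _ _ h5, hlin _ _ h6⟩
  refine ⟨n, r, r', ![p₁, p₀, q₁, q₀], hdet', ?_, hrel'⟩
  intro i
  fin_cases i
  · exact bl_two hM0 fun e h0 hN => (h4 e h0 hN).1.1
  · exact bl_two hM0 fun e h0 hN => (h4 e h0 hN).1.2
  · exact bl_two hM0 fun e h0 hN => (h4 e h0 hN).2.1
  · exact bl_two hM0 fun e h0 hN => (h4 e h0 hN).2.2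

end Vale.Agent.P019P.N019
end

end
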