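import Vale.Agent.N019.W2

/-!
# P019 for commuting pairs, part 3
-/

set_option linter.all false

section

attribute [local instance] AFast8a0e5cx12a.a0 AFast8a0e5cx12a.a1 AFast8a0e5cx12a.a2
  AFast8a0e5cx12a.a3 AFast8a0e5cx12a.a4 AFast8a0e5cx12a.a5
attribute [local instance] AFast8a0e5cx12b.a0 AFast8a0e5cx12b.a1 AFast8a0e5cx12b.a2
  AFast8a0e5cx12b.a3 AFast8a0e5cx12b.a4
attribute [local instance] O19.fr O19.tf O19.pj O19.fl

section

/-!
# The coordinate of the sum is a bilinear function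
-/

namespace Vale.Agent.P019P.N019

open Vale.Agent.P019

open Polynomial Filter

variable {K L : Type*} [Field K] [Field L] [PerfectField K] [PerfectField L] {ℓ : ℕ}
  [Fact ℓ.Prime] [NeZero (ℓ : K)] [NeZero (ℓ : L)]
  {k : Subfield K} {l : Subfield L} {Θ : V ℓ K ≃ₗ[ZMod ℓ] V ℓ L}

/-- the bilinear form: `z' ^ q^n` is the quotient of bilinear functions of `t' ^ q^r`,
`s' ^ q^r'`, and the corresponding relation for the points. -/
theorem Hyp.bilin (H : Hyp ℓ k l Θ) {t s : K} {t' s' z' : L}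
    (hst : Ind k s t) (ht : Rt k l Θ t t') (hs : Rt k l Θ s s')
    (hz : Rt k l Θ (t + s) z') {ψt ψs ψz : K → L}
    {et es ez : K → ZMod ℓ} (pt : Psi k l Θ t t' ψt et) (ps : Psi k l Θ s s' ψs es)
    (pz : Psi k l Θ (t + s) z' ψz ez) :
    ∃ (n r r' : ℕ) (X Y : Fin 4 → L), (∀ i, X i ∈ l) ∧ (∀ i, Y i ∈ l) ∧
      ∀ᶠ b in ae k,
        (ψs b ^ (ringExpChar L) ^ r' * X 0 + Y 0) * (ψs b ^ (ringExpChar L) ^ r' * X 3 + Y 3) -
          (ψs b ^ (ringExpChar L) ^ r' * X 1 + Y 1) *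
            (ψs b ^ (ringExpChar L) ^ r' * X 2 + Y 2) ≠ 0 ∧
        ∀ᶠ a in ae k,
          ψz (a + b) ^ (ringExpChar L) ^ n *
            ((ψs b ^ (ringExpChar L) ^ r' * X 2 + Y 2) * ψt a ^ (ringExpChar L) ^ r +
              (ψs b ^ (ringExpChar L) ^ r' * X 3 + Y 3)) =
          (ψs b ^ (ringExpChar L) ^ r' * X 0 + Y 0) * ψt a ^ (ringExpChar L) ^ r +
              (ψs b ^ (ringExpChar L) ^ r' * X 1 + Y 1) := by
  have hk := H.ack
  have hl := H.acl
  haveI := hl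
  obtain ⟨n, r, r', p, hdet, hp, hrel⟩ := H.bl_step2 hst ht hs hz pt ps pz
  refine ⟨n, r, r', fun i => ((p i).coeff ((ringExpChar l) ^ r') : l),
    fun i => ((p i).coeff 0 : l), fun i => Subtype.coe_prop _, fun i => Subtype.coe_prop _, ?_⟩
  have hfib := H.bl_fibre (hst.symm hk).2 hs ht hz (bl_shift hk ht.good.1 s) ps pt pz
  filter_upwards [hfib, bl_ae_ne hk hl hs ps hdet] with b hb hdb
  obtain ⟨hβ, i, j, A, B, C', D, hAD, hgen, hid⟩ := hb
  set β : l := ⟨ψs b, hβ⟩ with hβd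
  have hβe : ψs b = (β : L) := rfl
  simp only [hβe, ← bl_eval_lin (hp _) β]
  have hdb' := hdb hβ
  rw [eval_sub, eval_mul, eval_mul] at hdb'
  refine ⟨fun h0 => hdb' (Subtype.ext h0), ?_⟩
  -- the identity of polynomials
  have hid' := hid n (aeval s' (p 0) * t' ^ (ringExpChar l) ^ r + aeval s' (p 1))
    (aeval s' (p 2) * t' ^ (ringExpChar l) ^ r + aeval s' (p 3))
    (C ((p 0).eval β) * X ^ (ringExpChar l) ^ r + C ((p 1).eval β))
    (C ((p 2).eval β) * X ^ (ringExpChar l) ^ r + C ((p 3).eval β)) (by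
      intro W hWl htW hsW hlt
      have hx : blR W s' (β : L) := ⟨hsW, hWl _ hβ, hlt⟩
      have hy : blR W (t' ^ (ringExpChar l) ^ r) (t' ^ (ringExpChar l) ^ r) :=
        blR.refl (pow_mem htW _)
      have key : ∀ i j, blR W (aeval s' (p i) * t' ^ (ringExpChar l) ^ r + aeval s' (p j))
          (aeval t' (C ((p i).eval β) * X ^ (ringExpChar l) ^ r + C ((p j).eval β))) := by
        intro i j
        rw [map_add, map_mul, aeval_C, aeval_C, map_pow, aeval_X]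
        change blR W _ ((((p i).eval β : l) : L) * _ + (((p j).eval β : l) : L))
        rw [← bl_aeval_coe, ← bl_aeval_coe]
        exact ((blR.aeval hWl hx (p i)).mul hy).add (blR.aeval hWl hx (p j))
      exact ⟨key 0 1, key 2 3⟩) hrel
  -- the denominator of the Moebius transformation
  have hden : (C C' * X ^ (ringExpChar l) ^ j + C D : l[X]) ≠ 0 := by
    intro h0
    have hJ : (ringExpChar l) ^ j ≠ 0 := (pow_pos (expChar_pos l _) j).ne'
    have h1 : (C C' * X ^ (ringExpChar l) ^ j + C D : l[X]).coeff ((ringExpChar l) ^ j) = 0 := by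
      rw [h0]; simp
    have h2 : (C C' * X ^ (ringExpChar l) ^ j + C D : l[X]).coeff 0 = 0 := by rw [h0]; simp
    rw [bl_coeff, if_pos rfl, if_neg hJ, add_zero] at h1
    rw [bl_coeff, if_pos rfl, if_neg hJ.symm, zero_add] at h2
    apply hAD
    rw [h1, h2]
    ring
  filter_upwards [hgen, pt.cor, bl_ae_ne hk hl ht pt hden] with a ha hα hda
  have hα' := hα.1
  set α : l := ⟨ψt a, hα'⟩ with hαd
  have hαe : ψt a = (α : L) := rfl
  have e1 := congrArg (eval α) hid'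
  simp only [eval_mul, eval_pow, eval_add, eval_C, eval_X] at e1
  have e2 := congrArg (Subtype.val : l → L) e1
  have e3 : ∀ (u v u' v' : l), ((u ^ (ringExpChar l) ^ i * v ^ (ringExpChar l) ^ n : l) : L) =
      (u : L) ^ (ringExpChar L) ^ i * (v : L) ^ (ringExpChar L) ^ n := by
    intro u v _ _
    rw [bl_q l]
    rfl
  rw [e3 _ _ 0 0, e3 _ _ 0 0] at e2
  have hda' := hda hα'
  simp only [eval_mul, eval_pow, eval_add, eval_C, eval_X] at hda'
  have hda2 : ((C' * α ^ (ringExpChar l) ^ j + D : l) : L) ≠ 0 := fun h0 =>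
    hda' (Subtype.ext h0)
  have ha' : ψz (a + b) ^ (ringExpChar L) ^ i * ((C' * α ^ (ringExpChar l) ^ j + D : l) : L) =
      ((A * α ^ (ringExpChar l) ^ j + B : l) : L) := by
    have h5 := ha
    rw [add_comm b a, hαe] at h5
    rw [bl_q l]
    exact h5
  rw [hαe]
  have e4 : ∀ i j : Fin 4, (((p i).eval β * α ^ (ringExpChar l) ^ r + (p j).eval β : l) : L) =
      (((p i).eval β : l) : L) * (α : L) ^ (ringExpChar L) ^ r + (((p j).eval β : l) : L) := by
    intro i j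
    rw [bl_q l]
    rfl
  rw [e4, e4] at e2
  generalize (((p 0).eval β : l) : L) * (α : L) ^ (ringExpChar L) ^ r +
    (((p 1).eval β : l) : L) = U at e2 ⊢
  generalize (((p 2).eval β : l) : L) * (α : L) ^ (ringExpChar L) ^ r +
    (((p 3).eval β : l) : L) = V at e2 ⊢
  rw [← ha', mul_pow, ← mul_assoc] at e2
  have e5 := mul_right_cancel₀ (pow_ne_zero _ hda2) e2
  apply pow_q_inj (n := i)
  rw [e5, mul_pow, ← pow_mul, ← pow_mul, mul_comm ((ringExpChar L) ^ n), mul_comm]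

/-- exact additive relations for the correspondence of points. -/
theorem Hyp.exact_add (H : Hyp ℓ k l Θ) {t s : K} {t' s' z' : L}
    (hst : Ind k s t) (ht : Rt k l Θ t t') (hs : Rt k l Θ s s')
    (hz : Rt k l Θ (t + s) z') {ψs : K → L}
    {es : K → ZMod ℓ} (ps : Psi k l Θ s s' ψs es) :
    ∃ S : Set K, S.Finite ∧ ∀ c ∈ k, ∃ A ∈ l, ∃ B ∈ l, ∃ C ∈ l, ∃ D ∈ l, A * D - B * C ≠ 0 ∧
      ∀ b ∈ k, b ∉ S → b + c ∉ S → ψs b ∈ l ∧ ψs (b + c) * (C * ψs b + D) = A * ψs b + B := by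
  have hk := H.ack
  have hl := H.acl
  haveI := hk
  haveI := hl
  obtain ⟨ψt, et, pt⟩ := H.exists_psi ht
  obtain ⟨ψz, ez, pz⟩ := H.exists_psi hz
  obtain ⟨n, r, r', X, Y, hX, hY, hb⟩ := H.bilin hst ht hs hz pt ps pz
  obtain ⟨S₀, hS₀, hpen⟩ := pencil (fun b : k => rst k l ψs b ^ (ringExpChar l) ^ r')
    (fun a : k => rst k l ψt a ^ (ringExpChar l) ^ r)
    (fun c : k => rst k l ψz c ^ (ringExpChar l) ^ n) (bl_inj hk hl hs ps r')
    (bl_inj hk hl ht pt r) (fun i => ⟨X i, hX i⟩) (fun i => ⟨Y i, hY i⟩) (by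
      filter_upwards [ae_iff_sub.1 hb, ae_iff_sub.1 ps.cor] with b hb1 hb2
      obtain ⟨h1, h2⟩ := hb1
      have hq := bl_q l
      refine ⟨?_, ?_⟩
      · intro h0
        apply h1
        have h3 := congrArg (Subtype.val : l → L) h0
        change ((rst k l ψs b : L) ^ (ringExpChar l) ^ r' * X 0 + Y 0) *
          ((rst k l ψs b : L) ^ (ringExpChar l) ^ r' * X 3 + Y 3) -
          ((rst k l ψs b : L) ^ (ringExpChar l) ^ r' * X 1 + Y 1) *
            ((rst k l ψs b : L) ^ (ringExpChar l) ^ r' * X 2 + Y 2) = 0 at h3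
        rw [sigb_rst_eq hb2.1, hq] at h3
        exact h3
      · filter_upwards [ae_iff_sub.1 h2, ae_iff_sub.1 pt.cor,
          ae_iff_sub.1 (ae_shift b.2 pz.cor)] with a ha1 ha2 ha3
        refine Subtype.ext ?_
        change (rst k l ψz (a + b) : L) ^ (ringExpChar l) ^ n *
            (((rst k l ψs b : L) ^ (ringExpChar l) ^ r' * X 2 + Y 2) *
              (rst k l ψt a : L) ^ (ringExpChar l) ^ r +
              ((rst k l ψs b : L) ^ (ringExpChar l) ^ r' * X 3 + Y 3)) =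
          ((rst k l ψs b : L) ^ (ringExpChar l) ^ r' * X 0 + Y 0) *
            (rst k l ψt a : L) ^ (ringExpChar l) ^ r +
              ((rst k l ψs b : L) ^ (ringExpChar l) ^ r' * X 1 + Y 1)
        have hzm : ψz ((a + b : k) : K) ∈ l := by
          have h5 := ha3.1
          rw [add_comm] at h5
          exact h5
        rw [sigb_rst_eq hb2.1, sigb_rst_eq ha2.1, sigb_rst_eq hzm, hq]
        exact ha1)
  refine ⟨Subtype.val '' S₀ ∪ {b : K | b ∈ k ∧ ¬ (ψs b ∈ l ∧ es b ≠ 0 ∧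
    Cor k l Θ s s' (es b) b (ψs b))}, (hS₀.image _).union (ae_iff.1 ps.cor), ?_⟩
  intro c hc
  obtain ⟨A, B, C', D, hd, hM⟩ := hpen ⟨c, hc⟩
  obtain ⟨A, rfl⟩ := exists_root A r'
  obtain ⟨B, rfl⟩ := exists_root B r'
  obtain ⟨C', rfl⟩ := exists_root C' r'
  obtain ⟨D, rfl⟩ := exists_root D r'
  refine ⟨A, A.2, B, B.2, C', C'.2, D, D.2, ?_, ?_⟩
  · intro h0
    apply hd
    rw [sg1_det_pow]
    have h1 : A * D - B * C' = 0 := Subtype.ext h0
    rw [h1, zero_pow (pow_pos (expChar_pos l _) r').ne']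
  · intro b hb hbS hbcS
    have hmem : ∀ x ∈ k, x ∉ Subtype.val '' S₀ ∪ {b : K | b ∈ k ∧ ¬ (ψs b ∈ l ∧ es b ≠ 0 ∧
        Cor k l Θ s s' (es b) b (ψs b))} → ψs x ∈ l := by
      intro x hx hxS
      by_contra hcon
      exact hxS (Or.inr ⟨hx, fun h => hcon h.1⟩)
    have hb1 := hmem b hb hbS
    have hb2 := hmem (b + c) (add_mem hb hc) hbcS
    refine ⟨hb1, ?_⟩
    have h1 := hM ⟨b, hb⟩ (fun h => hbS (Or.inl ⟨_, h, rfl⟩)) (fun h => hbcS (Or.inl ⟨_, h, rfl⟩))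
    have h2 := sg1_unpow r' h1
    have h3 := congrArg (Subtype.val : l → L) h2
    change (rst k l ψs (⟨b, hb⟩ + ⟨c, hc⟩) : L) * ((C' : L) * (rst k l ψs ⟨b, hb⟩ : L) + (D : L)) =
      (A : L) * (rst k l ψs ⟨b, hb⟩ : L) + (B : L) at h3
    have hb2' : ψs (((⟨b, hb⟩ : k) + (⟨c, hc⟩ : k) : k) : K) ∈ l := hb2
    rw [sigb_rst_eq (b := ⟨b, hb⟩) hb1, sigb_rst_eq hb2'] at h3
    exact h3

end Vale.Agent.P019P.N019
end

section

/-!
# Special elements, all of whose points correspond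
-/

namespace Vale.Agent.P019P.N019

open Vale.Agent.P019

open Polynomial Filter

variable {K L : Type*} [Field K] [Field L] [PerfectField K] [PerfectField L] {ℓ : ℕ}
  [Fact ℓ.Prime] [NeZero (ℓ : K)] [NeZero (ℓ : L)]
  {k : Subfield K} {l : Subfield L} {Θ : V ℓ K ≃ₗ[ZMod ℓ] V ℓ L}

/-- the type of the point of the line of `z'` below a transferred valuation. -/
theorem Hyp.spec_point (H : Hyp ℓ k l Θ) {F : Subfield K} (hkF : k ≤ F) (hfg : FG k F)
    {W : ValuationSubring K} {π θ : K} (hN : Nice W F π θ) {y : K} (hy : Good k y)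
    (hyW : TrivOn W (adj k y)) {z : K} {z' : L} (hR : Rt k l Θ z z') {v₀ : V ℓ K}
    (hv₀ : v₀ ∈ VS ℓ (adj k z)) (h₀ : hN.unif.fn ℓ v₀ ≠ 0) :
    (∃ β ∈ l, ∃ κ : ZMod ℓ, ∀ v ∈ VS ℓ (adj k z),
      hN.unif.fn ℓ v = κ * del ℓ l z' β (Θ v)) ∨
    (∀ c ∈ l, ∀ c' ∈ l, hN.unif.fn ℓ (Θ.symm (cl ℓ (z' - c) - cl ℓ (z' - c'))) = 0) := by
  obtain ⟨O, hOl, hT⟩ := H.exists_tr hkF hfg hN hy hyW
  have hnt : ¬ TrivOn O (adj l z') := by
    intro hO
    obtain ⟨x, hx, hx0, hx1⟩ := (hR.map v₀).2 hv₀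
    have h1 := hT.unit hN.unif x (hO.eq_one hx hx0)
    rw [← hx1, LinearEquiv.symm_apply_apply] at h1
    exact h₀ h1
  set f : V ℓ L →ₗ[ZMod ℓ] ZMod ℓ := (hN.unif.fn ℓ) ∘ₗ Θ.symm.toLinearMap with hf
  have hfv : ∀ v, f (Θ v) = hN.unif.fn ℓ v := by
    intro v
    change hN.unif.fn ℓ (Θ.symm (Θ v)) = _
    rw [LinearEquiv.symm_apply_apply]
  have hfs : ∀ w, hN.unif.fn ℓ (Θ.symm w) = f w := fun w => rfl
  have hfu : ∀ z, O.valuation z = 1 → f (cl ℓ z) = 0 := fun z hz => hT.unit hN.unif z hz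
  rcases exists_centre H.acl hR.good' hOl hnt with ⟨β, hβ, hβ1⟩ | hinf
  · left
    refine ⟨β, hβ, f (cl ℓ (z' - β)), fun v hv => ?_⟩
    rw [← hfv]
    exact del_of_kills H.acl hR.good' hOl hβ hβ1 f hfu ((hR.map v).2 hv)
  · right
    have key : ∀ c ∈ l, f (cl ℓ (z' - c)) = f (cl ℓ z') := by
      intro c hc
      have hs0 : z' ≠ 0 := by
        rintro rfl
        rw [map_zero] at hinf
        exact absurd hinf (not_lt.2 zero_le_one)
      have hcle : O.valuation c < O.valuation z' := (hOl.le_one hc).trans_lt hinf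
      have hval : O.valuation (z' - c) = O.valuation z' :=
        Valuation.map_sub_eq_of_lt_left _ hcle
      have hsc0 : z' - c ≠ 0 := by
        intro h
        rw [h, map_zero] at hval
        exact (Valuation.ne_zero_iff O.valuation).2 hs0 hval.symm
      have h1 : O.valuation ((z' - c) / z') = 1 := by
        rw [map_div₀, hval, div_self ((Valuation.ne_zero_iff O.valuation).2 hs0)]
      have h2 := hfu _ h1
      rw [cl_div ℓ hsc0 hs0, map_sub, sub_eq_zero] at h2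
      exact h2
    intro c hc c' hc'
    rw [hfs, map_sub, key c hc, key c' hc', sub_self]

/-- comparison of the coefficients of two points through the degree formula. -/
theorem Hyp.spec_compare (H : Hyp ℓ k l Θ) {z : K} {z' : L} (hR : Rt k l Θ z z')
    (hfin : ∀ b ∈ k,
      (∃ β ∈ l, ∃ κ : ZMod ℓ, ∀ v ∈ VS ℓ (adj k z), del ℓ k z b v = κ * del ℓ l z' β (Θ v)) ∨
      (∀ c ∈ l, ∀ c' ∈ l, del ℓ k z b (Θ.symm (cl ℓ (z' - c) - cl ℓ (z' - c'))) = 0))
    {g : V ℓ K →ₗ[ZMod ℓ] ZMod ℓ} (hg : ∀ b ∈ k, g (cl ℓ (z - b)) = -1)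
    (hinf :
      (∃ β ∈ l, ∃ κ : ZMod ℓ, ∀ v ∈ VS ℓ (adj k z), g v = κ * del ℓ l z' β (Θ v)) ∨
      (∀ c ∈ l, ∀ c' ∈ l, g (Θ.symm (cl ℓ (z' - c) - cl ℓ (z' - c'))) = 0))
    {b b' : K} (hb : b ∈ k) (hb' : b' ∈ k) {β β' : L} (hβ : β ∈ l) (hβ' : β' ∈ l)
    {e e' : ZMod ℓ} (he : e ≠ 0) (he' : e' ≠ 0) (h : Cor k l Θ z z' e b β)
    (h' : Cor k l Θ z z' e' b' β') : e = e' := by
  classical
  by_cases hββ : β = β'
  · subst hββ
    have hbb := Cor.inj H.ack H.acl hR he he' hb hb' hβ h h'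
    subst hbb
    exact (Cor.unique H.ack H.acl hR he hb hβ hβ h h').2
  have hbb : b ≠ b' := by
    rintro rfl
    exact hββ (Cor.unique H.ack H.acl hR he hb hβ hβ' h h').1
  have hz'k : ∀ c ∈ l, cl ℓ (z' - c) ∈ VS ℓ (adj l z') := fun c hc =>
    cl_mem_VS ((adj l z').sub_mem (mem_adj l z') (le_adj l z' hc))
  have hzk : ∀ c ∈ k, cl ℓ (z - c) ∈ VS ℓ (adj k z) := fun c hc =>
    cl_mem_VS ((adj k z).sub_mem (mem_adj k z) (le_adj k z hc))
  set w : V ℓ L := cl ℓ (z' - β) - cl ℓ (z' - β') with hw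
  have hwV : w ∈ VS ℓ (adj l z') := Submodule.sub_mem _ (hz'k β hβ) (hz'k β' hβ')
  set v : V ℓ K := Θ.symm w with hv
  have hΘv : Θ v = w := by rw [hv, LinearEquiv.apply_symm_apply]
  have hvV : v ∈ VS ℓ (adj k z) := by rw [← hR.map, hΘv]; exact hwV
  -- values of the functionals of the second line at `w`
  have hdw : ∀ γ ∈ l, γ ≠ β → γ ≠ β' → del ℓ l z' γ w = 0 := by
    intro γ hγ h1 h2
    rw [hw, map_sub, del_ne H.acl hR.good' hγ hβ (Ne.symm h1),
      del_ne H.acl hR.good' hγ hβ' (Ne.symm h2), sub_self]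
  have hdβ : del ℓ l z' β w = 1 := by
    rw [hw, map_sub, del_self H.acl hR.good' hβ, del_ne H.acl hR.good' hβ hβ' (Ne.symm hββ),
      sub_zero]
  have hdβ' : del ℓ l z' β' w = -1 := by
    rw [hw, map_sub, del_self H.acl hR.good' hβ', del_ne H.acl hR.good' hβ' hβ hββ, zero_sub]
  have hvb : del ℓ k z b v = e := by
    rw [h v hvV, hΘv, hdβ, mul_one]
  have hvb' : del ℓ k z b' v = -e' := by
    rw [h' v hvV, hΘv, hdβ', mul_neg, mul_one]
  have hvo : ∀ c ∈ k, c ≠ b → c ≠ b' → del ℓ k z c v = 0 := by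
    intro c hc hcb hcb'
    rcases hfin c hc with ⟨γ, hγ, κ, hκ⟩ | h1
    · have hκ0 : κ ≠ 0 := by
        rintro rfl
        have h2 := hκ _ (hzk c hc)
        rw [del_self H.ack hR.good hc, zero_mul] at h2
        exact one_ne_zero h2
      rw [hκ v hvV, hΘv]
      by_cases h1 : γ = β
      · subst h1
        exact absurd (Cor.inj H.ack H.acl hR hκ0 he hc hb hγ hκ h) hcb
      by_cases h2 : γ = β'
      · subst h2
        exact absurd (Cor.inj H.ack H.acl hR hκ0 he' hc hb' hγ hκ h') hcb'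
      rw [hdw γ hγ h1 h2, mul_zero]
    · exact h1 β hβ β' hβ'
  have hgv : g v = 0 := by
    rcases hinf with ⟨γ, hγ, κ, hκ⟩ | h1
    · -- a finite point is not proportional to the point of a finite point
      have hcontra : ∀ {b₁ b₂ : K} {e₁ : ZMod ℓ}, b₁ ∈ k → b₂ ∈ k → b₂ ≠ b₁ → e₁ ≠ 0 →
          Cor k l Θ z z' e₁ b₁ γ → False := by
        intro b₁ b₂ e₁ hb₁ hb₂ hne he₁ hC
        have h2 := hC _ (hzk b₂ hb₂)
        rw [del_ne H.ack hR.good hb₁ hb₂ hne] at h2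
        have h3 : del ℓ l z' γ (Θ (cl ℓ (z - b₂))) = 0 :=
          (mul_eq_zero.1 h2.symm).resolve_left he₁
        have h4 := hκ _ (hzk b₂ hb₂)
        rw [h3, mul_zero, hg b₂ hb₂] at h4
        exact one_ne_zero (neg_eq_zero.1 h4)
      rw [hκ v hvV, hΘv]
      by_cases h1 : γ = β
      · subst h1
        exact (hcontra hb hb' (Ne.symm hbb) he h).elim
      by_cases h2 : γ = β'
      · subst h2
        exact (hcontra hb' hb hbb he' h').elim
      rw [hdw γ hγ h1 h2, mul_zero]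
    · exact h1 β hβ β' hβ'
  -- the degree formula
  obtain ⟨T, n, hT, hvT⟩ := adj_factor H.ack hR.good.1 hvV
  have hdel : ∀ c ∈ k, del ℓ k z c v = if c ∈ T then n c else 0 := by
    intro c hc
    rw [hvT]
    exact del_eval H.ack hR.good T hT n hc
  have hgT : g v = -∑ c ∈ T, n c := by
    rw [hvT, map_sum, ← Finset.sum_neg_distrib]
    refine Finset.sum_congr rfl fun c hc => ?_
    rw [map_smul, hg c (hT c hc), smul_eq_mul, mul_neg, mul_one]
  have hbT : b ∈ T := by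
    by_contra hcon
    have h1 := hdel b hb
    rw [if_neg hcon, hvb] at h1
    exact he h1
  have hbT' : b' ∈ T := by
    by_contra hcon
    have h1 := hdel b' hb'
    rw [if_neg hcon, hvb'] at h1
    exact he' (neg_eq_zero.1 h1)
  have hsum : ∑ c ∈ T, n c = e - e' := by
    have h1 : ∀ c ∈ T, n c = (if c = b then e else 0) + (if c = b' then -e' else 0) := by
      intro c hc
      have h2 := hdel c (hT c hc)
      rw [if_pos hc] at h2
      by_cases h3 : c = b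
      · subst h3
        rw [if_pos rfl, if_neg hbb, add_zero, ← h2, hvb]
      by_cases h4 : c = b'
      · subst h4
        rw [if_neg h3, if_pos rfl, zero_add, ← h2, hvb']
      rw [if_neg h3, if_neg h4, add_zero, ← h2, hvo c (hT c hc) h3 h4]
    rw [Finset.sum_congr rfl h1, Finset.sum_add_distrib, Finset.sum_ite_eq', Finset.sum_ite_eq',
      if_pos hbT, if_pos hbT', sub_eq_add_neg]
  rw [hgv, hsum] at hgT
  have h5 : e - e' = 0 := neg_eq_zero.1 hgT.symm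
  exact sub_eq_zero.1 h5

/-- for every good `s` there is `t` such that the coefficients of the correspondence for `t + s`
are constant. -/
theorem Hyp.exists_special (H : Hyp ℓ k l Θ) {s : K} (hs : Good k s) :
    ∃ t, Good k t ∧ Good k (t + s) ∧ Ind k s t ∧ ∀ z', Rt k l Θ (t + s) z' →
      ∃ e₀ : ZMod ℓ, ∀ b ∈ k, ∀ β ∈ l, ∀ e : ZMod ℓ, e ≠ 0 →
        Cor k l Θ (t + s) z' e b β → e = e₀ := by
  classical
  have hRAC := RAC_of_isAlgClosed k H.ack
  have hne := ae_neBot_of_isAlgClosed H.ack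
  obtain ⟨x₁, hx₁, hx₁s⟩ := H.exists_indep hs
  have hsk : ¬ IsAlgebraic k s := fun h => hs.1 (hRAC s h)
  obtain ⟨G, hG⟩ := exists_frame H.fgk hsk hx₁s
  obtain ⟨θ, hθ⟩ := hG.nice H.fgk
  set F : Subfield K := adj G s with hF
  have hkF : k ≤ F := hG.le.trans (le_adj G s)
  have hsF : s ∈ F := mem_adj G s
  have hksF : adj k s ≤ F := adj_mono hG.le s
  have hfgF : FG k F := hG.fg.adj s
  have hθk : ∀ᶠ a in ae k, ∀ W : ValuationSubring K, Over W F x₁ a → Nice W F (x₁ - a) θ :=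
    ae_mono hkF hθ
  obtain ⟨a₀, ha₀, ha₀k⟩ := (hθk.and (ae_mem k)).exists
  have hxa : x₁ - a₀ ≠ 0 := fun h => hx₁.1 (by rw [sub_eq_zero.1 h]; exact ha₀k)
  set x : K := (x₁ - a₀)⁻¹ with hx
  have hx0 : x ≠ 0 := inv_ne_zero hxa
  have hx₁x : x₁ = x⁻¹ + a₀ := by rw [hx, inv_inv, sub_add_cancel]
  have hxs : ¬ IsAlgebraic (adj k s) x := by
    intro h
    apply hx₁s
    have h1 : x ∈ rac (adj k s) := mem_rac.2 h
    have h2 : x₁ ∈ rac (adj k s) := by
      rw [hx₁x]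
      exact (rac (adj k s)).add_mem ((rac (adj k s)).inv_mem h1) (le_rac _ (le_adj k s ha₀k))
    exact mem_rac.1 h2
  have hxk : x ∉ k := fun h => hxs (isAlgebraic_of_mem (le_adj k s h))
  have hsx : ¬ IsAlgebraic (adj k x) s := fun h => hxs (exchange hsk h)
  -- the exceptional parameters
  have hEx : ∀ᶠ c in ae k, ∀ b ∈ k, b - c * s ≠ 0 → ∀ W : ValuationSubring K,
      Over W F x₁ (a₀ + (b - c * s)⁻¹) → Nice W F (x₁ - (a₀ + (b - c * s)⁻¹)) θ := by
    rw [ae_iff] at hθ ⊢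
    refine (hθ.biUnion (t := fun a => {c : K | c ∈ k ∧ ∃ b ∈ k, b - c * s ≠ 0 ∧
      a₀ + (b - c * s)⁻¹ = a}) ?_).subset ?_
    · intro a _
      apply Set.Subsingleton.finite
      rintro c ⟨hc, b, hb, hbc, h1⟩ c' ⟨hc', b', hb', hbc', h1'⟩
      have h2 : b - c * s = b' - c' * s := by
        have h3 : (b - c * s)⁻¹ = (b' - c' * s)⁻¹ := by
          have h4 := h1.trans h1'.symm
          exact add_left_cancel h4
        exact inv_injective h3
      by_contra hcc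
      have hd : c - c' ≠ 0 := sub_ne_zero.2 hcc
      apply hs.1
      have h5 : s = (b - b') / (c - c') := by
        rw [eq_div_iff hd]
        linear_combination -h2
      rw [h5]
      exact k.div_mem (k.sub_mem hb hb') (k.sub_mem hc hc')
    · rintro c ⟨hc, hc1⟩
      push Not at hc1
      obtain ⟨b, hb, hbc, W, hW, hWn⟩ := hc1
      rw [Set.mem_iUnion₂]
      refine ⟨a₀ + (b - c * s)⁻¹, ⟨?_, fun h => hWn (h W hW)⟩, hc, b, hb, hbc, rfl⟩
      exact F.add_mem (hkF ha₀k) (F.inv_mem (F.sub_mem (hkF hb) (F.mul_mem (hkF hc) hsF)))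
  have hgood := H.bert x s hxk hsx
  have hgood' := spec_ae_shift hgood
  have hc0' : ∀ᶠ c in ae k, c ≠ 0 := by
    rw [ae_iff]
    refine (Set.finite_singleton (0 : K)).subset ?_
    rintro c ⟨_, hc⟩
    rw [not_not] at hc
    exact hc
  obtain ⟨c, ⟨⟨⟨⟨hc1, hc2⟩, hc3⟩, hc0⟩, hck⟩⟩ :=
    ((((hgood.and hgood').and hEx).and hc0').and (ae_mem k)).exists
  have htz : x + (c - 1) * s + s = x + c * s := by ring
  refine ⟨x + (c - 1) * s, hc2, by rw [htz]; exact hc1, ⟨hs.1, ?_⟩, ?_⟩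
  · intro h
    apply hxs
    have h1 : x + (c - 1) * s ∈ rac (adj k s) := mem_rac.2 h
    have h2 : (c - 1) * s ∈ rac (adj k s) :=
      le_rac _ ((adj k s).mul_mem (le_adj k s (k.sub_mem hck k.one_mem)) (mem_adj k s))
    have h3 := (rac (adj k s)).sub_mem h1 h2
    rw [add_sub_cancel_right] at h3
    exact mem_rac.1 h3
  rw [htz]
  intro z' hR
  set z : K := x + c * s with hz
  have hbcs : ∀ b ∈ k, b - c * s ≠ 0 := by
    intro b hb h
    apply hs.1
    have h1 : s = b / c := by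
      rw [eq_div_iff hc0]
      linear_combination -h
    rw [h1]
    exact k.div_mem hb hck
  have huF : ∀ b ∈ k, b - c * s ∈ F := fun b hb =>
    F.sub_mem (hkF hb) (F.mul_mem (hkF hck) hsF)
  have hzk : ∀ c ∈ k, cl ℓ (z - c) ∈ VS ℓ (adj k z) := fun c hc =>
    cl_mem_VS ((adj k z).sub_mem (mem_adj k z) (le_adj k z hc))
  -- finite points
  have hfin : ∀ b ∈ k,
      (∃ β ∈ l, ∃ κ : ZMod ℓ, ∀ v ∈ VS ℓ (adj k z), del ℓ k z b v = κ * del ℓ l z' β (Θ v)) ∨
      (∀ c ∈ l, ∀ c' ∈ l, del ℓ k z b (Θ.symm (cl ℓ (z' - c) - cl ℓ (z' - c'))) = 0) := by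
    intro b hb
    set u : K := b - c * s with hu
    have hu0 : u ≠ 0 := hbcs b hb
    have huF' : u ∈ F := huF b hb
    have haF : a₀ + u⁻¹ ∈ F := F.add_mem (hkF ha₀k) (F.inv_mem huF')
    obtain ⟨W, hW⟩ := exists_over hG.tt haF
    have hN := hc3 b hb hu0 W hW
    have hWF : TrivOn W F := hN.triv
    have hWk : TrivOn W k := hWF.mono hkF
    have hWs : TrivOn W (adj k s) := hWF.mono hksF
    have hvu : W.valuation u = 1 := hWF.eq_one huF' hu0
    have hvui : W.valuation u⁻¹ = 1 := by rw [map_inv₀, hvu, inv_one]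
    have hva : W.valuation (x₁ - a₀) = 1 := by
      have h1 : x₁ - a₀ = (x₁ - (a₀ + u⁻¹)) + u⁻¹ := by ring
      rw [h1, Valuation.map_add_eq_of_lt_right _ (by rw [hvui]; exact hW.lt), hvui]
    have hπ0 : x₁ - (a₀ + u⁻¹) ≠ 0 := hN.unif.ne
    have hzb : z - b = (-u * x) * (x₁ - (a₀ + u⁻¹)) := by
      rw [hz, hx, hu]
      have hu0' : b - c * s ≠ 0 := hu0
      field_simp
      ring
    have hvux : W.valuation (-u * x) = 1 := by
      rw [map_mul, Valuation.map_neg, hvu, hx, map_inv₀, hva, inv_one, one_mul]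
    have hux0 : -u * x ≠ 0 := mul_ne_zero (neg_ne_zero.2 hu0) hx0
    have hlt : W.valuation (z - b) < 1 := by
      rw [hzb, map_mul, hvux, one_mul]
      exact hW.lt
    have hfn1 : hN.unif.fn ℓ (cl ℓ (z - b)) = 1 := by
      rw [hzb, cl_mul ℓ hux0 hπ0, map_add, hN.unif.fn_unit ℓ _ hvux, hN.unif.fn_self ℓ, zero_add]
    have hfn : ∀ v ∈ VS ℓ (adj k z), hN.unif.fn ℓ v = del ℓ k z b v := by
      intro v hv
      rw [del_of_kills H.ack hR.good hWk hb hlt (hN.unif.fn ℓ)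
        (fun z hz => hN.unif.fn_unit ℓ z hz) hv, hfn1, one_mul]
    rcases H.spec_point hkF hfgF hN hs hWs hR (hzk b hb) (by rw [hfn1]; exact one_ne_zero)
      with ⟨β, hβ, κ, hκ⟩ | h1
    · left
      exact ⟨β, hβ, κ, fun v hv => by rw [← hfn v hv]; exact hκ v hv⟩
    · right
      intro d hd d' hd'
      rw [← hfn]
      · exact h1 d hd d' hd'
      · rw [← hR.map, LinearEquiv.apply_symm_apply]
        exact Submodule.sub_mem _
          (cl_mem_VS ((adj l z').sub_mem (mem_adj l z') (le_adj l z' hd)))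
          (cl_mem_VS ((adj l z').sub_mem (mem_adj l z') (le_adj l z' hd')))
  -- the pole
  obtain ⟨W, hW⟩ := exists_over hG.tt (hkF ha₀k)
  have hN := ha₀ W hW
  have hWF : TrivOn W F := hN.triv
  have hWs : TrivOn W (adj k s) := hWF.mono hksF
  have hg : ∀ b ∈ k, hN.unif.fn ℓ (cl ℓ (z - b)) = -1 := by
    intro b hb
    have huF' : b - c * s ∈ F := huF b hb
    have hlt : W.valuation ((b - c * s) * (x₁ - a₀)) < 1 := by
      rw [map_mul]
      refine (mul_le_mul_left (hWF.le_one huF') _).trans_lt ?_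
      rw [one_mul]
      exact hW.lt
    have h1 : W.valuation (1 - (b - c * s) * (x₁ - a₀)) = 1 := by
      rw [Valuation.map_one_sub_of_lt _ hlt]
    have h10 : 1 - (b - c * s) * (x₁ - a₀) ≠ 0 := by
      intro h0
      rw [h0, map_zero] at h1
      exact zero_ne_one h1
    have hzb : z - b = (1 - (b - c * s) * (x₁ - a₀)) / (x₁ - a₀) := by
      rw [hz, hx]
      field_simp
      ring
    rw [hzb, cl_div ℓ h10 hxa, map_sub, hN.unif.fn_unit ℓ _ h1, hN.unif.fn_self ℓ, zero_sub]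
  have hinf := H.spec_point hkF hfgF hN hs hWs hR (hzk 0 k.zero_mem)
    (by rw [hg 0 k.zero_mem]; exact neg_ne_zero.2 one_ne_zero)
  by_cases hex : ∃ b ∈ k, ∃ β ∈ l, ∃ e : ZMod ℓ, e ≠ 0 ∧ Cor k l Θ z z' e b β
  · obtain ⟨b₀, hb₀, β₀, hβ₀, e₀, he₀, hC₀⟩ := hex
    refine ⟨e₀, fun b hb β hβ e he hC => ?_⟩
    exact H.spec_compare hR hfin hg hinf hb hb₀ hβ hβ₀ he he₀ hC hC₀
  · refine ⟨0, fun b hb β hβ e he hC => ?_⟩
    exact absurd ⟨b, hb, β, hβ, e, he, hC⟩ hex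

end Vale.Agent.P019P.N019
end

section

/-!
# The isomorphism of the constants (perfect version)

`ae_iff_sub`, `ae_shift`, `ae_scale`, `ae_ne`, `rst`, `rst_eq` are those of the old file.
-/

namespace Vale.Agent.P019P.N019

open Vale.Agent.P019

open Polynomial Filter

variable {K L : Type*} [Field K] [Field L] [PerfectField K] [PerfectField L] {ℓ : ℕ}
  [Fact ℓ.Prime] [NeZero (ℓ : K)] [NeZero (ℓ : L)]
  {k : Subfield K} {l : Subfield L} {Θ : V ℓ K ≃ₗ[ZMod ℓ] V ℓ L}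

/-- first construction of `σ`. -/
theorem Hyp.exists_sigma₁ (H : Hyp ℓ k l Θ) : ∃ (t s : K), Good k t ∧ Good k s ∧
    Good k (t + s) ∧ Ind k s t ∧ ∃ (σ : K → L) (e : K → ZMod ℓ) (s' : L),
      IsoOn k l σ ∧ Nv k l Θ σ e s s' := by
  classical
  obtain ⟨t, ht0⟩ := exists_gen_add H.ack H.fgk H.trk {0} ∅ (by simp)
  have ht : Good k t := by
    have := (ht0 0 (Finset.mem_singleton_self 0)).1
    rwa [zero_add] at this
  obtain ⟨s, hs, hts, hst, -, hist, -⟩ := exists_gen_mul H.ack H.fgk H.trk t t ht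
  rw [mul_comm] at hst
  refine ⟨t, s, ht, hs, hts, hist, ?_⟩
  obtain ⟨t', rt⟩ := H.rt_all ht
  obtain ⟨s', rs⟩ := H.rt_all hs
  obtain ⟨z', rz⟩ := H.rt_all hts
  obtain ⟨w', rw'⟩ := H.rt_all hst
  obtain ⟨ψt, et, pt⟩ := H.exists_psi rt
  obtain ⟨ψs, es, ps⟩ := H.exists_psi rs
  obtain ⟨ψz, ez, pz⟩ := H.exists_psi rz
  obtain ⟨ψw, ew, pw⟩ := H.exists_psi rw'
  obtain ⟨_, -, h1⟩ := H.rel hist.2 rt rs rz (shift_add H.ack hs.1 t) pt ps pz
  obtain ⟨_, -, h2⟩ := H.rel hist.2 rt rs rw' (shift_mul H.ack hs.1 t) pt ps pw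
  have : IsAlgClosed k := H.ack
  have : IsAlgClosed l := H.acl
  have hql : ringExpChar l = ringExpChar L := ringExpChar.eq l (ringExpChar L)
  -- the isomorphism
  obtain ⟨σ, A, B, C, D, hdet, hσ⟩ := sigma_exact (rst k l ψs) (rst k l ψz) (rst k l ψw)
    (by
      refine ⟨{b : k | ¬ (ψs b ∈ l ∧ es b ≠ 0 ∧ Cor k l Θ s s' (es b) b (ψs b))}, ?_, ?_⟩
      · exact ae_iff_sub.1 ps.cor
      · intro b hb b' hb' hbb
        simp only [Set.mem_compl_iff, Set.mem_ofPred_eq, not_not] at hb hb'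
        have h4 := congrArg (Subtype.val : l → L) hbb
        rw [sigb_rst_eq hb.1, sigb_rst_eq hb'.1] at h4
        have h5 := hb'.2.2
        rw [← h4] at h5
        exact Subtype.ext (Cor.inj H.ack H.acl rs hb.2.1 hb'.2.1 b.2 b'.2 hb.1 hb.2.2 h5))
    (by
      have h4 := ae_iff_sub.1 ps.surj
      rw [eventually_cofinite] at h4
      refine h4.subset ?_
      intro β hβ hex
      obtain ⟨b, hb, hb1, -⟩ := hex
      refine hβ ⟨⟨b, hb⟩, Subtype.ext ?_⟩
      rw [sigb_rst_eq (by rw [hb1]; exact β.2), hb1])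
    (by
      filter_upwards [ae_iff_sub.1 h1] with a ha
      obtain ⟨i, j, A, hA, B, hB, C, hC, D, hD, hdet, h1, -⟩ := ha
      refine ⟨i, j, ⟨A, hA⟩, ⟨B, hB⟩, ⟨C, hC⟩, ⟨D, hD⟩, fun h0 => hdet ?_, ?_⟩
      · exact congrArg (Subtype.val : l → L) h0
      · filter_upwards [ae_iff_sub.1 h1, ae_iff_sub.1 ps.cor,
          ae_iff_sub.1 (ae_shift a.2 pz.cor)] with b hb1 hb2 hb3
        refine Subtype.ext ?_
        change (rst k l ψz (a + b) : L) ^ (ringExpChar l) ^ i *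
          (C * (rst k l ψs b : L) ^ (ringExpChar l) ^ j + D) =
          A * (rst k l ψs b : L) ^ (ringExpChar l) ^ j + B
        rw [sigb_rst_eq hb2.1, sigb_rst_eq (b := a + b) hb3.1, hql]
        exact hb1.1)
    (by
      have h0 : ∀ᶠ a : k in cofinite, (a : K) ≠ 0 := ae_iff_sub.1 (ae_ne 0)
      filter_upwards [ae_iff_sub.1 h2, h0] with a ha ha0
      obtain ⟨i, j, A, hA, B, hB, C, hC, D, hD, hdet, h1, -⟩ := ha
      refine ⟨i, j, ⟨A, hA⟩, ⟨B, hB⟩, ⟨C, hC⟩, ⟨D, hD⟩, fun h0 => hdet ?_, ?_⟩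
      · exact congrArg (Subtype.val : l → L) h0
      · filter_upwards [ae_iff_sub.1 h1, ae_iff_sub.1 ps.cor,
          ae_iff_sub.1 (ae_scale a.2 ha0 pw.cor)] with b hb1 hb2 hb3
        refine Subtype.ext ?_
        change (rst k l ψw (a * b) : L) ^ (ringExpChar l) ^ i *
          (C * (rst k l ψs b : L) ^ (ringExpChar l) ^ j + D) =
          A * (rst k l ψs b : L) ^ (ringExpChar l) ^ j + B
        rw [sigb_rst_eq hb2.1, sigb_rst_eq (b := a * b) hb3.1, hql]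
        exact hb1.1)
    (by
      obtain ⟨S, hS, hex⟩ := H.exact_add hist rt rs rz ps
      refine ⟨Subtype.val ⁻¹' S, hS.preimage Subtype.val_injective.injOn, fun c => ?_⟩
      obtain ⟨A, hA, B, hB, C, hC, D, hD, hdet, h3⟩ := hex c c.2
      refine ⟨⟨A, hA⟩, ⟨B, hB⟩, ⟨C, hC⟩, ⟨D, hD⟩, fun h0 => hdet ?_, ?_⟩
      · exact congrArg (Subtype.val : l → L) h0
      · intro b hb hbc
        obtain ⟨e1, e3⟩ := h3 b b.2 hb hbc
        have e2 : ψs (b + c) ∈ l := by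
          obtain ⟨_, _, _, _, _, _, _, _, _, h4⟩ := hex 0 (zero_mem k)
          exact (h4 (b + c) (add_mem b.2 c.2) hbc (by rw [add_zero]; exact hbc)).1
        refine Subtype.ext ?_
        change (rst k l ψs (b + c) : L) * (C * (rst k l ψs b : L) + D) =
          A * (rst k l ψs b : L) + B
        rw [sigb_rst_eq e1, sigb_rst_eq (b := b + c) e2]
        exact e3)
  let τ : K → L := fun b => if h : b ∈ k then (σ ⟨b, h⟩ : L) else 0
  have hτ : ∀ b (h : b ∈ k), τ b = σ ⟨b, h⟩ := fun b h => dif_pos h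
  have hτo : IsoOn k l τ := by
    refine ⟨?_, ?_, ?_, ?_, ?_⟩
    · intro a ha
      rw [hτ a ha]
      exact (σ ⟨a, ha⟩).2
    · intro a ha b hb
      rw [hτ a ha, hτ b hb, hτ _ (add_mem ha hb)]
      exact congrArg (Subtype.val : l → L) (map_add σ ⟨a, ha⟩ ⟨b, hb⟩)
    · intro a ha b hb
      rw [hτ a ha, hτ b hb, hτ _ (mul_mem ha hb)]
      exact congrArg (Subtype.val : l → L) (map_mul σ ⟨a, ha⟩ ⟨b, hb⟩)
    · rw [hτ 1 (one_mem k)]
      exact congrArg (Subtype.val : l → L) (map_one σ)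
    · intro β hβ
      refine ⟨σ.symm ⟨β, hβ⟩, (σ.symm ⟨β, hβ⟩).2, ?_⟩
      rw [hτ _ (σ.symm ⟨β, hβ⟩).2]
      exact congrArg (Subtype.val : l → L) (σ.apply_symm_apply ⟨β, hβ⟩)
  obtain ⟨s₁', hs₁'⟩ := exists_Nv_of_mob H.ack H.acl hτo rs A.2 B.2 C.2 D.2
    (fun h0 => hdet (Subtype.ext h0)) (ψ := ψs) (e := es) ps.cor (by
      rw [ae_iff_sub]
      filter_upwards [hσ, ae_iff_sub.1 ps.cor] with b hb1 hb2
      have h5 := congrArg (Subtype.val : l → L) hb1
      rw [hτ b b.2, ← sigb_rst_eq hb2.1]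
      exact h5)
  exact ⟨τ, es, s₁', hτo, hs₁'⟩

/-- the coordinate of the sum. -/
theorem Hyp.nv_add (H : Hyp ℓ k l Θ) {σ : K → L} (hσ : IsoOn k l σ) {e : K → ZMod ℓ}
    {t s : K} {s' : L} (hst : Ind k s t) (ht : Good k t) (hts : Good k (t + s))
    (h : Nv k l Θ σ e s s') : ∃ z' ez, Nv k l Θ σ ez (t + s) z' ∧
      ∀ᶠ a in ae k, ∀ᶠ b in ae k, ez (a + b) = e b := by
  have := ae_neBot_of_isAlgClosed H.ack
  obtain ⟨t', rt⟩ := H.rt_all ht
  obtain ⟨z₀', rz⟩ := H.rt_all hts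
  obtain ⟨ψt, et, pt⟩ := H.exists_psi rt
  obtain ⟨ψz, ez, pz⟩ := H.exists_psi rz
  have ps := h.psi hσ H.ack
  obtain ⟨_, -, h1⟩ := H.rel hst.2 rt h.rt rz (shift_add H.ack h.rt.good.1 t) pt ps pz
  obtain ⟨a, ⟨i, j, A, hA, B, hB, C, hC, D, hD, hdet, h1, -⟩, ha⟩ :=
    (h1.and (ae_mem k)).exists
  have hsa : ∀ n : ℕ, σ a ^ (ringExpChar L) ^ n ∈ l := fun n => pow_mem (hσ.mem a ha) _
  obtain ⟨z', ez', hz⟩ := exists_Nv_of_twist H.ack H.acl hσ rz (A := A)
    (B := B - A * σ a ^ (ringExpChar L) ^ j) (C := C)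
    (D := D - C * σ a ^ (ringExpChar L) ^ j) hA (sub_mem hB (mul_mem hA (hsa j))) hC
    (sub_mem hD (mul_mem hC (hsa j))) (by
      intro h0
      apply hdet
      linear_combination h0) pz.cor i j (by
      filter_upwards [ae_shift (neg_mem ha) h1, ae_mem k] with b hb1 hb
      have e1 : σ (-a + b) = σ b - σ a := by
        rw [show -a + b = b - a by ring, hσ.sub hb ha]
      rw [show a + (-a + b) = b by ring, e1, sub_pow_q] at hb1
      linear_combination hb1.1)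
  refine ⟨z', ez', hz, ?_⟩
  obtain ⟨_, -, h2⟩ := H.rel hst.2 rt h.rt hz.rt (shift_add H.ack h.rt.good.1 t) pt ps
    (hz.psi hσ H.ack)
  filter_upwards [h2, ae_mem k] with a ha hak
  obtain ⟨i, j, A, hA, B, hB, C, hC, D, hD, hdet, h3, -⟩ := ha
  have h4 : ∀ᶠ b in ae k, (1 * σ b ^ (ringExpChar L) ^ i + σ a ^ (ringExpChar L) ^ i) *
      (C * σ b ^ (ringExpChar L) ^ j + D) = A * σ b ^ (ringExpChar L) ^ j + B := by
    filter_upwards [h3, ae_mem k] with b hb1 hb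
    rw [hσ.add a hak b hb, add_pow_q] at hb1
    linear_combination hb1.1
  have h5 := (twist_mob one_ne_zero hdet (sigb_infinite H.ack hσ h4)).1
  filter_upwards [h3] with b hb
  exact sigb_coeff h5 hb.2

/-- the coordinate of a summand. -/
theorem Hyp.nv_sub (H : Hyp ℓ k l Θ) {σ : K → L} (hσ : IsoOn k l σ) {ez : K → ZMod ℓ}
    {t s : K} {z' : L} (hst : Ind k s t) (ht : Good k t) (hs : Good k s)
    (h : Nv k l Θ σ ez (t + s) z') : ∃ t' et, Nv k l Θ σ et t t' ∧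
      ∀ᶠ b in ae k, ∀ᶠ a in ae k, ez (a + b) = et a := by
  have := ae_neBot_of_isAlgClosed H.ack
  have hts : Ind k t s := hst.symm H.ack
  obtain ⟨t₀', rt⟩ := H.rt_all ht
  obtain ⟨s', rs⟩ := H.rt_all hs
  obtain ⟨ψt, et, pt⟩ := H.exists_psi rt
  obtain ⟨ψs, es, ps⟩ := H.exists_psi rs
  have pz := h.psi hσ H.ack
  have hsh : Shift ℓ k s t (t + s) (fun a b => a + b) := by
    rw [add_comm t s]
    exact shift_add H.ack ht.1 s
  obtain ⟨_, -, h1⟩ := H.rel hts.2 rs rt h.rt hsh ps pt pz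
  obtain ⟨a, ⟨i, j, A, hA, B, hB, C, hC, D, hD, hdet, h1, -⟩, ha⟩ :=
    (h1.and (ae_mem k)).exists
  have hsa : ∀ n : ℕ, σ a ^ (ringExpChar L) ^ n ∈ l := fun n => pow_mem (hσ.mem a ha) _
  obtain ⟨t', et', ht'⟩ := exists_Nv_of_twist H.ack H.acl hσ rt (A := D)
    (B := D * σ a ^ (ringExpChar L) ^ i - B) (C := -C)
    (D := A - C * σ a ^ (ringExpChar L) ^ i) hD (sub_mem (mul_mem hD (hsa i)) hB)
    (neg_mem hC) (sub_mem hA (mul_mem hC (hsa i))) (by
      intro h0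
      apply hdet
      linear_combination h0) pt.cor j i (by
      filter_upwards [h1, ae_mem k] with b hb1 hb
      rw [hσ.add a ha b hb, add_pow_q] at hb1
      linear_combination -hb1.1)
  refine ⟨t', et', ht', ?_⟩
  obtain ⟨_, -, h2⟩ := H.rel hts.2 rs ht'.rt h.rt hsh ps (ht'.psi hσ H.ack) pz
  filter_upwards [h2, ae_mem k] with a ha hak
  obtain ⟨i, j, A, hA, B, hB, C, hC, D, hD, hdet, h3, -⟩ := ha
  have h4 : ∀ᶠ b in ae k, (1 * σ b ^ (ringExpChar L) ^ i + σ a ^ (ringExpChar L) ^ i) *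
      (C * σ b ^ (ringExpChar L) ^ j + D) = A * σ b ^ (ringExpChar L) ^ j + B := by
    filter_upwards [h3, ae_mem k] with b hb1 hb
    rw [hσ.add a hak b hb, add_pow_q] at hb1
    linear_combination hb1.1
  have h5 := (twist_mob one_ne_zero hdet (sigb_infinite H.ack hσ h4)).1
  filter_upwards [h3] with b hb
  rw [add_comm]
  exact sigb_coeff h5 hb.2

theorem Hyp.exists_sigma₀ (H : Hyp ℓ k l Θ) : ∃ (σ : K → L) (e : ZMod ℓ) (s : K) (s' : L),
    IsoOn k l σ ∧ e ≠ 0 ∧ Nm k l Θ σ e s s' := by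
  have := ae_neBot_of_isAlgClosed H.ack
  obtain ⟨_, s, _, hs, _, _, σ, es, s', hσ, hs'⟩ := H.exists_sigma₁
  obtain ⟨t, ht, hts, hst, hsp⟩ := H.exists_special hs
  obtain ⟨z', ez, hz, h1⟩ := H.nv_add hσ hst ht hts hs'
  obtain ⟨e, he0⟩ := hsp z' hz.rt
  have h2 : ∀ᶠ c in ae k, ez c = e := by
    filter_upwards [hz.cor, ae_mem k] with c hc hck
    exact he0 c hck (σ c) (hσ.mem c hck) (ez c) hc.1 hc.2
  obtain ⟨a, h1, ha⟩ := (h1.and (ae_mem k)).exists
  have he : ∀ᶠ b in ae k, es b = e := by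
    filter_upwards [h1, ae_shift ha h2] with b hb1 hb2
    rw [← hb1, hb2]
  refine ⟨σ, e, s, s', hσ, ?_, hs'.rt, ?_⟩
  · obtain ⟨b, hb1, hb2⟩ := (he.and hs'.cor).exists
    rw [← hb1]
    exact hb2.1
  · filter_upwards [he, hs'.cor] with b hb1 hb2
    rw [← hb1]
    exact hb2.2

/-- `σ` works for all independent good elements. -/
theorem Hyp.exists_Nm_of_ind (H : Hyp ℓ k l Θ) {σ : K → L} (hσ : IsoOn k l σ) {e : ZMod ℓ}
    (he : e ≠ 0) {s : K} {s' : L} (h : Nm k l Θ σ e s s') {t : K} (ht : Good k t)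
    (hts : Ind k s t) : ∃ t', Nm k l Θ σ e t t' := by
  have := ae_neBot_of_isAlgClosed H.ack
  have hst : Ind k t s := hts.symm H.ack
  obtain ⟨c, hgood, hc0, hc⟩ := ((H.bert t s hst.1 hst.2).and
    ((ae_ne 0).and (ae_mem k))).exists
  have hu : Nm k l Θ σ e (c * s) (σ c * s') := h.mul_const H.ack H.acl hσ he hc hc0
  have hle : adj k (c * s) ≤ adj k s :=
    adj_le (le_adj k s) (mul_mem (le_adj k s hc) (mem_adj k s))
  have hut : ¬ IsAlgebraic (adj k (c * s)) t := fun h => hts.2 (isAlgebraic_mono hle h)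
  have hind : Ind k (c * s) t := ⟨hu.rt.good.1, hut⟩
  have hnv : Nv k l Θ σ (fun _ => e) (c * s) (σ c * s') :=
    ⟨hu.rt, hu.cor.mono fun b hb => ⟨he, hb⟩⟩
  obtain ⟨z', ez, hz, h1⟩ := H.nv_add hσ hind ht hgood hnv
  obtain ⟨t', et, ht', h2⟩ := H.nv_sub hσ hind ht hu.rt.good hz
  obtain ⟨a, h1, ha⟩ := (h1.and (ae_mem k)).exists
  obtain ⟨b, h2, hb⟩ := (h2.and (ae_mem k)).exists
  have h3 : ∀ᶠ x in ae k, ez x = e := by
    filter_upwards [ae_shift (neg_mem ha) h1] with x hx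
    rwa [show a + (-a + x) = x by ring] at hx
  refine ⟨t', ht'.rt, ?_⟩
  filter_upwards [h2, ae_shift hb h3, ht'.cor] with x hx1 hx2 hx3
  rw [add_comm, hx1] at hx2
  rw [← hx2]
  exact hx3.2

/-- the isomorphism of the fields of constants. -/
theorem Hyp.exists_sigma (H : Hyp ℓ k l Θ) : ∃ (σ : K → L) (e : ZMod ℓ),
    IsoOn k l σ ∧ e ≠ 0 ∧ ∀ s, Good k s → ∃ s', Nm k l Θ σ e s s' := by
  classical
  obtain ⟨σ, e, s, s', hσ, he, h⟩ := H.exists_sigma₀
  refine ⟨σ, e, hσ, he, fun s₁ hs₁ => ?_⟩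
  obtain ⟨t, ht0⟩ := exists_gen_add H.ack H.fgk H.trk {0} {s, s₁} (by
    intro b hb
    rw [Finset.mem_insert, Finset.mem_singleton] at hb
    rcases hb with rfl | rfl
    · exact h.rt.good
    · exact hs₁)
  obtain ⟨ht, hi⟩ := ht0 0 (Finset.mem_singleton_self 0)
  rw [zero_add] at ht hi
  have hi1 := hi s (by simp)
  have hi2 := hi s₁ (by simp)
  obtain ⟨t', ht'⟩ := H.exists_Nm_of_ind hσ he h ht (hi1.symm H.ack)
  exact H.exists_Nm_of_ind hσ he ht' hs₁ hi2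

end Vale.Agent.P019P.N019
end

end

section

attribute [local instance] AFastfcd647x12a.a0 AFastfcd647x12a.a1 AFastfcd647x12a.a2
attribute [local instance] AFastfcd647x12b.a0 AFastfcd647x12b.a1 AFastfcd647x12b.a2
attribute [local instance] O19.fr O19.tf O19.pj O19.fl

section

/-!
# The endgame: the isomorphism is induced by a homomorphism of fields
-/

namespace Vale.Agent.P019P.N019

open Vale.Agent.P019

open Filter

section endgame

variable {K L : Type*} [Field K] [Field L] {ℓ : ℕ} {k : Subfield K} {l : Subfield L}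
  {A : K →+* L}

variable [PerfectField K] [PerfectField L] [Fact ℓ.Prime] [NeZero (ℓ : K)] [NeZero (ℓ : L)]

variable {Θ : V ℓ K ≃ₗ[ZMod ℓ] V ℓ L} {e : ZMod ℓ}

theorem EndHyp.D_finite (H : Hyp ℓ k l Θ) (E : EndHyp ℓ k l Θ A e) {s : K} (hs : Good k s) :
    ∃ X : Set (V ℓ L), X.Finite ∧ ∀ v ∈ VS ℓ (adj k s), EndD Θ A e v ∈ X := by
  classical
  have hS := ae_iff.1 (E.cor s hs)
  set T : Finset L := hS.toFinset.image A with hT
  have hTl : ∀ β ∈ T, β ∈ l := by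
    intro β hβ
    obtain ⟨b, hb, rfl⟩ := Finset.mem_image.1 hβ
    exact E.hA b ((hS.mem_toFinset).1 hb).1
  refine ⟨_, del_finite (ℓ := ℓ) H.acl (E.rt s hs).good' T hTl, ?_⟩
  intro v hv
  refine ⟨E.D_mem hs hv, ?_⟩
  intro β hβ hβT
  obtain ⟨b, hb, rfl⟩ := E.hA' β hβ
  have hbC : Cor k l Θ s (A s) e b (A b) := by
    by_contra h
    exact hβT (Finset.mem_image.2 ⟨b, hS.mem_toFinset.2 ⟨hb, h⟩, rfl⟩)
  rw [EndD_apply, map_sub, map_smul, del_Vmap H.ack H.acl E.hA hs (E.rt s hs).good' hb hv,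
    hbC v hv, smul_eq_mul, ← mul_assoc, inv_mul_cancel₀ E.e0, one_mul, sub_self]

theorem EndHyp.D_rel (H : Hyp ℓ k l Θ) (E : EndHyp ℓ k l Θ A e) {t s : K} (ht : Good k t)
    (hs : Good k s) (hts : Good k (t + s)) (hst : ¬ IsAlgebraic (adj k s) t) {b c : K}
    (hb : b ∈ k) (hc : c ∈ k) :
    EndD Θ A e (cl ℓ (s - b)) - EndD Θ A e (cl ℓ (t + s - c)) ∈ VS ℓ (adj l (A t)) := by
  classical
  obtain ⟨F', hRF, htt, halg, hF, hu⟩ := E.rel t s ht hs hts hst
  obtain ⟨X, hX, hXs⟩ := EndHyp.D_finite H E hs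
  obtain ⟨Y, hY, hYs⟩ := EndHyp.D_finite H E hts
  set N : Submodule (ZMod ℓ) (V ℓ L) := VS ℓ (adj l (A t)) with hN
  set C : V ℓ L → Set L := fun w => {β : L | β ∈ l ∧ w ∉ N ∧
    ∃ W : ValuationSubring L, Over W F' (A t) β ∧ w ∈ U1 ℓ W} with hCdef
  have hC : ∀ w, (C w).Finite := by
    intro w
    by_contra hinf
    have hinf' : (C w).Infinite := hinf
    obtain ⟨β, -, hwN, -⟩ := hinf'.nonempty
    apply hwN
    have h1 : w ∈ VS ℓ (rac (adj l (A t))) :=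
      k1 H.acl H.fgl hRF htt halg (hinf'.mono fun β hβ => ⟨hβ.1, hβ.2.2⟩)
    exact VS_mono ((E.rt t ht).good'.2.le le_rfl) h1
  set Z : Set (V ℓ L) := (fun p : V ℓ L × V ℓ L => p.1 - p.2) '' (X ×ˢ Y) with hZ
  have hZf : Z.Finite := (hX.prod hY).image _
  set B : Set K := {a : K | a ∈ k ∧ ¬ ∃ u : ValuationSubring L, TrivOn u F' ∧
    u.valuation (A t - A a) < 1 ∧
      ∀ b ∈ k, Θ (cl ℓ (s - b) - cl ℓ (t + s - a - b)) ∈ U1 ℓ u} ∪
    ⋃ w ∈ Z, A ⁻¹' (C w) with hB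
  have hBc : B.Finite :=
    (ae_iff.1 hu).union (hZf.biUnion fun w _ => (hC w).preimage A.injective.injOn)
  refine comb_end N.toAddSubgroup (infinite_of_isAlgClosed H.ack) hBc
    (f := fun b => EndD Θ A e (cl ℓ (s - b))) (g := fun c => EndD Θ A e (cl ℓ (t + s - c)))
    ?_ hb hc
  intro a ha haB b hb
  have h1 : ∃ u : ValuationSubring L, TrivOn u F' ∧ u.valuation (A t - A a) < 1 ∧
      ∀ b ∈ k, Θ (cl ℓ (s - b) - cl ℓ (t + s - a - b)) ∈ U1 ℓ u := by
    by_contra h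
    exact haB (Or.inl ⟨ha, h⟩)
  obtain ⟨u, huF, huA, huΘ⟩ := h1
  set w : V ℓ L := EndD Θ A e (cl ℓ (s - b)) - EndD Θ A e (cl ℓ (t + s - (a + b))) with hw
  have hwU : w ∈ U1 ℓ u := EndHyp.D_U1 huF E.hA hs.1 hF huA hb (huΘ b hb)
  have hab : a + b ∈ k := k.add_mem ha hb
  have hwZ : w ∈ Z := ⟨(_, _), ⟨hXs _ (cl_mem_VS (Subfield.sub_mem _ (mem_adj _ _)
    (le_adj _ _ hb))), hYs _ (cl_mem_VS (Subfield.sub_mem _ (mem_adj _ _)
    (le_adj _ _ hab)))⟩, rfl⟩
  have haC : A a ∉ C w := fun h => haB (Or.inr (Set.mem_biUnion hwZ h))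
  change w ∈ N
  by_contra hwN
  exact haC ⟨E.hA a ha, hwN, u, ⟨huF, huA⟩, hwU⟩

theorem EndHyp.exists_t (H : Hyp ℓ k l Θ) (E : EndHyp ℓ k l Θ A e) {s : K} (hs : Good k s) :
    ∃ t, Good k t ∧ Good k (t + s) ∧ ¬ IsAlgebraic (adj k s) t ∧
      VS ℓ (adj l (A t)) ⊓ VS ℓ (adj l (A s)) = ⊥ := by
  have hrk := RAC_of_isAlgClosed k H.ack
  obtain ⟨h, hh⟩ := exists_free hrk H.trk hs.1
  have hhk : h ∉ k := fun h' => hh (isAlgebraic_of_mem (le_adj _ _ h'))
  have hsk : ¬ IsAlgebraic k s := fun h' => hs.1 (hrk s h')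
  have hhs : ¬ IsAlgebraic (adj k h) s := fun h' => hh (exchange hsk h')
  have h1 := H.bert h s hhk hhs
  have h2 := endg_shift h1 k.one_mem
  have hAh : A h ∉ l := by
    intro h'
    obtain ⟨b, hb, hb'⟩ := E.hA' _ h'
    exact hhk (A.injective hb' ▸ hb)
  have h3 := ae_of_image E.hA (meet_ae (ℓ := ℓ) H.acl H.fgl hAh
    (fun h' => hhs (end_alg E.hA' h')))
  obtain ⟨c, hc, hc1, hc2, hc3⟩ := exists_ae (infinite_of_isAlgClosed H.ack) (h1.and (h2.and h3))
  refine ⟨h + c * s, hc1, ?_, ?_, ?_⟩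
  · have h4 : h + c * s + s = h + (c + 1) * s := by ring
    rw [h4]
    exact hc2
  · intro h'
    apply hh
    have h4 := (rac (adj k s)).sub_mem (mem_rac.2 h')
      ((rac (adj k s)).mul_mem (le_rac _ (le_adj k s hc)) (le_rac _ (mem_adj k s)))
    rw [add_sub_cancel_right] at h4
    exact mem_rac.1 h4
  · rw [map_add, map_mul, eq_bot_iff, ← hc3]
    exact inf_le_inf_left _ le_sup_right

theorem EndHyp.D_good (H : Hyp ℓ k l Θ) (E : EndHyp ℓ k l Θ A e) {s : K} (hs : Good k s) :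
    EndD Θ A e (cl ℓ s) = 0 := by
  obtain ⟨t, ht, hts, hst, hinf⟩ := EndHyp.exists_t H E hs
  have hrk := RAC_of_isAlgClosed k H.ack
  have hm : cl ℓ s ∈ VS ℓ (adj k s) := cl_mem_VS (mem_adj _ _)
  have hAs : A s ∉ l := (E.rt s hs).good'.1
  have h1 := H.bert s t hs.1 hst
  have h2 := ae_of_image E.hA (meet_ae (ℓ := ℓ) H.acl H.fgl hAs
    (fun h' => hst (end_alg E.hA' h')))
  have h3 : ∀ᶠ c in ae k, c ≠ 0 := by
    rw [ae_iff]
    exact (Set.finite_singleton (0 : K)).subset (fun c hc => by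
      by_contra h
      exact hc.2 h)
  obtain ⟨c, hc, hc1, hc2, hc0⟩ := exists_ae (infinite_of_isAlgClosed H.ack) (h1.and (h2.and h3))
  have hadj : adj k (c * t) = adj k t := by
    apply le_antisymm
    · exact adj_le (le_adj _ _) (Subfield.mul_mem _ (le_adj _ _ hc) (mem_adj _ _))
    · refine adj_le (le_adj _ _) ?_
      have h4 := Subfield.mul_mem _ (le_adj k (c * t) (k.inv_mem hc)) (mem_adj k (c * t))
      rwa [inv_mul_cancel_left₀ hc0] at h4
  have hct : Good k (c * t) := by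
    refine ⟨fun h' => ht.1 ?_, by rw [hadj]; exact ht.2⟩
    have h4 := k.mul_mem (k.inv_mem hc) h'
    rwa [inv_mul_cancel_left₀ hc0] at h4
  have hct' : ¬ IsAlgebraic (adj k s) (c * t) := by
    intro h'
    apply hst
    have h4 := (rac (adj k s)).mul_mem (le_rac _ (le_adj k s (k.inv_mem hc))) (mem_rac.2 h')
    rw [inv_mul_cancel_left₀ hc0] at h4
    exact mem_rac.1 h4
  have hcts : Good k (c * t + s) := by rw [add_comm]; exact hc1
  have h4 := EndHyp.D_rel H E hct hs hcts hct' k.zero_mem k.zero_mem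
  rw [sub_zero, sub_zero] at h4
  have h5 : VS ℓ (adj l (A (c * t))) ≤ VS ℓ (adj l (A t)) := by
    refine VS_mono (adj_le (le_adj _ _) ?_)
    rw [map_mul]
    exact Subfield.mul_mem _ (le_adj _ _ (E.hA c hc)) (mem_adj _ _)
  have h6 := h5 h4
  have h7 : EndD Θ A e (cl ℓ (c * t + s)) ∈ VS ℓ (adj l (A s + A c * A t)) := by
    have h8 := E.D_mem hcts (cl_mem_VS (mem_adj k (c * t + s)))
    rwa [map_add, map_mul, add_comm] at h8
  have h8 : EndD Θ A e (cl ℓ (c * t + s)) ∈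
      VS ℓ (adj l (A s + A c * A t)) ⊓ (VS ℓ (adj l (A s)) ⊔ VS ℓ (adj l (A t))) := by
    refine ⟨h7, ?_⟩
    have h9 : EndD Θ A e (cl ℓ (c * t + s)) = EndD Θ A e (cl ℓ s) -
        (EndD Θ A e (cl ℓ s) - EndD Θ A e (cl ℓ (c * t + s))) := by abel
    rw [h9]
    exact Submodule.sub_mem _ (Submodule.mem_sup_left (E.D_mem hs hm))
      (Submodule.mem_sup_right h6)
  rw [hc2, Submodule.mem_bot] at h8
  rw [h8, sub_zero] at h6
  have h9 : EndD Θ A e (cl ℓ s) ∈ VS ℓ (adj l (A t)) ⊓ VS ℓ (adj l (A s)) :=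
    ⟨h6, E.D_mem hs hm⟩
  rwa [hinf, Submodule.mem_bot] at h9

theorem EndHyp.D_zero (H : Hyp ℓ k l Θ) (E : EndHyp ℓ k l Θ A e) (x : K) :
    EndD Θ A e (cl ℓ x) = 0 := by
  have hrk := RAC_of_isAlgClosed k H.ack
  by_cases hx : x ∈ k
  · rw [line_cl_const H.ack hx, map_zero]
  have hx0 : x ≠ 0 := fun h => hx (h ▸ k.zero_mem)
  obtain ⟨z, hz⟩ := exists_free hrk H.trk hx
  have h1 := H.bert x z hx hz
  have hxx : x * x ∉ k := fun h' => hx (hrk x (by
    refine IsAlgebraic.of_pow (n := 2) (by norm_num) ?_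
    rw [pow_two]
    exact isAlgebraic_of_mem h'))
  have hle : adj k (x * x) ≤ adj k x :=
    adj_le (le_adj _ _) (Subfield.mul_mem _ (mem_adj _ _) (mem_adj _ _))
  have h2 := H.bert (x * x) (x * z) hxx (fun h' => hz (by
    have h3 := (rac (adj k x)).mul_mem (le_rac _ (Subfield.inv_mem _ (mem_adj k x)))
      (mem_rac.2 (isAlgebraic_mono hle h'))
    rw [inv_mul_cancel_left₀ hx0] at h3
    exact mem_rac.1 h3))
  obtain ⟨c, hc, hc1, hc2⟩ := exists_ae (infinite_of_isAlgClosed H.ack) (h1.and h2)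
  have h3 : x * x + c * (x * z) = x * (x + c * z) := by ring
  rw [h3] at hc2
  have h4 : x + c * z ≠ 0 := fun h => hc1.1 (h ▸ k.zero_mem)
  have h5 := EndHyp.D_good H E hc2
  rw [cl_mul ℓ hx0 h4, map_add, EndHyp.D_good H E hc1, add_zero] at h5
  exact h5

/-- the isomorphism is a multiple of the map induced by the homomorphism. -/
theorem EndHyp.eq (H : Hyp ℓ k l Θ) (E : EndHyp ℓ k l Θ A e) (x : K) :
    Θ (cl ℓ x) = e⁻¹ • cl ℓ (A x) := by
  have h := EndHyp.D_zero H E x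
  rw [EndD_apply, sub_eq_zero, Vmap_cl] at h
  exact h

/-- the homomorphism is surjective. -/
theorem EndHyp.surj (H : Hyp ℓ k l Θ) (E : EndHyp ℓ k l Θ A e)
    (hR : ∀ y, Good l y → ∃ x, Rt l k Θ.symm y x) : Function.Surjective A := by
  have h1 : ∀ y, Good l y → ∃ x, A x = y := by
    intro y hy
    obtain ⟨x, hx⟩ := hR y hy
    have h2 := E.rt x hx.good'
    have h3 : VS ℓ (adj l y) ≤ VS ℓ (adj l (A x)) := by
      intro w hw
      have h4 := (hx.map w).2 hw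
      have h5 := (h2.map (Θ.symm w)).2 h4
      rwa [Θ.apply_symm_apply] at h5
    have h4 : adj l (A x) ≤ A.fieldRange := by
      refine adj_le ?_ ⟨x, rfl⟩
      intro β hβ
      obtain ⟨b, _, rfl⟩ := E.hA' β hβ
      exact ⟨b, rfl⟩
    exact h4 (adj_eq_of_VS H.acl H.fgl h2.good' hy h3)
  intro y
  by_cases hy : y ∈ l
  · obtain ⟨b, _, hb⟩ := E.hA' y hy
    exact ⟨b, hb⟩
  obtain ⟨g, hg1, hg2⟩ := exists_quot H.acl H.trl H.bert' hy
  obtain ⟨a, ha⟩ := h1 g hg1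
  obtain ⟨b, hb⟩ := h1 _ hg2
  have hg0 : g ≠ 0 := fun h => hg1.1 (h ▸ l.zero_mem)
  refine ⟨b / a, ?_⟩
  rw [map_div₀, ha, hb, mul_div_cancel_right₀ _ hg0]

/-- the isomorphism comes from an isomorphism of fields. -/
theorem EndHyp.final (H : Hyp ℓ k l Θ) (E : EndHyp ℓ k l Θ A e)
    (hR : ∀ y, Good l y → ∃ x, Rt l k Θ.symm y x) :
    ∃ (c : (ZMod ℓ)ˣ) (α : K ≃+* L), (∀ x, x ∈ k ↔ α x ∈ l) ∧
      ∀ x : K, Θ (cl ℓ x) = (c : ZMod ℓ) • cl ℓ (α x) := by
  refine ⟨(Units.mk0 e E.e0)⁻¹, RingEquiv.ofBijective A ⟨A.injective, EndHyp.surj H E hR⟩, ?_, ?_⟩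
  · intro x
    refine ⟨fun h => E.hA x h, fun h => ?_⟩
    obtain ⟨b, hb, hbx⟩ := E.hA' _ h
    exact A.injective hbx ▸ hb
  · intro x
    rw [EndHyp.eq H E x, Units.val_inv_eq_inv_val]
    rfl

end endgame

end Vale.Agent.P019P.N019
end

section

/-!
# Classes orthogonal to infinitely many points
-/

namespace Vale.Agent.P019P.N019

open Vale.Agent.P019

open Polynomial Filter

variable {K : Type*} [Field K] [PerfectField K] {ℓ : ℕ} [Fact ℓ.Prime] [NeZero (ℓ : K)]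

/-- K2: a class orthogonal to infinitely many `e - β`. -/
theorem k2 {k : Subfield K} (hk : IsAlgClosed k) (hfg : FG k (⊤ : Subfield K)) {e y : K}
    (he : e ∉ k) (hy : ¬ IsAlgebraic (adj k e) y)
    {v : V ℓ K} (hinf : {β : K | β ∈ k ∧ Orth v (cl ℓ (e - β))}.Infinite) :
    v ∈ VS ℓ (rac (adj k e)) := by
  have hℓ : 0 < ℓ := (Fact.out : ℓ.Prime).pos
  obtain ⟨G, s, hG, hfr⟩ := exists_ratF hk hfg he hy
  have hkF : k ≤ adj G s := hfr.le.trans (le_adj G s)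
  obtain ⟨z, hz0, hz⟩ := cl_surj ℓ v
  obtain ⟨θ, hnice⟩ := hfr.nice hfg
  have hboth := hnice.and (hfr.unit hz0)
  rw [ae_iff] at hboth
  refine k1 hk hfg (RatF.step hG hfr.ss) hfr.tt hfr.alg ?_
  refine (hinf.sdiff hboth).mono ?_
  rintro β ⟨⟨hβ, hor⟩, hbad⟩
  refine ⟨hβ, ?_⟩
  have hgood : (∀ W : ValuationSubring K, Over W (adj G s) e β → Nice W (adj G s) (e - β) θ) ∧
      ∀ W : ValuationSubring K, Over W (adj G s) e β → W.valuation z = 1 := by
    by_contra hcon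
    exact hbad ⟨hkF hβ, hcon⟩
  obtain ⟨W, hW⟩ := exists_over hfr.tt (hkF hβ)
  refine ⟨W, hW, ?_⟩
  have hU := (hgood.1 W hW).unif
  have h1 := tame_orth (k2_neg_one hk hℓ) W (hU.fn ℓ) (fun z hz => hU.fn_unit ℓ z hz) hor
  rw [hU.fn_self ℓ, ← hz, hU.fn_unit ℓ z (hgood.2 W hW), one_smul, zero_smul, sub_zero, hz] at h1
  exact h1

end Vale.Agent.P019P.N019
end

section

/-!
# Elements of `L` are units for almost all transferred valuations
-/

namespace Vale.Agent.P019P.N019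

open Vale.Agent.P019

open Polynomial Filter

section aeu

variable {L : Type*} [Field L] {Γ : Type*} [LinearOrderedCommGroupWithZero Γ]

variable [PerfectField L] {ℓ : ℕ} [Fact ℓ.Prime] [NeZero (ℓ : L)]

/-- the main argument: if the classes of the principal units of a valuation lie in an isotropic
subspace then the valuation is trivial. -/
theorem aeu_main {l : Subfield L} (hl : IsAlgClosed l) (hfgl : FG l (⊤ : Subfield L))
    (htrl : ∃ x y : L, x ∉ l ∧ ¬ IsAlgebraic (adj l x) y) (v : Valuation L Γ)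
    (hcls : ∀ y y' : L, v y < 1 → v y' < 1 → Orth (cl ℓ (1 + y)) (cl ℓ (1 + y')))
    {z : L} (hz0 : z ≠ 0) : ¬ v z < 1 := by
  classical
  intro hzw
  have hℓ : 0 < ℓ := (Fact.out : ℓ.Prime).pos
  have hRl := RAC_of_isAlgClosed _ hl
  obtain ⟨q₁, hwq₁, hq₁k⟩ := aeu_small hl htrl v hz0 hzw 0
  have hq₁k' : q₁ ∉ l := fun h => hq₁k (isAlgebraic_of_mem (le_adj _ _ h))
  obtain ⟨q₂, hwq₂, hq₂k⟩ := aeu_small hl htrl v hz0 hzw q₁
  have hfin := bertini hl hfgl hq₁k' hq₂k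
  obtain ⟨ε, hεi, hεk, hεv, hεne⟩ := aeu_seq hl v
  have hgoodnat : ∀ S : Set L, S.Finite → ∃ n : ℕ, ε n ∉ S ∧
      Good l (q₁ + ε n * q₂) := by
    intro S hS
    have hinf : (Set.range ε).Infinite := Set.infinite_range_of_injective hεi
    obtain ⟨_, ⟨n, rfl⟩, hn⟩ := hinf.exists_notMem_finite (hfin.union hS)
    simp only [Set.mem_union, Set.mem_ofPred_eq, not_or, not_and, not_not] at hn
    exact ⟨n, hn.2, hn.1 (hεk n)⟩
  obtain ⟨n, -, hxg⟩ := hgoodnat ∅ Set.finite_empty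
  obtain ⟨m, hmn, hx'g⟩ := hgoodnat {ε n} (Set.finite_singleton _)
  set x : L := q₁ + ε n * q₂ with hx
  set x' : L := q₁ + ε m * q₂ with hx'
  have hval : ∀ n : ℕ, v (q₁ + ε n * q₂) < 1 := fun n => by
    refine Valuation.map_add_lt _ hwq₁ ?_
    rw [map_mul]
    exact mul_lt_one_of_nonneg_of_lt_one_right (hεv _) zero_le hwq₂
  have hxx' : ¬ IsAlgebraic (adj l x) x' := by
    intro h1
    rw [← mem_rac] at h1
    have hxr : x ∈ rac (adj l x) := le_rac _ (mem_adj _ _)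
    have hmn' : ε m - ε n ≠ 0 := sub_ne_zero.2 (fun h => hmn (by simpa using h))
    have h2 : q₂ ∈ rac (adj l x) := by
      have e : q₂ = (x' - x) / (ε m - ε n) := by
        rw [hx, hx']; field_simp; ring
      rw [e]
      exact Subfield.div_mem _ (Subfield.sub_mem _ h1 hxr)
        (Subfield.sub_mem _ (le_rac _ (le_adj _ _ (hεk m))) (le_rac _ (le_adj _ _ (hεk n))))
    have h3 : q₁ ∈ rac (adj l x) := by
      have e : q₁ = x - ε n * q₂ := by rw [hx]; ring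
      rw [e]
      exact Subfield.sub_mem _ hxr (Subfield.mul_mem _ (le_rac _ (le_adj _ _ (hεk n))) h2)
    exact hq₂k (line_swap hRl (mem_rac.1 h3) hq₁k' (mem_rac.1 h2))
  -- classes
  have hcx : ∀ {w : L}, Good l w → ∀ j : ℕ, cl ℓ (1 + ε j * w) = cl ℓ (w - (-(ε j)⁻¹)) := by
    intro w hw j
    have hjk' : -(ε j)⁻¹ ∈ l := l.neg_mem (l.inv_mem (hεk j))
    have hxc : w - (-(ε j)⁻¹) ≠ 0 := by
      intro h
      apply hw.1
      rw [sub_eq_zero] at h
      rw [h]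
      exact hjk'
    have hj0 := hεne j
    have e : 1 + ε j * w = ε j * (w - (-(ε j)⁻¹)) := by field_simp; ring
    rw [e, cl_mul ℓ hj0 hxc, cl_const hl hℓ (hεk j), zero_add]
  have hinf2 : (Set.range (fun j : ℕ => (-(ε j)⁻¹))).Infinite := by
    refine Set.infinite_range_of_injective ?_
    intro i j hij
    exact hεi (inv_injective (neg_injective hij))
  have hsm : ∀ (j i : ℕ), v (ε j * (q₁ + ε i * q₂)) < 1 := fun j i => by
    rw [map_mul]
    exact mul_lt_one_of_nonneg_of_lt_one_right (hεv _) zero_le (hval i)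
  have hj : ∀ j : ℕ, cl ℓ (1 + ε j * x') ∈ VS ℓ (adj l x) := by
    intro j
    have h1 : {β : L | β ∈ l ∧ Orth (cl ℓ (1 + ε j * x')) (cl ℓ (x - β))}.Infinite := by
      refine hinf2.mono ?_
      rintro _ ⟨i, rfl⟩
      refine ⟨l.neg_mem (l.inv_mem (hεk i)), ?_⟩
      rw [← hcx hxg i]
      exact hcls _ _ (hsm j m) (hsm i n)
    have h2 := k2 hl hfgl hxg.1 hxx' h1
    exact VS_mono (hxg.2.le le_rfl) h2
  -- finiteness
  have hW := int_top ℓ (E₁ := adj l x) (E₂ := adj l x') hl hfgl (le_adj _ _)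
    (le_adj _ _) (mem_adj _ _) hxx' (fun z hz => isAlgebraic_of_mem hz)
  have hfin2 : (⋃ u ∈ ((VS ℓ (adj l x) ⊓ VS ℓ (adj l x') : Submodule (ZMod ℓ) (V ℓ L)) :
      Set (V ℓ L)), {c : L | c ∈ l ∧ cl ℓ (x' - c) = u}).Finite :=
    hW.biUnion (fun v _ => dist_top ℓ hl hfgl hx'g.1 v)
  refine hinf2 (hfin2.subset ?_)
  rintro _ ⟨j, rfl⟩
  have hjk' : -(ε j)⁻¹ ∈ l := l.neg_mem (l.inv_mem (hεk j))
  simp only [Set.mem_iUnion]
  refine ⟨cl ℓ (x' - (-(ε j)⁻¹)), ⟨?_, ?_⟩, hjk', rfl⟩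
  · rw [← hcx hx'g j]; exact hj j
  · exact cl_mem_VS (Subfield.sub_mem _ (mem_adj _ _) (le_adj _ _ hjk'))

end aeu

variable {K L : Type*} [Field K] [Field L] [PerfectField K] [PerfectField L] {ℓ : ℕ}
  [Fact ℓ.Prime] [NeZero (ℓ : K)] [NeZero (ℓ : L)] {Θ : V ℓ K ≃ₗ[ZMod ℓ] V ℓ L}

theorem ae_unit {k : Subfield K} (hk : IsAlgClosed k) (hfgk : FG k (⊤ : Subfield K))
    {l : Subfield L} (hl : IsAlgClosed l) (hfgl : FG l (⊤ : Subfield L)) (hΘ : Compatible Θ)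
    (htrl : ∃ x y : L, x ∉ l ∧ ¬ IsAlgebraic (adj l x) y)
    {F : Subfield K} (hF : RatF k F) {t : K} (ht : Good k t) (htF : ¬ IsAlgebraic F t)
    (halg : ∀ z : K, IsAlgebraic (adj F t) z) {z : L} (hz : z ≠ 0) :
    ∀ᶠ b in ae k, ∀ W : ValuationSubring K, Over W F t b →
      ∀ O : ValuationSubring L, Tr Θ W (t - b) O → O.valuation z = 1 := by
  classical
  rw [ae_iff]
  by_contra hcon
  have hcon' : {b : K | b ∈ k ∧ ¬ ∀ W : ValuationSubring K, Over W F t b →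
      ∀ O : ValuationSubring L, Tr Θ W (t - b) O → O.valuation z = 1}.Infinite := hcon
  set I : Set K := {b : K | b ∈ k ∧ ¬ ∀ W : ValuationSubring K, Over W F t b →
      ∀ O : ValuationSubring L, Tr Θ W (t - b) O → O.valuation z = 1} with hI
  have hne : ∀ i : I, ∃ (W : ValuationSubring K) (O : ValuationSubring L), Over W F t i ∧
      Tr Θ W (t - i) O ∧ O.valuation z ≠ 1 := by
    rintro ⟨b, hbk, hb⟩
    push Not at hb
    obtain ⟨W, hW, O, hO, hz⟩ := hb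
    exact ⟨W, O, hW, hO, hz⟩
  choose W O hW hO hOz using hne
  haveI : Infinite I := Set.infinite_coe_iff.2 hcon'
  let U : Ultrafilter I := hyperfilter I
  let v := (uVal U O).valuation.comap (gc U : L →+* Gm U L)
  have hv : ∀ w : L, v w = (uVal U O).valuation (gm U fun _ => w) := fun w => rfl
  have hv1 : v z ≠ 1 := by
    intro h
    rw [hv, uVal_eq_one] at h
    obtain ⟨i, hi⟩ := h.exists
    exact hOz i hi
  have hcls : ∀ y : L, v y < 1 → Θ.symm (cl ℓ (1 + y)) ∈ VS ℓ (adj k t) := by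
    intro y hy
    rw [hv, uVal_lt_one] at hy
    have h1 : {i : I | (O i).valuation y < 1}.Infinite := by
      intro hfin
      exact Filter.notMem_hyperfilter_of_finite hfin hy
    have h2 : {β : K | β ∈ k ∧ ∃ W : ValuationSubring K, Over W F t β ∧
        Θ.symm (cl ℓ (1 + y)) ∈ U1 ℓ W}.Infinite := by
      refine (h1.image (f := fun i : I => (i : K)) Subtype.val_injective.injOn).mono ?_
      rintro _ ⟨i, hi, rfl⟩
      refine ⟨i.2.1, W i, hW i, ?_⟩
      rw [← (hO i).iff, LinearEquiv.apply_symm_apply]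
      exact cl_mem_U1 hi
    exact VS_mono (ht.2.le le_rfl) (k1 hk hfgk hF htF halg h2)
  have horth : ∀ y y' : L, v y < 1 → v y' < 1 → Orth (cl ℓ (1 + y)) (cl ℓ (1 + y')) := by
    intro y y' hy hy'
    have h3 := adj_isotropic (ℓ := ℓ) hk ht.1 _ (hcls y hy) _ (hcls y' hy')
    have h4 := hΘ.orth h3
    rwa [LinearEquiv.apply_symm_apply, LinearEquiv.apply_symm_apply] at h4
  rcases lt_or_gt_of_ne hv1 with h | h
  · exact aeu_main hl hfgl htrl v horth hz h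
  · refine aeu_main hl hfgl htrl v horth (inv_ne_zero hz) ?_
    rw [map_inv₀]
    exact inv_lt_one_of_one_lt₀ h

end Vale.Agent.P019P.N019
end

section

/-!
# Step A: the data, and the case of a special element
-/

namespace Vale.Agent.P019P.N019

open Vale.Agent.P019

open Polynomial Filter

variable {K L : Type*} [Field K] [Field L] [PerfectField K] [PerfectField L] {ℓ : ℕ}
  [Fact ℓ.Prime] [NeZero (ℓ : K)] [NeZero (ℓ : L)]

variable {Θ : V ℓ K ≃ₗ[ZMod ℓ] V ℓ L} {k F : Subfield K} {t : K} {l : Subfield L}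

theorem Dat.ulu (D : Dat k F t Θ) (hk : IsAlgClosed k) (hfgk : FG k (⊤ : Subfield K))
    (hl : IsAlgClosed l) (hfgl : FG l (⊤ : Subfield L)) (hΘ : Compatible Θ)
    (htrl : ∃ x y : L, x ∉ l ∧ ¬ IsAlgebraic (adj l x) y) (hF : RatF k F) (ht : Good k t)
    (htF : ¬ IsAlgebraic F t) (halg : ∀ z : K, IsAlgebraic (adj F t) z) : Ulu D.U D.O :=
  fun _ hx => (D.ev (ae_unit hk hfgk hl hfgl hΘ htrl hF ht htF halg hx)).mono
    fun i h => h (D.W i) (D.ov i) (D.O i) (D.tr i)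

end Vale.Agent.P019P.N019
end

end
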