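import Vale.Agent.N019.W3

/-!
# P019 for commuting pairs, part 4
-/

set_option linter.all false

section

attribute [local instance] AFast06608dx17a.a0 AFast06608dx17a.a1 AFast06608dx17a.a2
  AFast06608dx17a.a3 AFast06608dx17a.a4 AFast06608dx17a.a5 AFast06608dx17a.a6 AFast06608dx17a.a7
  AFast06608dx17a.a8 AFast06608dx17a.a9 AFast06608dx17a.a10 AFast06608dx17a.a11
  AFast06608dx17a.a12 AFast06608dx17a.a13 AFast06608dx17a.a14 AFast06608dx17a.a15
  AFast06608dx17a.a16 AFast06608dx17a.a17 AFast06608dx17a.a18 AFast06608dx17a.a19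
  AFast06608dx17a.a20 AFast06608dx17a.a21 AFast06608dx17a.a22 AFast06608dx17a.a23
attribute [local instance] AFast06608dx17b.a0 AFast06608dx17b.a1 AFast06608dx17b.a2
  AFast06608dx17b.a3 AFast06608dx17b.a4 AFast06608dx17b.a5 AFast06608dx17b.a6 AFast06608dx17b.a7
  AFast06608dx17b.a8
attribute [local instance] O19.fr O19.tf O19.pj O19.fl

section

/-!
# Transfer of places
-/

namespace Vale.Agent.P019P.N019

open Vale.Agent.P019

open Polynomial Filter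

variable {K L : Type*} [Field K] [Field L] [PerfectField K] [PerfectField L] {ℓ : ℕ}
  [Fact ℓ.Prime] [NeZero (ℓ : K)] [NeZero (ℓ : L)] {Θ : V ℓ K ≃ₗ[ZMod ℓ] V ℓ L}

/-- every place of the residue curve of `O` trivial on the residues of `l` comes from a place
of the residue curve of `W`, if the residue field of `k` is algebraic over a finite field. -/
theorem place_back {k : Subfield K} (hk : IsAlgClosed k)
    {l : Subfield L} (hl : IsAlgClosed l) (hfgl : FG l (⊤ : Subfield L)) (htd : Td l 2)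
    (hΘ : Compatible Θ) {W : ValuationSubring K} {f : V ℓ K →ₗ[ZMod ℓ] ZMod ℓ}
    (hW : Adp W f) (hWℓ : W.valuation (ℓ : K) = 1) (hfin : Fin' (rbar k W))
    (hCvW : Cv (rbarP k W)) {O : ValuationSubring L} (hT : TrA Θ W f O)
    (hOℓ : O.valuation (ℓ : L) = 1) (hCvO : Cv (rbarP l O))
    {ΘP : V ℓ (RFP W) ≃ₗ[ZMod ℓ] V ℓ (RFP O)}
    (hΘP : ResMapP ℓ Θ W O ΘP) {Q : ValuationSubring (RFP O)}
    (hQ : Q ∈ Plc (rbarP l O)) :
    ∃ P ∈ Plc (rbarP k W), ∀ v, ΘP v ∈ UC ℓ Q ↔ v ∈ UC ℓ P := by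
  have hnegK : ∃ i : K, i ^ ℓ = -1 := exists_neg hk
  have hnegL : ∃ i : L, i ^ ℓ = -1 := exists_neg hl
  haveI : NeZero (ℓ : RFP W) := rfp_neZero hWℓ
  haveI : NeZero (ℓ : RFP O) := rfp_neZero hOℓ
  obtain ⟨xc, hxc, -⟩ := hCvW.ex
  have hNC : NoCtr ℓ (IsLocalRing.ResidueField W) :=
    noCtr_rfp hWℓ (noCtr hCvW.ac hCvW.fg hxc)
  have hUC : ∀ v, v ∈ UC ℓ O ↔ f (Θ.symm v) = 0 := fun v =>
    TrA.uc hΘ hnegK hnegL hW hT hNC v
  -- the functional of `O`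
  have hone : f ∘ₗ Θ.symm.toLinearMap ≠ 0 := by
    intro h0
    apply hW.ne
    refine LinearMap.ext fun v => ?_
    have h1 := LinearMap.congr_fun h0 (Θ v)
    rw [LinearMap.comp_apply, LinearEquiv.coe_coe, LinearEquiv.symm_apply_apply] at h1
    exact h1
  obtain ⟨J, 𝒱, Qn, qn, ϖ, hϖ, hϖQ, hlim, hev⟩ :=
    appr_main hl hfgl htd hOℓ hCvO (fun v => (hUC v).symm) hone hQ
  obtain ⟨q, hq⟩ := r7_ulim 𝒱 qn
  have hqϖ : q (cl ℓ ϖ) = 1 := by
    obtain ⟨j, h1, h2⟩ := ((hq (cl ℓ ϖ)).and hev).exists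
    rw [← h1]
    exact h2.2.1
  -- transfer back
  have hback : ∀ j, ∃ A : ValuationSubring K,
      ((∀ z, (Qn j).valuation z = 1 → qn j (cl ℓ z) = 0) ∧ qn j (cl ℓ ϖ) = 1 ∧
        ∃ g₀ : L, ∀ i j' : ZMod ℓ, i • cl ℓ g₀ + j' • cl ℓ (1 - g₀) ∈ U1 ℓ (Qn j) →
          i = 0 ∧ j' = 0) → ∀ z, A.valuation z = 1 → qn j (Θ (cl ℓ z)) = 0 := by
    intro j
    by_cases hj : (∀ z, (Qn j).valuation z = 1 → qn j (cl ℓ z) = 0) ∧ qn j (cl ℓ ϖ) = 1 ∧
        ∃ g₀ : L, ∀ i j' : ZMod ℓ, i • cl ℓ g₀ + j' • cl ℓ (1 - g₀) ∈ U1 ℓ (Qn j) →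
          i = 0 ∧ j' = 0
    · obtain ⟨h1, -, g₀, h2⟩ := hj
      obtain ⟨A, hA, -⟩ := exists_transfer hΘ.symm hnegK (qn j) g₀ fun i j' hij =>
        h2 i j' (H_le_U1 hnegL (Qn j) (qn j) h1 hij)
      exact ⟨A, fun _ z hz => hA z hz⟩
    · exact ⟨⊤, fun h => absurd h hj⟩
  choose A hA using hback
  set B : ValuationSubring K := Vale.Agent.P019R.extLim 𝒱 A with hB
  have hBu : ∀ z, B.valuation z = 1 → q (Θ (cl ℓ z)) = 0 := by
    intro z hz
    obtain ⟨j, h1, h2, h3⟩ := ((r7_extLim_unit hz).and ((hq (Θ (cl ℓ z))).and hev)).exists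
    rw [← h2]
    exact hA j h3 z h1
  -- the limit functional kills the units of the composite ring
  have hqR : ∀ z : L, (comP O Q).valuation z = 1 → q (cl ℓ z) = 0 := by
    intro z hz
    obtain ⟨h0, h1, h2⟩ := apc_val_one.1 hz
    obtain ⟨j, h4, h5, h6, h7⟩ :=
      ((hlim z h1).and ((hlim _ h2).and ((hq (cl ℓ z)).and hev))).exists
    rw [← h6]
    exact h7.1 z (apc_val_one.2 ⟨h0, h4, h5⟩)
  have hqU1 : ∀ v ∈ U1 ℓ O, q v = 0 := by
    rintro _ ⟨m, hm, rfl⟩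
    apply hqR
    have h1 : rs O (1 + m) = 1 := by
      have h2 : m ∈ O := (O.valuation_le_one_iff m).1 hm.le
      rw [rs_add (one_mem _) h2, rs_one, (rs_eq_zero h2).2 hm, add_zero]
    exact r7_comP_unit (val_one_add hm) (by rw [rsP, h1, map_one, map_one])
  obtain ⟨qP, hqP⟩ := r7_ind hOℓ q hqU1
  have hqPu : ∀ c, Q.valuation c = 1 → qP (cl ℓ c) = 0 :=
    r7_units hOℓ fun z hz hz' => by
      rw [hqP z hz]
      exact hqR z (r7_comP_unit hz hz')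
  have hqPne : qP ≠ 0 := by
    intro h0
    have h1 := hqP ϖ hϖ
    rw [h0, LinearMap.zero_apply, hqϖ] at h1
    exact zero_ne_one h1
  obtain ⟨⟨πQ, hπQ⟩, -⟩ := hCvO.place hQ
  have hkerQ := apc_ker_of_unif hπQ qP hqPu hqPne
  -- the functional on `K`
  set g : V ℓ K →ₗ[ZMod ℓ] ZMod ℓ := q ∘ₗ Θ.toLinearMap with hg
  have hga : ∀ v, g v = q (Θ v) := fun v => rfl
  have hgU1 : ∀ v ∈ U1 ℓ W, g v = 0 := fun v hv => hqU1 _ ((hT.iff v).2 hv)
  obtain ⟨z₀, hz₀, hz₀'⟩ : ∃ z, W.valuation z = 1 ∧ g (cl ℓ z) = 1 := by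
    have h1 : f (Θ.symm (cl ℓ ϖ)) = 0 := (hUC _).1 (cl_mem_UC hϖ)
    obtain ⟨z, hz, hz'⟩ := mem_UC.1 ((hW.ker _).1 h1)
    refine ⟨z, hz, ?_⟩
    rw [hga, ← hz', LinearEquiv.apply_symm_apply, hqϖ]
  have hlt : B < W := cmp_le g hgU1 hBu ⟨z₀, hz₀, by rw [hz₀']; exact one_ne_zero⟩
  have hle : B ≤ W := hlt.le
  obtain ⟨P, hP⟩ := Vale.Agent.P019R.ext_exists (rf W) (apc_resVal hle)
  have hPmem : P ∈ Plc (rbarP k W) := by
    refine ⟨(r7_fin hfin).triv P, ?_⟩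
    intro htop
    apply hlt.not_ge
    intro z hz
    rw [← apc_mem_resVal hle hz, ← hP, ValuationSubring.mem_comap, htop]
    exact ValuationSubring.mem_top _
  obtain ⟨gP, hgP⟩ := r7_ind hWℓ g hgU1
  have hgPu : ∀ c, P.valuation c = 1 → gP (cl ℓ c) = 0 := by
    refine r7_units hWℓ fun z hz hz' => ?_
    rw [hgP z hz]
    apply hBu
    have h1 : (apc_resVal hle).valuation (rs W z) = 1 := by
      rw [← hP, Vale.Agent.P019R.ext_comap_eq_one]
      exact hz'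
    obtain ⟨-, h2, h3⟩ := apc_val_one.1 h1
    obtain ⟨h4, h5, h6⟩ := apc_val_one.1 hz
    rw [← rs_inv hz] at h3
    exact apc_val_one.2 ⟨h4, (apc_mem_resVal hle h5).1 h2, (apc_mem_resVal hle h6).1 h3⟩
  have hgPne : gP ≠ 0 := by
    intro h0
    have h1 := hgP z₀ hz₀
    rw [h0, LinearMap.zero_apply, hz₀'] at h1
    exact zero_ne_one h1
  obtain ⟨⟨πP, hπP⟩, -⟩ := hCvW.place hPmem
  have hkerP := apc_ker_of_unif hπP gP hgPu hgPne
  refine ⟨P, hPmem, fun v => ?_⟩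
  rw [hkerQ, hkerP]
  have hcomp : qP (ΘP v) = gP v := by
    obtain ⟨z, hz, rfl⟩ := rfp_cl hWℓ v
    have h1 : Θ (cl ℓ z) ∈ UC ℓ O := by
      rw [hUC, LinearEquiv.symm_apply_apply]
      exact (hW.ker _).2 (cl_mem_UC hz)
    obtain ⟨z', hz', hzz⟩ := mem_UC.1 h1
    rw [hΘP z z' hz hz' hzz, hqP z' hz', hgP z hz, hga, hzz]
  rw [hcomp]

end Vale.Agent.P019P.N019
end

section

/-!
# The degree bound for a single valuation
-/

namespace Vale.Agent.P019P.N019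

open Vale.Agent.P019

open Polynomial Filter

variable {K L : Type*} [Field K] [Field L] [PerfectField K] [PerfectField L] {ℓ : ℕ}
  [Fact ℓ.Prime] [NeZero (ℓ : K)] [NeZero (ℓ : L)] {Θ : V ℓ K ≃ₗ[ZMod ℓ] V ℓ L}

/-- the residue field of the transferred valuation is a curve and the degree bound. -/
theorem deg_point {k : Subfield K} (hk : IsAlgClosed k)
    {l : Subfield L} (hl : IsAlgClosed l) (hfgl : FG l (⊤ : Subfield L)) (htd : Td l 2)
    (hΘ : Compatible Θ) {W : ValuationSubring K} {f : V ℓ K →ₗ[ZMod ℓ] ZMod ℓ}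
    (hW : Adp W f) (hWℓ : W.valuation (ℓ : K) = 1) (hfin : Fin' (rbar k W))
    (hcv : Cv (rbarP k W)) {O : ValuationSubring L} (hT : TrA Θ W f O)
    (hOℓ : O.valuation (ℓ : L) = 1) {g : L} (hOg : O.valuation g = 1)
    (hgO : rsP O g ∉ rbarP l O) {G M : ℕ}
    (hG : ∀ g : ℕ, CurveRH ℓ (rbarP k W) g → g ≤ G) (s₀ : Finset L)
    (hs₀ : ∀ c ∈ s₀, c ∈ l ∧ c ∈ O) (hinj : Set.InjOn (rsP O) (s₀ : Set L))
    (hs5 : s₀.card = 5) (hy : ∀ c ∈ s₀, ∃ y : K, W.valuation y = 1 ∧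
      Θ (cl ℓ y) = cl ℓ (g - c) ∧ (rsP W y ∉ rbarP k W →
        Module.finrank (adj (rbarP k W) (rsP W y)) (RFP W) ≤ M)) :
    Cv (rbarP l O) ∧
      Module.finrank (adj (rbarP l O) (rsP O g)) (RFP O) ≤ 4 * G + 5 * (2 * M) := by
  classical
  haveI := rfp_neZero hWℓ
  haveI := rfp_neZero hOℓ
  have hnegK : ∃ i : K, i ^ ℓ = -1 := exists_neg hk
  have hnegL : ∃ i : L, i ^ ℓ = -1 := exists_neg hl
  obtain ⟨x₁, hx₁, -⟩ := hcv.ex
  have hNCP : NoCtr ℓ (RFP W) := noCtr hcv.ac hcv.fg hx₁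
  have hNC : NoCtr ℓ (IsLocalRing.ResidueField W) := noCtr_rfp hWℓ hNCP
  have huc := TrA.uc hΘ hnegK hnegL hW hT hNC
  have hgO' : rs O g ∉ rbar l O := fun h => hgO (rf_mem_rbarP.2 h)
  -- an element which is not a unit
  obtain ⟨ρ, hρ0, hρ⟩ : ∃ ρ : L, ρ ≠ 0 ∧ cl ℓ ρ ∉ UC ℓ O := by
    obtain ⟨v, hv⟩ : ∃ v, f v ≠ 0 := by
      by_contra hcon
      push Not at hcon
      exact hW.ne (LinearMap.ext hcon)
    obtain ⟨ρ, hρ0, hρ⟩ := cl_surj ℓ (Θ v)
    refine ⟨ρ, hρ0, fun h => hv ?_⟩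
    have h1 := (huc _).1 h
    rwa [hρ, LinearEquiv.symm_apply_apply] at h1
  have hcvO : Cv (rbarP l O) := abh_cv hl hfgl htd hρ0 (not_torsion hl hρ0 hρ) hgO'
  refine ⟨hcvO, ?_⟩
  obtain ⟨ΘP, hΘP, hres⟩ := TrA.resP hΘ hnegK hnegL hW hT hWℓ hOℓ hNCP
  obtain ⟨g₁, hrh1, hcc1⟩ := exists_curve_any (ℓ := ℓ) hcv
  obtain ⟨g₂, hrh2, hcc2⟩ := exists_curve_any (ℓ := ℓ) hcvO
  have hQ : ∀ Q ∈ Plc (rbarP l O), ∃ P ∈ Plc (rbarP k W), ∀ v, ΘP v ∈ UC ℓ Q ↔ v ∈ UC ℓ P :=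
    fun Q hQ => place_back hk hl hfgl htd hΘ hW hWℓ hfin hcv hT hOℓ hcvO hres hQ
  have key := deg_abs (Θ' := ΘP) hcv hcvO hcc1 hcc2 hrh2 hQ hgO (s₀.image (rsP O))
    (fun c hc => by
      obtain ⟨c', hc', rfl⟩ := Finset.mem_image.1 hc
      exact rsP_mem_rbarP (hs₀ c' hc').1 (hs₀ c' hc').2)
    (by rw [Finset.card_image_of_injOn hinj, hs5]) (M := M)
    (fun c hc => by
      obtain ⟨c', hc', rfl⟩ := Finset.mem_image.1 hc
      obtain ⟨z, hz, hzc, hzM⟩ := hy c' hc'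
      have hc'O : c' ∈ O := (hs₀ c' hc').2
      have hgc : O.valuation (g - c') = 1 := by
        rw [← rsP_ne_zero (sub_mem (mem_of_val hOg) hc'O), rsP_sub (mem_of_val hOg) hc'O,
          sub_ne_zero]
        intro h
        exact hgO (h ▸ rsP_mem_rbarP (hs₀ c' hc').1 hc'O)
      refine ⟨rsP W z, (rsP_ne_zero (mem_of_val hz)).2 hz, ?_, hzM⟩
      rw [hres z (g - c') hz hgc hzc, rsP_sub (mem_of_val hOg) hc'O])
  have hg₁ := hG g₁ hrh1
  omega

end Vale.Agent.P019P.N019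
end

section

/-!
# Limits of transferred valuations which may be nontrivial on the constants
-/

namespace Vale.Agent.P019P.N019

open Vale.Agent.P019

open Polynomial Filter

variable {K L : Type*} [Field K] [Field L] [PerfectField K] [PerfectField L] {ℓ : ℕ}
  [Fact ℓ.Prime] [NeZero (ℓ : K)] [NeZero (ℓ : L)] {Θ : V ℓ K ≃ₗ[ZMod ℓ] V ℓ L}
  {k : Subfield K} {l : Subfield L} {t : K} {I : Type*} {U : Ultrafilter I}
  {O : I → ValuationSubring L}

/-- if only classes of `k(t)` die in almost all residue fields, the limit is trivial. -/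
theorem ulu_gen (hk : IsAlgClosed k) (hfgk : FG k (⊤ : Subfield K)) (hl : IsAlgClosed l)
    (hfgl : FG l (⊤ : Subfield L)) (hΘ : Compatible Θ)
    (htrl : ∃ x y : L, x ∉ l ∧ ¬ IsAlgebraic (adj l x) y) (ht : Good k t)
    (hker : ∀ v, (∀ᶠ i in U, Θ v ∈ U1 ℓ (O i)) → v ∈ VS ℓ (adj k t)) : Ulu U O := by
  intro z hz
  by_contra hcon
  let v := (uVal U O).valuation.comap (gc U : L →+* Gm U L)
  have hv : ∀ w : L, v w = (uVal U O).valuation (gm U fun _ => w) := fun w => rfl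
  have hv1 : v z ≠ 1 := by
    intro h
    rw [hv, uVal_eq_one] at h
    exact hcon h
  have hcls : ∀ y : L, v y < 1 → Θ.symm (cl ℓ (1 + y)) ∈ VS ℓ (adj k t) := by
    intro y hy
    rw [hv, uVal_lt_one] at hy
    refine hker _ (hy.mono fun i hi => ?_)
    rw [LinearEquiv.apply_symm_apply]
    exact cl_mem_U1 hi
  have horth : ∀ y y' : L, v y < 1 → v y' < 1 → Orth (cl ℓ (1 + y)) (cl ℓ (1 + y')) := by
    intro y y' hy hy'
    have h3 := adj_isotropic (ℓ := ℓ) hk ht.1 _ (hcls y hy) _ (hcls y' hy')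
    have h4 := hΘ.orth h3
    rwa [LinearEquiv.apply_symm_apply, LinearEquiv.apply_symm_apply] at h4
  rcases lt_or_gt_of_ne hv1 with h | h
  · exact aeu_main hl hfgl htrl v horth hz h
  · refine aeu_main hl hfgl htrl v horth (inv_ne_zero hz) ?_
    rw [map_inv₀]
    exact inv_lt_one_of_one_lt₀ h

/-- an element `h` which is constant modulo almost all `O i`. -/
theorem case_gen (hk : IsAlgClosed k) (hfgk : FG k (⊤ : Subfield K)) (hl : IsAlgClosed l)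
    (hfgl : FG l (⊤ : Subfield L)) (hΘ : Compatible Θ)
    (htrl : ∃ x y : L, x ∉ l ∧ ¬ IsAlgebraic (adj l x) y) (ht : Good k t) (hu : Ulu U O)
    (hker : ∀ v, (∀ᶠ i in U, Θ v ∈ U1 ℓ (O i)) → v ∈ VS ℓ (adj k t))
    {h : L} (hh : h ∉ l) {c : I → L} (hc : ∀ i, c i ∈ l)
    (hhc : ∀ᶠ i in U, (O i).valuation (h - c i) < 1) :
    ∃ E : Subfield L, Crv l E ∧ ∀ v, Θ v ∈ VS ℓ E ↔ v ∈ VS ℓ (adj k t) := by
  classical
  have hℓ : 0 < ℓ := (Fact.out : ℓ.Prime).pos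
  set P := ulP U O with hP
  set j := hu.j with hj
  set A : Subfield (Gm U L) := uSub U (fun _ => l) with hA
  set Bs := (rbar A (uVal U O)).map (algebraMap (IsLocalRing.ResidueField (uVal U O))
      (AlgebraicClosure (IsLocalRing.ResidueField (uVal U O)))) with hBs
  have hBsac : IsAlgClosed Bs :=
    r12a_closed_map _ (rbar_ac (isAlgClosed_uSub (E := fun _ => l) fun _ => hl :
      IsAlgClosed (uSub U (fun _ => l))) (uVal U O))
  have hBsR : RAC Bs := RAC_of_isAlgClosed Bs hBsac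
  haveI : PerfectField Bs := perfect_of_RAC hBsR
  have hmem : ∀ z : Gm U L, z ∈ A → z ∈ uVal U O → P.ev z ∈ Bs := by
    intro z hz hz'
    rw [hP, r12a_ev hz']
    exact ⟨_, rs_mem_rbar hz hz', rfl⟩
  have hlB : l.map j ≤ Bs := by
    rintro _ ⟨x, hx, rfl⟩
    exact hmem _ (gc_mem_uSub hx) (hu.gc_mem x)
  have hval : ∀ x : L, ∀ᶠ i in U, x ∈ O i := by
    intro x
    by_cases hx : x = 0
    · rw [hx]; exact Eventually.of_forall fun i => (O i).zero_mem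
    · exact (hu x hx).mono fun i hi => ((O i).valuation_le_one_iff x).1 hi.le
  have hcO : ∀ᶠ i in U, c i ∈ O i := by
    filter_upwards [hval h, hhc] with i h1 h2
    have h3 : c i = h - (h - c i) := by ring
    rw [h3]
    exact (O i).sub_mem h1 (((O i).valuation_le_one_iff _).1 h2.le)
  have hhB : j h ∈ Bs := by
    have h2 : P.ev (gm U (fun _ => h)) = P.ev (gm U c) := by
      rw [ulP_ev_eq (hval h) hcO]
      exact hhc
    have h3 : j h = P.ev (gm U c) := h2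
    rw [h3]
    exact hmem _ ⟨_, rfl, hc⟩ (gm_mem_uVal.2 hcO)
  have hE : ∀ e ∈ rac (adj l h), j e ∈ Bs := by
    intro e he
    apply hBsR
    refine isAlgebraic_mono ?_ (isAlgebraic_map j (mem_rac.1 he))
    exact (map_adj_le j _ _).trans (adj_le hlB hhB)
  have hVE : ∀ v ∈ VS ℓ (rac (adj l h)), Θ.symm v ∈ VS ℓ (adj k t) := by
    rintro _ ⟨e, he, he0, rfl⟩
    refine hker _ ?_
    rw [LinearEquiv.apply_symm_apply]
    obtain ⟨_, ⟨_, ⟨f, rfl, hf⟩, hfO, rfl⟩, hy⟩ := hE e he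
    have hfO' := gm_mem_uVal.1 hfO
    have h2 : P.ev (gm U (fun _ => e)) = P.ev (gm U f) := by
      rw [hP, r12a_ev hfO]
      exact hy.symm
    rw [ulP_ev_eq (hval e) hfO'] at h2
    filter_upwards [h2, hu e he0] with i hi1 hi2
    have h4 : (O i).valuation (f i) = 1 := by
      have h5 : f i = e + -(e - f i) := by ring
      have h6 : (O i).valuation (-(e - f i)) < (O i).valuation e := by
        rw [Valuation.map_neg, hi2]
        exact hi1
      rw [h5, Valuation.map_add_eq_of_lt_left _ h6, hi2]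
    have h3 := cl_sub_cl_mem_U1 (ℓ := ℓ) h4 hi1
    rwa [cl_const hl hℓ (hf i), sub_zero] at h3
  obtain ⟨y, hy⟩ := aeu_indep hl htrl h
  refine ⟨rac (adj l h), ⟨(le_adj _ _).trans (le_rac _), RAC_rac _, h,
    le_rac _ (mem_adj _ _), hh, fun z hz => mem_rac.1 hz⟩, fun v => ⟨fun hv => ?_, fun hv => ?_⟩⟩
  · have h1 := hVE _ hv
    rwa [LinearEquiv.symm_apply_apply] at h1
  · refine k2 hl hfgl hh hy ?_
    refine (infinite_of_isAlgClosed hl).mono fun β hβ => ⟨hβ, ?_⟩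
    have h1 : cl ℓ (h - β) ∈ VS ℓ (rac (adj l h)) :=
      cl_mem_VS (Subfield.sub_mem _ (le_rac _ (mem_adj _ _))
        (le_rac _ (le_adj _ _ hβ)))
    have h2 := adj_isotropic (ℓ := ℓ) hk ht.1 _ hv _ (hVE _ h1)
    have h3 := hΘ.orth h2
    rwa [LinearEquiv.apply_symm_apply] at h3

end Vale.Agent.P019P.N019
end

section

/-!
# Step A for surfaces over arbitrary algebraically closed fields
-/

namespace Vale.Agent.P019P.N019

open Vale.Agent.P019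

open Polynomial Filter

variable {K L : Type*} [Field K] [Field L] [PerfectField K] [PerfectField L] {ℓ : ℕ}
  [Fact ℓ.Prime] [NeZero (ℓ : K)] [NeZero (ℓ : L)] {Θ : V ℓ K ≃ₗ[ZMod ℓ] V ℓ L}

theorem stepA2g {k : Subfield K} (hk : IsAlgClosed k) (hfgk : FG k (⊤ : Subfield K))
    {l : Subfield L} (hl : IsAlgClosed l) (hfgl : FG l (⊤ : Subfield L))
    (hΘ : Compatible Θ) {t₀ s₀ : K} (hK : Srf k t₀ s₀) {x y : L} (hL : Srf l x y)
    {t : K} (ht : Good k t) : ∃ E : Subfield L, Crv l E ∧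
      ∀ v, Θ v ∈ VS ℓ E ↔ v ∈ VS ℓ (adj k t) := by
  classical
  have htk : ¬ IsAlgebraic k t := fun h => ht.1 (RAC_of_isAlgClosed k hk t h)
  obtain ⟨s, hs, hs'⟩ := rsb_exch hK htk
  have hfr0 : Frame k k s t := ⟨le_rfl, hK.fg, hs, htk, hs'⟩
  have hfr : Frame k k t s := hfr0.swap
  have htrl : ∃ x y : L, x ∉ l ∧ ¬ IsAlgebraic (adj l x) y :=
    ⟨y, x, fun h => hL.ss (isAlgebraic_of_mem h), hL.tt⟩
  have htd : Td l 2 := hL.td hl
  -- the bottom family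
  obtain ⟨I, U, W, c, hB0, hu⟩ := exists_bot hk hfr
  obtain ⟨θ, hθ⟩ := exists_botT hk hfgk ht hfr hB0 hu
  have hWℓ : ∀ᶠ i in U, (W i).valuation (ℓ : K) = 1 := hu _ (NeZero.ne _)
  have hex : ∀ᶠ i in U, ∃ fO : (V ℓ K →ₗ[ZMod ℓ] ZMod ℓ) × ValuationSubring L,
      Adp (W i) fO.1 ∧ TrA Θ (W i) fO.1 fO.2 ∧ Cv (rbarP k (W i)) := by
    filter_upwards [hθ, hWℓ] with i h1 h2
    obtain ⟨f, hf, -⟩ := h1.fn ℓ hk
    have hcv := h1.cv hk hfgk hfr
    obtain ⟨g₀, hg₀⟩ := exists_nrU h2 hcv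
    obtain ⟨O, hO⟩ := exists_trA hΘ (exists_neg hk) (exists_neg hl) hf hg₀
    exact ⟨⟨f, O⟩, hf, hO, hcv⟩
  obtain ⟨fO, hfO⟩ := hex.choice
  set O : I → ValuationSubring L := fun i => (fO i).2 with hOdef
  have hker : ∀ v, (∀ᶠ i in U, Θ v ∈ U1 ℓ (O i)) → v ∈ VS ℓ (adj k t) := by
    intro v hv
    refine bot_mem hk hfgk ht hfr hθ hu ?_
    filter_upwards [hv, hfO] with i h1 h2
    exact (h2.2.1.iff v).1 h1
  have huO : Ulu U O := ulu_gen hk hfgk hl hfgl hΘ htrl ht hker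
  have hOℓ : ∀ᶠ i in U, (O i).valuation (ℓ : L) = 1 := huO _ (NeZero.ne _)
  by_cases hcase : ∃ h : L, h ∉ l ∧ ∃ c : I → L, (∀ i, c i ∈ l) ∧
      ∀ᶠ i in U, (O i).valuation (h - c i) < 1
  · obtain ⟨h, hh, c', hc, hhc⟩ := hcase
    exact case_gen hk hfgk hl hfgl hΘ htrl ht huO hker hh hc hhc
  exfalso
  apply hcase
  have hnot : ∀ g : L, g ∉ l → ∀ᶠ i in U, rsP (O i) g ∉ rbarP l (O i) := by
    intro g hg
    rw [Ultrafilter.eventually_not]
    intro h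
    obtain ⟨c', hc, hc'⟩ := huO.const_iffG.1 h
    exact hcase ⟨g, hg, c', hc, hc'⟩
  have hmem : ∀ g : L, ∀ᶠ i in U, g ∈ O i := by
    intro g
    by_cases h0 : g = 0
    · rw [h0]; exact Eventually.of_forall fun i => (O i).zero_mem
    · exact (huO g h0).mono fun i hi => mem_of_val hi
  -- five constants
  obtain ⟨S, hSl, hSc⟩ : ∃ S : Finset L, (∀ c ∈ S, c ∈ l) ∧ S.card = 5 := by
    obtain ⟨S, hS1, hS2⟩ := (infinite_of_isAlgClosed hl).exists_subset_card_eq 5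
    exact ⟨S, fun c hc => hS1 hc, hS2⟩
  have hSO : ∀ᶠ i in U, ∀ c ∈ S, c ∈ O i := by
    rw [Filter.eventually_all_finset]
    exact fun c _ => hmem c
  have hSinj : ∀ᶠ i in U, Set.InjOn (rsP (O i)) (S : Set L) := by
    have h1 : ∀ᶠ i in U, ∀ c ∈ S, ∀ c' ∈ S, c ≠ c' → (O i).valuation (c - c') = 1 := by
      rw [Filter.eventually_all_finset]
      intro c _
      rw [Filter.eventually_all_finset]
      intro c' _
      by_cases h : c = c'
      · exact Eventually.of_forall fun i h2 => absurd h h2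
      · exact (huO _ (sub_ne_zero.2 h)).mono fun i hi _ => hi
    filter_upwards [h1, hSO] with i h2 h3 c hc c' hc' hcc
    by_contra hne
    have h4 := (rsP_ne_zero (sub_mem (h3 c hc) (h3 c' hc'))).2 (h2 c hc c' hc' hne)
    rw [rsP_sub (h3 c hc) (h3 c' hc'), hcc, sub_self] at h4
    exact h4 rfl
  obtain ⟨G, hG⟩ := bot_gen (ℓ := ℓ) hk hfgk hfr hθ hu
  have hdeg : ∀ g : L, g ∉ l → ∃ d : ℕ, ∀ᶠ i in U, rsP (O i) g ∉ rbarP l (O i) ∧
      Module.Finite (adj (rbarP l (O i)) (rsP (O i) g)) (RFP (O i)) ∧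
      Module.finrank (adj (rbarP l (O i)) (rsP (O i) g)) (RFP (O i)) ≤ d := by
    intro g hg
    have hg0 : g ≠ 0 := fun h => hg (h ▸ l.zero_mem)
    choose z hz0 hz using fun c : L => cl_surj ℓ (Θ.symm (cl ℓ (g - c)))
    choose M hM using fun c : L => bot_deg hk hfgk hfr hθ hu (hz0 c)
    refine ⟨4 * G + 5 * (2 * S.sup M), ?_⟩
    have hM' : ∀ᶠ i in U, ∀ c ∈ S, (W i).valuation (z c) = 1 ∧
        (rsP (W i) (z c) ∉ rbarP k (W i) →
        Module.finrank (adj (rbarP k (W i)) (rsP (W i) (z c))) (RFP (W i)) ≤ M c) := by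
      rw [Filter.eventually_all_finset]
      exact fun c _ => hM c
    filter_upwards [hM', hnot g hg, huO g hg0, hfO, hWℓ, hOℓ, hSO, hSinj, hG]
      with i h1 h2 h3 h4 h5 h6 h7 h8 h9
    obtain ⟨hcvO, hdeg⟩ := deg_point (M := S.sup M) hk hl hfgl htd hΘ h4.1 h5 (hB0 i).fin
      h4.2.2 h4.2.1 h6 h3 h2 h9 S (fun c hc => ⟨hSl c hc, h7 c hc⟩) h8 hSc (fun c hc =>
        ⟨z c, (h1 c hc).1, by rw [hz, LinearEquiv.apply_symm_apply],
          fun h => ((h1 c hc).2 h).trans (Finset.le_sup hc)⟩)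
    exact ⟨h2, hcvO.finite h2, hdeg⟩
  -- the transcendence basis
  have hyl : y ∉ l := fun h => hL.ss (isAlgebraic_of_mem h)
  have hxy' : ∀ z, IsAlgebraic (adj l y) (y + z) → IsAlgebraic (adj l y) z := by
    intro z hz
    have h1 : IsAlgebraic (adj l y) (y + z - y) :=
      hz.sub (isAlgebraic_of_mem (mem_adj l y))
    rwa [add_sub_cancel_left] at h1
  have hxl : ¬ IsAlgebraic l x := fun h => hL.tt (isAlgebraic_mono (le_adj l y) h)
  have hyx : ¬ IsAlgebraic (adj l x) y := fun h => hL.tt (exchange hL.ss h)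
  have hsl : y + x ∉ l := fun h => hL.tt (hxy' x (isAlgebraic_of_mem (le_adj l y h)))
  have hxl' : x ∉ l := fun h => hxl (isAlgebraic_of_mem h)
  obtain ⟨d1, hd1⟩ := hdeg y hyl
  obtain ⟨d2, hd2⟩ := hdeg x hxl'
  obtain ⟨d3, hd3⟩ := hdeg (y + x) hsl
  set d := max d1 (max d2 d3) with hd
  have h1d : d1 ≤ d := le_max_left _ _
  have h2d : d2 ≤ d := (le_max_left _ _).trans (le_max_right _ _)
  have h3d : d3 ≤ d := (le_max_right _ _).trans (le_max_right _ _)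
  have hrel : ∀ᶠ i in U, BRel (rbarP l (O i)) d (rsP (O i) y) (rsP (O i) x) ∨
      (BRel (rbarP l (O i)) d (rsP (O i) y) (rsP (O i) (y + x)) ∨
        BRel (rbarP l (O i)) d (rsP (O i) x) (rsP (O i) (y + x))) := by
    filter_upwards [hd1, hd2, hd3, hmem y, hmem x] with i h1 h2 h3 h4 h5
    have h6 := rsP_add h4 h5
    rw [h6] at h3 ⊢
    exact exists_brel (rbarP_ac hl _) ⟨h1.1, h1.2.1, h1.2.2.trans h1d⟩
      ⟨h2.1, h2.2.1, h2.2.2.trans h2d⟩ ⟨h3.1, h3.2.1, h3.2.2.trans h3d⟩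
  -- the classes
  have hX : ∀ z ∈ {z : L | z ≠ 0 ∧ Θ.symm (cl ℓ z) ∈ VS ℓ (adj k t)}, z ≠ 0 ∧
      ∀ᶠ i in U, cl ℓ z ∈ U1 ℓ (O i) := by
    rintro z ⟨hz0, hz⟩
    refine ⟨hz0, ?_⟩
    have h1 := bot_of_mem hk ht.1 hB0 hu hz
    filter_upwards [h1, hfO] with i h2 h3
    have h4 := (h3.2.1.iff _).2 h2
    rwa [LinearEquiv.apply_symm_apply] at h4
  have hinf := sa_inf (Θ := Θ) hk ht
  have hspec : ∀ (y1 y2 : L) (d0 : ℕ), ¬ IsAlgebraic l y1 → ¬ IsAlgebraic (adj l y1) y2 →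
      (∀ z : L, IsAlgebraic (adj (adj l y1) y2) z) →
      (∀ᶠ i in U, rsP (O i) y1 ∉ rbarP l (O i) ∧
      Module.Finite (adj (rbarP l (O i)) (rsP (O i) y1)) (RFP (O i)) ∧
      Module.finrank (adj (rbarP l (O i)) (rsP (O i) y1)) (RFP (O i)) ≤ d0) →
      (∀ᶠ i in U, BRel (rbarP l (O i)) d (rsP (O i) y1) (rsP (O i) y2)) →
      ∃ h : L, h ∉ l ∧ ∃ c : I → L, (∀ i, c i ∈ l) ∧
        ∀ᶠ i in U, (O i).valuation (h - c i) < 1 := fun y1 y2 d0 h1 h2 halg h4 h5 =>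
    huO.specialG hl hfgl h1 h2 halg (h4.mono fun i hi _ => hi.2) h5 hX hinf
  have hle1 : adj (adj l y) x ≤ adj (adj l y) (y + x) := by
    refine adj_le (le_adj _ _) ?_
    have h1 := Subfield.sub_mem _ (mem_adj (adj l y) (y + x))
      (le_adj (adj l y) (y + x) (mem_adj l y))
    rwa [add_sub_cancel_left] at h1
  have hle2 : adj (adj l y) x ≤ adj (adj l x) (y + x) := by
    refine adj_le (adj_le ((le_adj l x).trans (le_adj _ _)) ?_) (le_adj _ _ (mem_adj l x))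
    have h1 := Subfield.sub_mem _ (mem_adj (adj l x) (y + x))
      (le_adj (adj l x) (y + x) (mem_adj l x))
    rwa [add_sub_cancel_right] at h1
  rw [Ultrafilter.eventually_or, Ultrafilter.eventually_or] at hrel
  rcases hrel with h | h | h
  · exact hspec y x d1 hL.ss hL.tt hL.alg hd1 h
  · exact hspec y (y + x) d1 hL.ss (fun h' => hL.tt (hxy' x h'))
      (fun z => isAlgebraic_mono hle1 (hL.alg z)) hd1 h
  · refine hspec x (y + x) d2 hxl (fun h' => hyx ?_)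
      (fun z => isAlgebraic_mono hle2 (hL.alg z)) hd2 h
    have h1 : IsAlgebraic (adj l x) (y + x - x) :=
      h'.sub (isAlgebraic_of_mem (mem_adj l x))
    rwa [add_sub_cancel_right] at h1

end Vale.Agent.P019P.N019
end

section

/-!
# The transcendence degree does not drop
-/

namespace Vale.Agent.P019P.N019

open Vale.Agent.P019

open Polynomial Filter

universe u v

/-- an element whose class corresponds to a uniformizer is not commensurable with the values of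
the constants. -/
theorem r14_rho {K : Type u} {M : Type v} [Field K] [Field M] [PerfectField K]
    {ℓ : ℕ} [Fact ℓ.Prime] [NeZero (ℓ : K)] {Θ : V ℓ K ≃ₗ[ZMod ℓ] V ℓ M}
    {l : Subfield M} (hl : IsAlgClosed l) (hΘ : Compatible Θ)
    (hnegK : ∃ i : K, i ^ ℓ = -1) (hnegL : ∃ i : M, i ^ ℓ = -1)
    {W : ValuationSubring K} {π : K} (hW : IsUnif W π) {O : ValuationSubring M}
    (hT : TrA Θ W (hW.fn ℓ) O) (hNC : NoCtr ℓ (IsLocalRing.ResidueField W)) :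
    ∃ ρ : M, ρ ≠ 0 ∧
      ∀ a ∈ l, a ≠ 0 → ∀ i : ℤ, O.valuation (a * ρ ^ i) = 1 → i = 0 := by
  obtain ⟨ρ, hρ0, hρ⟩ := cl_surj ℓ (Θ (cl ℓ π))
  refine ⟨ρ, hρ0, not_torsion hl (ℓ := ℓ) hρ0 fun h => ?_⟩
  have h1 := (TrA.uc hΘ hnegK hnegL (hW.adp hnegK) hT hNC (cl ℓ ρ)).1 h
  rw [hρ, LinearEquiv.symm_apply_apply, hW.fn_self ℓ] at h1
  exact one_ne_zero h1

/-- the transcendence degree does not drop under compatible isomorphisms. -/
theorem dim_ge' {ℓ : ℕ} [Fact ℓ.Prime] (n : ℕ) : ∀ {K : Type u} {M : Type v} [Field K] [Field M]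
    [PerfectField K] [NeZero (ℓ : K)] {k : Subfield K}
    (_ : IsAlgClosed k) (_ : FG k (⊤ : Subfield K)) {l : Subfield M} (_ : IsAlgClosed l)
    {Θ : V ℓ K ≃ₗ[ZMod ℓ] V ℓ M} (_ : Compatible Θ) (_ : Td k n),
    ∃ B : Finset M, B.card = n ∧ Indp l B := by
  induction n with
  | zero =>
    intro K M _ _ _ _ k hk hfg l hl Θ hΘ hTd
    exact ⟨∅, Finset.card_empty, fun S _ v hv => absurd hv (Finset.notMem_empty v)⟩
  | succ n ih =>
    intro K M _ _ _ _ k hk hfg l hl Θ hΘ hTd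
    classical
    haveI := hk
    haveI := hl
    obtain ⟨t, ht⟩ : ∃ t : K, t ∉ k := by
      obtain ⟨B, hBc, hB, -⟩ := id hTd
      obtain ⟨t, ht⟩ : B.Nonempty := by
        rw [← Finset.card_pos, hBc]
        exact Nat.succ_pos n
      exact ⟨t, e1_notMem hB ht⟩
    rcases Nat.eq_zero_or_pos n with hn | hn
    · obtain ⟨y, hy⟩ := e1_exists hk hfg hl Θ ht
      exact ⟨{y}, by rw [Finset.card_singleton, hn], e1_indp_single hl hy⟩
    · obtain ⟨B, hBc, hB, htB, halg, -⟩ := hTd.exists_basis hk hfg ht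
      have hBne : B.Nonempty := by
        rw [← Finset.card_pos, hBc]
        exact hn
      obtain ⟨θ, hθ⟩ := exists_over_nice hk hfg hB htB halg
      haveI := ae_neBot_of_isAlgClosed hk
      obtain ⟨b, ⟨W, hWo⟩, hNb⟩ := hθ.exists
      have hN := hNb W hWo
      have hWk : TrivOn W k := hN.triv.mono (le_gsp k B)
      obtain ⟨y, hy⟩ := id hBne
      haveI := gsp_perfect k B
      have hnegK : ∃ i : K, i ^ ℓ = -1 := e1_neg_one hk (Fact.out : ℓ.Prime).pos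
      have hnegL : ∃ i : M, i ^ ℓ = -1 := e1_neg_one hl (Fact.out : ℓ.Prime).pos
      have hyk : y ∉ k := e1_notMem hB hy
      have hyW : TrivOn W (adj k y) := hN.triv.mono (adj_le (le_gsp k B) (mem_gsp hy))
      have hfin := hN.finite (ℓ := ℓ) hk (le_gsp k B) (gsp_fg k B) (le_adj k y) hyW
      obtain ⟨g₀, -, hg₀⟩ := exists_nr' hk hfg hyk hfin
      obtain ⟨O, hT⟩ := exists_trA hΘ hnegK hnegL (hN.unif.adp (ℓ := ℓ) hnegK) hg₀
      have hNC := e1_noCtr (ℓ := ℓ) hk hB hBne hN hWk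
      obtain ⟨Θ', hΘ', -⟩ := TrA.res hΘ hnegK hnegL (hN.unif.adp (ℓ := ℓ) hnegK) hT hNC
      haveI := rs_perfect hWk
      haveI := rs_neZero (ℓ := ℓ) hWk
      have htd := Nice.td hB hN hWk
      rw [hBc] at htd
      obtain ⟨B1, hB1c, hB1⟩ := ih (bar_isAlgClosed hWk hk) htd.2 (rbar_ac hl O) hΘ' htd.1
      obtain ⟨ρ, hρ0, hρ⟩ := r14_rho hl hΘ hnegK hnegL hN.unif hT hNC
      obtain ⟨B', hB'c, hB'⟩ := abh_lift hl hρ0 hρ hB1
      exact ⟨B', by rw [hB'c, hB1c], hB'⟩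

/-- the residue fields of transferred valuations. -/
theorem res_td' {K : Type u} {L : Type v} [Field K] [Field L] [PerfectField K] [PerfectField L]
    {ℓ : ℕ} [Fact ℓ.Prime] [NeZero (ℓ : K)] [NeZero (ℓ : L)] {Θ : V ℓ K ≃ₗ[ZMod ℓ] V ℓ L}
    {k : Subfield K} (hk : IsAlgClosed k) (hfgk : FG k (⊤ : Subfield K)) {l : Subfield L}
    (hl : IsAlgClosed l) (hfgl : FG l (⊤ : Subfield L)) (hΘ : Compatible Θ)
    {B : Finset K} (hB : Indp k B) (hBne : B.Nonempty) (hL : Td l (B.card + 1))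
    {W : ValuationSubring K} {π θ : K} (hW : Nice W (gsp k B) π θ)
    {O : ValuationSubring L} (hT : Tr Θ W π O) :
    Td (rbarP l O) B.card ∧ FG (rbarP l O) (⊤ : Subfield (RFP O)) := by
  classical
  haveI := hk
  haveI := hl
  have hWk : TrivOn W k := hW.triv.mono (le_gsp k B)
  have hnegK : ∃ i : K, i ^ ℓ = -1 := e1_neg_one hk (Fact.out : ℓ.Prime).pos
  have hnegL : ∃ i : L, i ^ ℓ = -1 := e1_neg_one hl (Fact.out : ℓ.Prime).pos
  have hTA : TrA Θ W (hW.unif.fn ℓ) O := ⟨hT.unit hW.unif, hT.iff⟩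
  have hNC := e1_noCtr (ℓ := ℓ) hk hB hBne hW hWk
  obtain ⟨Θ', hΘ', -⟩ := TrA.res hΘ hnegK hnegL (hW.unif.adp (ℓ := ℓ) hnegK) hTA hNC
  haveI := rs_perfect hWk
  haveI := rs_neZero (ℓ := ℓ) hWk
  have htd := Nice.td hB hW hWk
  obtain ⟨B1, hB1c, hB1⟩ := dim_ge' B.card (bar_isAlgClosed hWk hk) htd.2 (rbar_ac hl O) hΘ' htd.1
  obtain ⟨ρ, hρ0, hρ⟩ := r14_rho hl hΘ hnegK hnegL hW.unif hTA hNC
  exact abh_fg hl hfgl hL hρ0 hρ hB1c hB1

end Vale.Agent.P019P.N019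
end

section

/-!
# Step A by induction, transferred valuations possibly nontrivial on the constants
-/

namespace Vale.Agent.P019P.N019

open Vale.Agent.P019

open Polynomial Filter

variable {K L : Type*} [Field K] [Field L] [PerfectField K] [PerfectField L] {ℓ : ℕ}
  [Fact ℓ.Prime] [NeZero (ℓ : K)] [NeZero (ℓ : L)] {Θ : V ℓ K ≃ₗ[ZMod ℓ] V ℓ L}

/-- Step A, assuming that the theorem holds for the residue fields. -/
theorem stepAn_gen {k : Subfield K} (hk : IsAlgClosed k) (hfgk : FG k (⊤ : Subfield K))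
    {l : Subfield L} (hl : IsAlgClosed l) (hfgl : FG l (⊤ : Subfield L)) (hΘ : Compatible Θ)
    {B : Finset K} (hB : Indp k B) (hBne : B.Nonempty) {t : K} (htg : Good k t)
    (ht : ¬ IsAlgebraic (gsp k B) t) (halg : ∀ z : K, IsAlgebraic (adj (gsp k B) t) z)
    (hL : Td l (B.card + 1))
    (hIH : ∀ᶠ b in ae k, ∀ W : ValuationSubring K, Over W (gsp k B) t b →
      ∃ O : ValuationSubring L, Tr Θ W (t - b) O ∧
        (O.valuation (ℓ : L) = 1 → ResIsoG ℓ Θ k l W O)) :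
    ∃ E : Subfield L, Crv l E ∧ ∀ v, Θ v ∈ VS ℓ E ↔ v ∈ VS ℓ (adj k t) := by
  classical
  haveI : PerfectField k := inferInstance
  have hF : RatF k (gsp k B) := hB.ratF
  have hkF : k ≤ gsp k B := le_gsp k B
  have htrl := e5_trl (Finset.card_pos.2 hBne) hL
  haveI : NeZero (ℓ : AlgebraicClosure K) := ⟨by
    rw [← map_natCast (algebraMap K (AlgebraicClosure K)), Ne, map_eq_zero]
    exact NeZero.ne (ℓ : K)⟩
  obtain ⟨θ, hθ⟩ := exists_over_nice hk hfgk hB ht halg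
  have hIH' : ∀ᶠ b in ae k, ∀ W : ValuationSubring K, Over W (gsp k B) t b →
      ∃ O : ValuationSubring L, Tr Θ W (t - b) O ∧ ResIsoG ℓ Θ k l W O := by
    filter_upwards [hIH, ae_unit hk hfgk hl hfgl hΘ htrl hF htg ht halg
      (z := (ℓ : L)) (NeZero.ne _)] with b h1 h2 W hW
    obtain ⟨O, hO, hO'⟩ := h1 W hW
    exact ⟨O, hO, hO' (h2 W hW O hO)⟩
  obtain ⟨D, hD⟩ := e5_dat (Θ := Θ) (q := ResIsoG ℓ Θ k l) hk hθ hIH'
  have hP : ∀ i, Nonempty (E5G ℓ k l (gsp k B) Θ (D.W i) (D.O i) (AlgebraicClosure K)) :=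
    fun i => e5g_exists hkF (hD i).1 (hD i).2
  have hu : Ulu D.U D.O := Dat.ulu D hk hfgk hl hfgl hΘ htrl hF htg ht halg
  let P := fun i => (hP i).some
  obtain ⟨A, hA'⟩ := exists_lim D.U D.O (fun i => (P i).ρ.comp (rf (D.O i))) hu
  have hA : ∀ z, A z = gm D.U (fun i => (P i).ρ (rsP (D.O i) z)) := hA'
  obtain ⟨h, hhl, hh⟩ := e5g_lim hk hfgk hl hfgl hB htg ht halg hL D hu P A hA
  rw [hA, gm_mem_uSub] at hh
  have h1 : ∀ᶠ i in D.U, ∃ c ∈ l, (D.O i).valuation (h - c) < 1 := by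
    filter_upwards [hh, hu.ev_mem h] with i h2 h3
    obtain ⟨c, hc, hcO, hc'⟩ := mem_rbarP.1 ((P i).of_ρ hkF h2)
    exact ⟨c, hc, (rsP_eq h3 hcO).1 hc'.symm⟩
  have h2 : ∀ i, ∃ c ∈ l, (∃ c ∈ l, (D.O i).valuation (h - c) < 1) →
      (D.O i).valuation (h - c) < 1 := by
    intro i
    by_cases h : ∃ c ∈ l, (D.O i).valuation (h - c) < 1
    · obtain ⟨c, hc, hc'⟩ := h
      exact ⟨c, hc, fun _ => hc'⟩
    · exact ⟨0, l.zero_mem, fun h' => absurd h' h⟩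
  choose c hc hc' using h2
  exact case_gen hk hfgk hl hfgl hΘ htrl htg hu
    (fun v hv => D.mem_of_ev hk hfgk hF htg ht halg hv) hhl hc (h1.mono fun i hi => hc' i hi)

end Vale.Agent.P019P.N019
end

section

/-!
# The homomorphism of fields (perfect version)

`IsoOn.tendsto` is that of the old file.
-/

namespace Vale.Agent.P019P.N019

open Vale.Agent.P019

open Polynomial Filter

variable {K L : Type*} [Field K] [Field L] [PerfectField K] [PerfectField L] {ℓ : ℕ}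
  [Fact ℓ.Prime] [NeZero (ℓ : K)] [NeZero (ℓ : L)]
  {k : Subfield K} {l : Subfield L} {Θ : V ℓ K ≃ₗ[ZMod ℓ] V ℓ L}

theorem Hyp.Nm_add (H : Hyp ℓ k l Θ) {σ : K → L} (hσ : IsoOn k l σ) {e : ZMod ℓ} (he : e ≠ 0)
    {t s : K} {t' s' z' : L} (hts : Ind k s t) (ht : Nm k l Θ σ e t t') (hs : Nm k l Θ σ e s s')
    (hz : Nm k l Θ σ e (t + s) z') : z' = t' + s' := by
  obtain ⟨G', hG', hrel⟩ := H.rel hts.2 ht.rt hs.rt hz.rt (shift_add H.ack hts.1 t)
    (ht.psi hσ he) (hs.psi hσ he) (hz.psi hσ he)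
  by_contra hne
  have hne' : z' - s' - t' ≠ 0 := by
    intro h
    apply hne
    linear_combination h
  have hle : l ≤ adj G' s' := hG'.le.trans (le_adj G' s')
  have hun := hσ.tendsto.eventually ((hG'.unit hne').filter_mono (ae_mono hle))
  have := ae_neBot_of_isAlgClosed H.ack
  obtain ⟨a, ⟨⟨hrel, hun⟩, hak⟩⟩ := ((hrel.and hun).and (ae_mem k)).exists
  obtain ⟨i, j, A, hA, B, hB, C, hC, D, hD, hdet, hmob, W, hW, hval⟩ := hrel
  have hq : (ringExpChar L) ^ i = (ringExpChar L) ^ j ∧ C = 0 ∧ A = 1 * D ∧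
      B = σ a ^ (ringExpChar L) ^ i * D := by
    refine twist_mob (u := 1) (v := σ a ^ (ringExpChar L) ^ i) one_ne_zero hdet ?_
    refine IsoOn.infinite_of_ae H.ack hσ ?_
    filter_upwards [hmob, ae_mem k] with b hb hbk
    have h1 := hb.1
    rw [hσ.add a hak b hbk, add_pow_q] at h1
    linear_combination h1
  obtain ⟨hij, hC0, hAD, hBD⟩ := hq
  rw [one_mul] at hAD
  have hD0 : D ≠ 0 := by
    rintro rfl
    apply hdet
    rw [hC0]
    ring
  have hDu : W.valuation D = 1 := hW.triv.eq_one (hle hD) hD0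
  have h1 : W.valuation (z' - s' - σ a) < 1 := by
    have e1 : z' ^ (ringExpChar L) ^ i * (C * s' ^ (ringExpChar L) ^ j + D) -
        (A * s' ^ (ringExpChar L) ^ j + B) = D * (z' - s' - σ a) ^ (ringExpChar L) ^ i := by
      rw [sub_pow_q, sub_pow_q, ← hij, hC0, hAD, hBD]
      ring
    rw [e1, map_mul, hDu, one_mul, map_pow] at hval
    by_contra hge
    exact absurd hval (not_lt.2 (one_le_pow₀ (not_lt.1 hge)))
  have h2 : W.valuation (z' - s' - t') < 1 := by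
    have e1 : z' - s' - t' = (z' - s' - σ a) - (t' - σ a) := by ring
    rw [e1]
    exact lt_of_le_of_lt (Valuation.map_sub _ _ _) (max_lt h1 hW.lt)
  exact h2.ne (hun W hW)

theorem Hyp.Nm_mul (H : Hyp ℓ k l Θ) {σ : K → L} (hσ : IsoOn k l σ) {e : ZMod ℓ} (he : e ≠ 0)
    {t s : K} {t' s' z' : L} (hts : Ind k s t) (ht : Nm k l Θ σ e t t') (hs : Nm k l Θ σ e s s')
    (hz : Nm k l Θ σ e (t * s) z') : z' = t' * s' := by
  obtain ⟨G', hG', hrel⟩ := H.rel hts.2 ht.rt hs.rt hz.rt (shift_mul H.ack hts.1 t)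
    (ht.psi hσ he) (hs.psi hσ he) (hz.psi hσ he)
  by_contra hne
  have hne' : z' - t' * s' ≠ 0 := sub_ne_zero.2 hne
  have hle : l ≤ adj G' s' := hG'.le.trans (le_adj G' s')
  have hun := hσ.tendsto.eventually ((hG'.unit hne').filter_mono (ae_mono hle))
  have := ae_neBot_of_isAlgClosed H.ack
  have hne0 : ∀ᶠ a in ae k, a ≠ 0 := by
    rw [ae_iff]
    refine (Set.finite_singleton (0 : K)).subset ?_
    rintro a ⟨-, ha⟩
    rw [not_not] at ha
    exact ha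
  obtain ⟨a, ⟨⟨⟨hrel, hun⟩, hak⟩, ha0⟩⟩ := (((hrel.and hun).and (ae_mem k)).and hne0).exists
  obtain ⟨i, j, A, hA, B, hB, C, hC, D, hD, hdet, hmob, W, hW, hval⟩ := hrel
  have hσ0 : σ 0 = 0 := by
    have h1 := hσ.add 0 k.zero_mem 0 k.zero_mem
    rw [add_zero] at h1
    linear_combination -h1
  have hσa : σ a ≠ 0 := by
    intro h
    apply ha0
    exact hσ.inj hak k.zero_mem (h.trans hσ0.symm)
  have hq : (ringExpChar L) ^ i = (ringExpChar L) ^ j ∧ C = 0 ∧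
      A = σ a ^ (ringExpChar L) ^ i * D ∧ B = 0 * D := by
    refine twist_mob (u := σ a ^ (ringExpChar L) ^ i) (v := 0) (pow_ne_zero _ hσa) hdet ?_
    refine IsoOn.infinite_of_ae H.ack hσ ?_
    filter_upwards [hmob, ae_mem k] with b hb hbk
    have h1 := hb.1
    rw [hσ.mul a hak b hbk, mul_pow] at h1
    linear_combination h1
  obtain ⟨hij, hC0, hAD, hB0⟩ := hq
  rw [zero_mul] at hB0
  have hD0 : D ≠ 0 := by
    rintro rfl
    apply hdet
    rw [hC0]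
    ring
  have hDu : W.valuation D = 1 := hW.triv.eq_one (hle hD) hD0
  have h1 : W.valuation (z' - σ a * s') < 1 := by
    have e1 : z' ^ (ringExpChar L) ^ i * (C * s' ^ (ringExpChar L) ^ j + D) -
        (A * s' ^ (ringExpChar L) ^ j + B) = D * (z' - σ a * s') ^ (ringExpChar L) ^ i := by
      rw [sub_pow_q, mul_pow, ← hij, hC0, hAD, hB0]
      ring
    rw [e1, map_mul, hDu, one_mul, map_pow] at hval
    by_contra hge
    exact absurd hval (not_lt.2 (one_le_pow₀ (not_lt.1 hge)))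
  have hs1 : W.valuation s' ≤ 1 := (W.valuation_le_one_iff _).2 (hW.triv _ (mem_adj G' s'))
  have h2 : W.valuation (z' - t' * s') < 1 := by
    have e1 : z' - t' * s' = (z' - σ a * s') - (t' - σ a) * s' := by ring
    rw [e1]
    refine lt_of_le_of_lt (Valuation.map_sub _ _ _) (max_lt h1 ?_)
    rw [map_mul]
    exact lt_of_le_of_lt (mul_le_of_le_one_right' hs1) hW.lt
  exact h2.ne (hun W hW)

theorem Hyp.exists_alpha (H : Hyp ℓ k l Θ) : ∃ (σ : K → L) (e : ZMod ℓ) (A : K →+* L),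
    IsoOn k l σ ∧ e ≠ 0 ∧ (∀ b ∈ k, A b = σ b) ∧ ∀ s, Good k s → Nm k l Θ σ e s (A s) := by
  classical
  obtain ⟨σ, e, hσ, he, hall⟩ := H.exists_sigma
  let α : K → L := fun s => if h : Good k s then (hall s h).choose else 0
  have hα : ∀ s, Good k s → Nm k l Θ σ e s (α s) := by
    intro s hs
    have h1 : α s = (hall s hs).choose := dif_pos hs
    rw [h1]
    exact (hall s hs).choose_spec
  obtain ⟨A, hA⟩ := extend_hom {s | Good k s} (Ind k) α (fun x y h => h.symm H.ack)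
    (fun x y hx hy hxy hind => by
      have h1 : Good k (y + x) := by rw [add_comm]; exact hxy
      have h2 := H.Nm_add hσ he hind (hα y hy) (hα x hx) (hα (y + x) h1)
      rw [add_comm x y, h2, add_comm])
    (fun x y hx hy hxy hind => by
      have h1 : Good k (y * x) := by rw [mul_comm]; exact hxy
      have h2 := H.Nm_mul hσ he hind (hα y hy) (hα x hx) (hα (y * x) h1)
      rw [mul_comm x y, h2, mul_comm])
    (fun x hx h0 => by
      have h1 := (hα x hx).rt.good'.1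
      apply h1
      rw [h0]
      exact l.zero_mem)
    (fun A B hB => exists_gen_add H.ack H.fgk H.trk A B hB)
    (fun h t ht => exists_gen_mul H.ack H.fgk H.trk h t ht)
  have hAN : ∀ s, Good k s → Nm k l Θ σ e s (A s) := by
    intro s hs
    rw [hA s hs]
    exact hα s hs
  refine ⟨σ, e, A, hσ, he, ?_, hAN⟩
  intro b hb
  obtain ⟨t, ht⟩ := exists_gen_add H.ack H.fgk H.trk {0} ∅ (by simp)
  have hs : Good k (0 + t) := (ht 0 (by simp)).1
  have h1 := (hAN _ hs).add_const H.ack H.acl hσ he hb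
  have h2 := (hAN _ h1.rt.good).unique H.ack H.acl H.fgl hσ he h1
  rw [map_add] at h2
  exact add_left_cancel h2

end Vale.Agent.P019P.N019
end

section

/-!
# The main theorem
-/

namespace Vale.Agent.P019P.N019

open Vale.Agent.P019

open Polynomial Filter

variable {K L : Type*} [Field K] [Field L] [PerfectField K] [PerfectField L] {ℓ : ℕ} [Fact ℓ.Prime]
  [NeZero (ℓ : K)] [NeZero (ℓ : L)]
  {k : Subfield K} {l : Subfield L} {Θ : V ℓ K ≃ₗ[ZMod ℓ] V ℓ L}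

theorem Hyp.end_rel (H : Hyp ℓ k l Θ) {A : K →+* L} (hA : ∀ c ∈ k, A c ∈ l)
    (hA' : ∀ β ∈ l, ∃ b ∈ k, A b = β) {e : ZMod ℓ} (he : e ≠ 0) {t s : K}
    (ht : Rt k l Θ t (A t)) (hs : Rt k l Θ s (A s)) (hst : ¬ IsAlgebraic (adj k s) t)
    (hc : ∀ᶠ a in ae k, Cor k l Θ t (A t) e a (A a)) :
    ∃ F' : Subfield L, RatF l F' ∧ ¬ IsAlgebraic F' (A t) ∧
      (∀ z : L, IsAlgebraic (adj F' (A t)) z) ∧ adj l (A s) ≤ F' ∧
      ∀ᶠ a in ae k, ∃ u : ValuationSubring L, TrivOn u F' ∧ u.valuation (A t - A a) < 1 ∧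
        ∀ b ∈ k, Θ (cl ℓ (s - b) - cl ℓ (t + s - a - b)) ∈ U1 ℓ u := by
  have hrl := RAC_of_isAlgClosed l H.acl
  have hs' : ¬ IsAlgebraic l (A s) := fun h => hs.good'.1 (hrl _ h)
  have ht' : ¬ IsAlgebraic l (A t) := fun h => ht.good'.1 (hrl _ h)
  have hst' : ¬ IsAlgebraic (adj l (A s)) (A t) := fun h => hst (end_alg hA' h)
  obtain ⟨G, s₁, hR, hsG, hG⟩ := end_ratF H.acl H.fgl ht' (fun h => hst' (exchange hs' h))
  obtain ⟨θ, hθ⟩ := hG.nice H.fgl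
  have hlF : l ≤ adj G s₁ := hG.le.trans (le_adj _ _)
  have hsF : adj l (A s) ≤ adj G s₁ := adj_le hlF hsG
  refine ⟨adj G s₁, RatF.step hR hG.ss, hG.tt, hG.alg, hsF, ?_⟩
  have h1 : ∀ᶠ a in ae l, ∀ W : ValuationSubring L, Over W (adj G s₁) (A t) a →
      Nice W (adj G s₁) (A t - a) θ := ae_mono hlF hθ
  have h2 := ae_of_image hA h1
  filter_upwards [h2, hc, ae_mem k] with a h2 hc ha
  obtain ⟨W, hW⟩ := exists_over hG.tt (hlF (hA a ha))
  have hN := h2 W hW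
  have hWs : TrivOn W (adj l (A s)) := hN.triv.mono hsF
  have hfgF : FG l (adj G s₁) := hG.fg.adj_right _
  obtain ⟨O, hOk, hT⟩ := H.symm.exists_tr hlF hfgF hN hs.good' hWs
  have hOs : TrivOn O (adj k s) := H.symm.triv_crv hlF hfgF hN hOk hT hs.good'.1 hWs
    (Crv.of_good hs.good) (fun v hv => (hs.map _).1 (by rwa [LinearEquiv.apply_symm_apply]))
  have hOt : O.valuation (t - a) < 1 :=
    H.centre ht ha (hA a ha) he hc (hWs.mono (le_adj _ _)) hN.unif hOk hT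
  refine ⟨W, hN.triv, hW.lt, ?_⟩
  intro b hb
  have h3 : cl ℓ (s - b) - cl ℓ (t + s - a - b) ∈ U1 ℓ O := by
    rw [← neg_mem_iff, neg_sub]
    refine cl_sub_cl_mem_U1 (hOs.eq_one (Subfield.sub_mem _ (mem_adj _ _) (le_adj _ _ hb)) ?_) ?_
    · intro h
      rw [sub_eq_zero] at h
      exact hs.good.1 (h ▸ hb)
    · have h4 : t + s - a - b - (s - b) = t - a := by ring
      rw [h4]
      exact hOt
  have h4 := (hT.iff (Θ (cl ℓ (s - b) - cl ℓ (t + s - a - b)))).1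
  rw [LinearEquiv.symm_apply_apply] at h4
  exact h4 h3

theorem Hyp.exists_end (H : Hyp ℓ k l Θ) : ∃ (A : K →+* L) (e : ZMod ℓ), EndHyp ℓ k l Θ A e := by
  obtain ⟨σ, e, A, hσ, he, hA, hN⟩ := H.exists_alpha
  have h1 : ∀ c ∈ k, A c ∈ l := fun c hc => by rw [hA c hc]; exact hσ.mem c hc
  have h2 : ∀ β ∈ l, ∃ b ∈ k, A b = β := by
    intro β hβ
    obtain ⟨b, hb, rfl⟩ := hσ.surj β hβ
    exact ⟨b, hb, hA b hb⟩
  have h3 : ∀ s, Good k s → ∀ᶠ b in ae k, Cor k l Θ s (A s) e b (A b) := by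
    intro s hs
    filter_upwards [(hN s hs).cor, ae_mem k] with b hb hbk
    rwa [hA b hbk]
  exact ⟨A, e, he, h1, h2, fun s hs => (hN s hs).rt, h3, fun t s ht hs _ hst =>
    H.end_rel h1 h2 he (hN t ht).rt (hN s hs).rt hst (h3 t ht)⟩

theorem Hyp.final (H : Hyp ℓ k l Θ) :
    ∃ (c : (ZMod ℓ)ˣ) (α : K ≃+* L), (∀ x, x ∈ k ↔ α x ∈ l) ∧
      ∀ x : K, Θ (cl ℓ x) = (c : ZMod ℓ) • cl ℓ (α x) := by
  obtain ⟨A, e, E⟩ := H.exists_end
  exact EndHyp.final H E (fun y hy => H.symm.rt_all hy)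

end Vale.Agent.P019P.N019
end

section

/-!
# The main theorem from Step A in both directions
-/

namespace Vale.Agent.P019P.N019

open Vale.Agent.P019

open Polynomial Filter

variable {K L : Type*} [Field K] [Field L] [PerfectField K] [PerfectField L] {ℓ : ℕ}
  [Fact ℓ.Prime] [NeZero (ℓ : K)] [NeZero (ℓ : L)]

/-- the main theorem from Step A in both directions. -/
theorem final_of_stepA' {Θ : V ℓ K ≃ₗ[ZMod ℓ] V ℓ L}
    {k : Subfield K} (hk : IsAlgClosed k) (hfgk : FG k (⊤ : Subfield K))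
    {l : Subfield L} (hl : IsAlgClosed l) (hfgl : FG l (⊤ : Subfield L))
    (hΘ : Compatible Θ) (trk : ∃ x y : K, x ∉ k ∧ ¬ IsAlgebraic (adj k x) y)
    (trl : ∃ x y : L, x ∉ l ∧ ¬ IsAlgebraic (adj l x) y)
    (hA : ∀ t, Good k t → ∃ E : Subfield L, Crv l E ∧ ∀ v, Θ v ∈ VS ℓ E ↔ v ∈ VS ℓ (adj k t))
    (hA' : ∀ t, Good l t → ∃ E : Subfield K, Crv k E ∧
      ∀ v, Θ.symm v ∈ VS ℓ E ↔ v ∈ VS ℓ (adj l t)) :
    ∃ (c : (ZMod ℓ)ˣ) (α : K ≃+* L), (∀ x, x ∈ k ↔ α x ∈ l) ∧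
      ∀ x : K, Θ (cl ℓ x) = (c : ZMod ℓ) • cl ℓ (α x) := by
  have H : Hyp ℓ k l Θ := by
    refine ⟨hk, hl, hfgk, hfgl, trk, trl, hΘ, hA, hA', ?_, ?_, ?_, ?_⟩
    · intro U x hx hfin O hO
      obtain ⟨E, hE, h1⟩ := hA x hx
      exact fin1_ltr hl hfgl hE h1 hfin hO
    · intro U x hx hfin O hO
      obtain ⟨E, hE, h1⟩ := hA' x hx
      exact fin1_ltr (Θ := Θ.symm) hk hfgk hE h1 hfin hO
    · intro x y hx hy
      exact ae_iff.2 (bertini hk hfgk hx hy)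
    · intro x y hx hy
      exact ae_iff.2 (bertini hl hfgl hx hy)
  exact H.final

end Vale.Agent.P019P.N019
end

section

/-!
# The main theorem over arbitrary algebraically closed fields
-/

namespace Vale.Agent.P019P.N019

open Vale.Agent.P019

open Polynomial Filter

universe u v

/-- the main theorem in transcendence degree `n + 2`. -/
def R16Main (ℓ : ℕ) [Fact ℓ.Prime] (n : ℕ) : Prop := ∀ {K : Type u} {L : Type v} [Field K]
    [Field L] [PerfectField K] [PerfectField L] [NeZero (ℓ : K)] [NeZero (ℓ : L)]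
    {Θ : V ℓ K ≃ₗ[ZMod ℓ] V ℓ L} {k : Subfield K} (_ : IsAlgClosed k)
    (_ : FG k (⊤ : Subfield K)) {l : Subfield L} (_ : IsAlgClosed l)
    (_ : FG l (⊤ : Subfield L)) (_ : Compatible Θ) (_ : Td k (n + 2)) (_ : Td l (n + 2)),
    ∃ (c : (ZMod ℓ)ˣ) (α : K ≃+* L), (∀ x, x ∈ k ↔ α x ∈ l) ∧
      ∀ x : K, Θ (cl ℓ x) = (c : ZMod ℓ) • cl ℓ (α x)

theorem R16Main.symm {ℓ : ℕ} [Fact ℓ.Prime] {n : ℕ} (h : R16Main.{u, v} ℓ n) :
    R16Main.{v, u} ℓ n := by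
  intro K L _ _ _ _ _ _ Θ k hk hfgk l hl hfgl hΘ hK hL
  obtain ⟨c, α, h1, h2⟩ := h hl hfgl hk hfgk hΘ.symm hL hK
  refine ⟨c⁻¹, α.symm, fun x => ?_, fun x => ?_⟩
  · rw [h1, RingEquiv.apply_symm_apply]
  · have h3 := h2 (α.symm x)
    rw [RingEquiv.apply_symm_apply, LinearEquiv.symm_apply_eq, map_smul] at h3
    rw [h3, smul_smul, Units.inv_mul, one_smul]

/-- Step A from the main theorem for the residue fields. -/
theorem R16Main.stepA {ℓ : ℕ} [Fact ℓ.Prime] {n : ℕ} (ih : R16Main.{u, v} ℓ n)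
    {K : Type u} {L : Type v} [Field K] [Field L] [PerfectField K] [PerfectField L]
    [NeZero (ℓ : K)] [NeZero (ℓ : L)] {Θ : V ℓ K ≃ₗ[ZMod ℓ] V ℓ L} {k : Subfield K}
    (hk : IsAlgClosed k) (hfgk : FG k (⊤ : Subfield K)) {l : Subfield L}
    (hl : IsAlgClosed l) (hfgl : FG l (⊤ : Subfield L)) (hΘ : Compatible Θ)
    (hK : Td k (n + 3)) (hL : Td l (n + 3)) {t : K} (ht : Good k t) :
    ∃ E : Subfield L, Crv l E ∧ ∀ v, Θ v ∈ VS ℓ E ↔ v ∈ VS ℓ (adj k t) := by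
  classical
  haveI : PerfectField k := inferInstance
  obtain ⟨B, hBc, hB, htB, halg, -⟩ := Td.exists_basis hk hfgk (n := n + 2) hK ht.1
  have hBne : B.Nonempty := by
    rw [← Finset.card_pos, hBc]
    omega
  have hL' : Td l (B.card + 1) := by rw [hBc]; exact hL
  obtain ⟨θ, hθ⟩ := exists_over_nice hk hfgk hB htB halg
  refine stepAn_gen hk hfgk hl hfgl hΘ hB hBne ht htB halg hL' ?_
  filter_upwards [hθ] with b hb W hW
  have hN := hb.2 W hW
  have hWk : TrivOn W k := hN.triv.mono (le_gsp k B)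
  obtain ⟨y, hyB⟩ := id hBne
  have hyk : y ∉ k := fun h => hB ∅ (by simp) y hyB (by simp)
    (isAlgebraic_of_mem (le_gsp _ _ h))
  haveI := gsp_perfect k B
  obtain ⟨O, hT⟩ := exists_tr0 hk hfgk hl hΘ (le_gsp k B) (gsp_fg k B) hN hyk
    (hN.triv.mono (adj_le (le_gsp k B) (mem_gsp hyB)))
  refine ⟨O, hT, fun hOℓ => ?_⟩
  obtain ⟨hTdO, hFGO⟩ := res_td' hk hfgk hl hfgl hΘ hB hBne hL' hN hT
  obtain ⟨hTdW, hFGW⟩ := hN.td hB hWk
  haveI := rs_perfect hWk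
  haveI := rs_neZero (ℓ := ℓ) hWk
  haveI := rfp_neZero hOℓ
  obtain ⟨x, hx⟩ : ∃ x : IsLocalRing.ResidueField W, x ∉ bar hWk := by
    obtain ⟨B', hBc', hB', -⟩ := id hTdW
    have h0 : B'.Nonempty := by
      rw [← Finset.card_pos, hBc', hBc]
      omega
    obtain ⟨x, hx⟩ := h0
    refine ⟨x, fun h => hB' ∅ (by simp) x hx (by simp) ?_⟩
    exact isAlgebraic_of_mem (le_gsp _ _ h)
  have hNC : NoCtr ℓ (IsLocalRing.ResidueField W) := noCtr (bar_isAlgClosed hWk hk) hFGW hx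
  have hTA : TrA Θ W (hN.unif.fn ℓ) O := ⟨hT.unit hN.unif, hT.iff⟩
  have hAd : Adp W (hN.unif.fn ℓ) := IsUnif.adp (exists_neg hk) hN.unif
  obtain ⟨Θ', hΘ', hres⟩ := TrA.res hΘ (exists_neg hk) (exists_neg hl) hAd hTA hNC
  haveI : NeZero (ℓ : IsLocalRing.ResidueField O) := ⟨fun h => by
    apply NeZero.ne (ℓ : RFP O)
    have h1 := congrArg (rf O) h
    rwa [map_natCast, map_zero] at h1⟩
  let ΘQ : V ℓ (IsLocalRing.ResidueField W) ≃ₗ[ZMod ℓ] V ℓ (RFP O) :=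
    Θ'.trans (perfV ℓ (IsLocalRing.ResidueField O) (RFP O))
  have hΘQ : Compatible ΘQ := Compatible.trans hΘ' perfV_compatible
  rw [hBc] at hTdO hTdW
  obtain ⟨e, α, h1, h2⟩ := ih (bar_isAlgClosed hWk hk) hFGW (rbarP_ac hl O) hFGO hΘQ hTdW hTdO
  refine ⟨e, α, fun x => ?_, fun z y hz hy hzy => ?_⟩
  · rw [← h1, rbar_eq_bar hWk]
  · rw [← h2]
    change cl ℓ (rsP O y) = perfV ℓ (IsLocalRing.ResidueField O) (RFP O) (Θ' (cl ℓ (rs W z)))
    rw [hres z y hz hy hzy, perfV_apply, Vmap_cl]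
    rfl

theorem main_gen' {ℓ : ℕ} [Fact ℓ.Prime] (n : ℕ) : ∀ {K : Type u} {L : Type v} [Field K]
    [Field L] [PerfectField K] [PerfectField L] [NeZero (ℓ : K)] [NeZero (ℓ : L)]
    {Θ : V ℓ K ≃ₗ[ZMod ℓ] V ℓ L} {k : Subfield K} (_ : IsAlgClosed k)
    (_ : FG k (⊤ : Subfield K)) {l : Subfield L} (_ : IsAlgClosed l)
    (_ : FG l (⊤ : Subfield L)) (_ : Compatible Θ) (_ : Td k (n + 2)) (_ : Td l (n + 2)),
    ∃ (c : (ZMod ℓ)ˣ) (α : K ≃+* L), (∀ x, x ∈ k ↔ α x ∈ l) ∧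
      ∀ x : K, Θ (cl ℓ x) = (c : ZMod ℓ) • cl ℓ (α x) := by
  change R16Main.{u, v} ℓ n
  induction n with
  | zero =>
    intro K L _ _ _ _ _ _ Θ k hk hfgk l hl hfgl hΘ hK hL
    obtain ⟨t, s, hts⟩ := r16_srf hk hK
    obtain ⟨x, y, hxy⟩ := r16_srf hl hL
    exact final_of_stepA' hk hfgk hl hfgl hΘ (r16_two hk hK) (r16_two hl hL)
      (fun _ h => stepA2g hk hfgk hl hfgl hΘ hts hxy h)
      (fun _ h => stepA2g hl hfgl hk hfgk hΘ.symm hxy hts h)
  | succ n ih =>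
    intro K L _ _ _ _ _ _ Θ k hk hfgk l hl hfgl hΘ hK hL
    exact final_of_stepA' hk hfgk hl hfgl hΘ (r16_two hk hK) (r16_two hl hL)
      (fun _ h => R16Main.stepA ih hk hfgk hl hfgl hΘ hK hL h)
      (fun _ h => R16Main.stepA ih.symm hl hfgl hk hfgk hΘ.symm hL hK h)

/-- the main theorem. -/
theorem main_gen {K : Type u} {L : Type v} [Field K] [Field L] [PerfectField K] [PerfectField L]
    {ℓ : ℕ} [Fact ℓ.Prime] [NeZero (ℓ : K)] [NeZero (ℓ : L)] {Θ : V ℓ K ≃ₗ[ZMod ℓ] V ℓ L}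
    {k : Subfield K} (hk : IsAlgClosed k) (hfgk : FG k (⊤ : Subfield K))
    {l : Subfield L} (hl : IsAlgClosed l) (hfgl : FG l (⊤ : Subfield L))
    (hΘ : Compatible Θ) (trk : ∃ x y : K, x ∉ k ∧ ¬ IsAlgebraic (adj k x) y)
    (trl : ∃ x y : L, x ∉ l ∧ ¬ IsAlgebraic (adj l x) y) :
    ∃ (c : (ZMod ℓ)ˣ) (α : K ≃+* L), (∀ x, x ∈ k ↔ α x ∈ l) ∧
      ∀ x : K, Θ (cl ℓ x) = (c : ZMod ℓ) • cl ℓ (α x) := by
  obtain ⟨n, hn⟩ := r16_td hk hfgk trk
  obtain ⟨m, hm⟩ := r16_td hl hfgl trl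
  obtain ⟨B, hBc, hB⟩ := dim_ge' (n + 2) hk hfgk hl hΘ hn
  obtain ⟨B', hBc', hB'⟩ := dim_ge' (m + 2) hl hfgl hk hΘ.symm hm
  have h1 := hm.le hB
  have h2 := hn.le hB'
  obtain rfl : n = m := by omega
  exact main_gen' n hk hfgk hl hfgl hΘ hn hm

end Vale.Agent.P019P.N019
end

end

section

/-!
# Full faithfulness
-/

namespace Vale.Agent.P019P.N019

open Vale.Agent.P019P.H654

open Vale.Agent.P019

open Polynomial Filter

open scoped TensorProduct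

section main

universe u v

/-- transcendence degree at least two is inherited. -/
theorem two_of_compatible {K : Type u} {L : Type v} [Field K] [Field L] [PerfectField K]
    [PerfectField L] {ℓ : ℕ} [Fact ℓ.Prime] [NeZero (ℓ : K)] [NeZero (ℓ : L)]
    {Θ : V ℓ K ≃ₗ[ZMod ℓ] V ℓ L}
    {k : Subfield K} (hk : IsAlgClosed k) (hfgk : FG k (⊤ : Subfield K))
    {l : Subfield L} (hl : IsAlgClosed l)
    (hΘ : Compatible Θ) (trk : ∃ x y : K, x ∉ k ∧ ¬ IsAlgebraic (adj k x) y) :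
    ∃ x y : L, x ∉ l ∧ ¬ IsAlgebraic (adj l x) y := by
  classical
  haveI : PerfectField l := inferInstance
  obtain ⟨n, hn⟩ := r16_td hk hfgk trk
  obtain ⟨B, hBc, hB⟩ := dim_ge' (n + 2) hk hfgk hl hΘ hn
  obtain ⟨x, hx, y, hy, hxy⟩ := Finset.one_lt_card.1 (show 1 < B.card by omega)
  refine ⟨x, y, fun hxk => ?_, fun hya => ?_⟩
  · exact hB ∅ (by simp) x hx (by simp) (isAlgebraic_of_mem (le_gsp _ _ hxk))
  · have e1 : gsp l (insert x ∅) = adj l x := by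
      rw [gsp_insert, gsp_empty]
    refine hB (insert x ∅) (by simpa using hx) y hy (by simpa using hxy.symm) ?_
    rw [e1]
    exact hya

variable {K L : Type*} [Field K] [Field L] {ℓ : ℕ} [Fact ℓ.Prime] [NeZero (ℓ : K)]
  [NeZero (ℓ : L)]
  {K' L' : Type*} [Field K'] [Field L'] [Algebra K K'] [Algebra L L']
  [PerfectField K'] [PerfectField L'] [IsPurelyInseparable K K'] [IsPurelyInseparable L L']
  [NeZero (ℓ : K')] [NeZero (ℓ : L')]

end main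

end Vale.Agent.P019P.N019

end
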